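import Vale.Agent.P284.H494.Pole

/-!
# P284 (helper494): square integrable quotients are holomorphic
-/

open Set Filter Metric Topology MeasureTheory
open scoped ENNReal

namespace Vale.Agent.P284.H494

/-- A square integrable quotient `α / β` of holomorphic functions is holomorphic. -/
theorem l2_quot {q : ℕ} {W : Type*} [NormedAddCommGroup W] [InnerProductSpace ℂ W]
    [CompleteSpace W] {β : (Fin q → ℂ) → ℂ} {α : (Fin q → ℂ) → W} {x₀ : Fin q → ℂ}
    (hβ : AnalyticAt ℂ β x₀) (hα : AnalyticAt ℂ α x₀) (h0 : ¬ ∀ᶠ x in 𝓝 x₀, β x = 0) {r₀ : ℝ}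
    (hr₀ : 0 < r₀) (hL : ∫⁻ z in ball x₀ r₀ ∩ {z | β z ≠ 0}, ‖(β z)⁻¹ • α z‖ₑ ^ 2 ≠ ⊤) :
    ∃ ψ : (Fin q → ℂ) → W, AnalyticAt ℂ ψ x₀ ∧ ∀ᶠ x in 𝓝 x₀, β x • ψ x = α x := by
  have hall : ∀ᶠ x in 𝓝 x₀, DifferentiableAt ℂ β x ∧ DifferentiableAt ℂ α x := by
    filter_upwards [hβ.eventually_analyticAt, hα.eventually_analyticAt] with x a b
      using ⟨a.differentiableAt, b.differentiableAt⟩
  obtain ⟨r₁, hr₁, hball⟩ := Metric.eventually_nhds_iff_ball.1 hall
  set r : ℝ := min r₀ r₁ with hrdef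
  have hr : 0 < r := lt_min hr₀ hr₁
  have hr0 : ball x₀ r ⊆ ball x₀ r₀ := ball_subset_ball (min_le_left _ _)
  have hr1 : ball x₀ r ⊆ ball x₀ r₁ := ball_subset_ball (min_le_right _ _)
  have hβd : DifferentiableOn ℂ β (ball x₀ r) := fun x hx =>
    (hball x (hr1 hx)).1.differentiableWithinAt
  have hαd : DifferentiableOn ℂ α (ball x₀ r) := fun x hx =>
    (hball x (hr1 hx)).2.differentiableWithinAt
  obtain ⟨M, u, hM⟩ := exists_deriv_ne hβ h0
  have hx₀' : x₀ + (0 : ℂ) • u ∈ ball x₀ r := by simpa using hr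
  have hu : ∀ᶠ τ in 𝓝[≠] (0 : ℂ), β (x₀ + τ • u) ≠ 0 := by
    obtain ⟨c, hc, h2⟩ := lower_bound (M := M) (line_analytic hβd hx₀') (by
      rw [line_deriv hβd M hx₀']
      simpa using hM)
    filter_upwards [eventually_nhdsWithin_of_eventually_nhds h2, self_mem_nhdsWithin] with τ h3 h4
    have h5 : 0 < ‖τ - 0‖ := norm_pos_iff.2 (sub_ne_zero.2 h4)
    have h6 : 0 < c * ‖τ - 0‖ ^ M := by positivity
    exact norm_pos_iff.1 (h6.trans_le h3)
  have hOo : IsOpen (ball x₀ r ∩ {z | β z ≠ 0}) := by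
    have : ball x₀ r ∩ {z | β z ≠ 0} = ball x₀ r ∩ β ⁻¹' {0}ᶜ := by
      ext z; simp
    rw [this]
    exact hβd.continuousOn.isOpen_inter_preimage isOpen_ball isOpen_compl_singleton
  have hfc : ContinuousOn (fun z => (β z)⁻¹ • α z) (ball x₀ r ∩ {z | β z ≠ 0}) := by
    refine ContinuousOn.smul (ContinuousOn.inv₀ (hβd.continuousOn.mono inter_subset_left)
      fun z hz => hz.2) (hαd.continuousOn.mono inter_subset_left)
  set φ : (Fin q → ℂ) → ℝ≥0∞ :=
    (ball x₀ r ∩ {z | β z ≠ 0}).indicator fun z => ‖(β z)⁻¹ • α z‖ₑ ^ 2 with hφ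
  have hφm : Measurable φ := by
    classical
    have h2 := ((ENNReal.continuous_pow 2).comp_continuousOn hfc.enorm).measurable_piecewise
      (g := (0 : (Fin q → ℂ) → ℝ≥0∞)) continuousOn_const hOo.measurableSet
    rwa [Set.piecewise_eq_indicator] at h2
  have hφi : ∫⁻ z, φ z ≠ ⊤ := by
    rw [hφ, lintegral_indicator hOo.measurableSet]
    exact ne_top_of_le_ne_top hL (lintegral_mono_set (inter_subset_inter_left _ hr0))
  have hae : ∀ᵐ z ∂(volume : Measure (Fin q → ℂ)), ∀ N : ℕ,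
      ∫⁻ t in ball (0 : ℂ) N, φ (z + t • u) < ⊤ :=
    ae_all_iff.2 fun N => Vale.Agent.P271.H408.ext_fubini hφm hφi u N
  have hdense : Dense {z : Fin q → ℂ | ∀ N : ℕ, ∫⁻ t in ball (0 : ℂ) N, φ (z + t • u) < ⊤} :=
    Measure.dense_of_ae hae
  obtain ⟨ρ, hρ, -, ψ, hψ, hψe⟩ := line_ext (Φ := α) hr hβd hαd hu (fun a => by
    refine hdense.mono ?_
    rintro z hz ⟨t₀, ht₀, hβt₀⟩ t ht
    obtain ⟨N, hN⟩ := exists_nat_gt ‖t‖
    have hlc : Continuous fun τ : ℂ => z + τ • u := by fun_prop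
    set D₀ : Set ℂ := (fun τ : ℂ => z + τ • u) ⁻¹' ball x₀ r with hD₀
    have hD₀o : IsOpen D₀ := isOpen_ball.preimage hlc
    have hD₀c : IsPreconnected D₀ := by
      have h1 : Convex ℝ D₀ := by
        intro a ha b hb s s' hs hs' hss
        have h2 := (convex_ball x₀ r) ha hb hs hs' hss
        have h3 : s • (z + a • u) + s' • (z + b • u) = z + (s • a + s' • b) • u := by
          have : s' = 1 - s := by linarith
          subst this
          simp only [smul_add, add_smul, smul_assoc, sub_smul, one_smul]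
          abel
        rw [h3] at h2
        exact h2
      exact h1.isPreconnected
    have hk : AnalyticOnNhd ℂ (fun τ : ℂ => β (z + τ • u)) D₀ := fun τ hτ => line_analytic hβd hτ
    have hiso : ∀ c ∈ D₀, ∀ᶠ τ in 𝓝[≠] c, β (z + τ • u) ≠ 0 := by
      intro c hc
      rcases (hk c hc).eventually_eq_zero_or_eventually_ne_zero with h2 | h2
      · exfalso
        exact hβt₀ (hk.eqOn_zero_of_preconnected_of_eventuallyEq_zero hD₀c hc h2 ht₀)
      · exact h2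
    have hD : IsOpen (D₀ ∩ ball 0 (N : ℝ)) := hD₀o.inter isOpen_ball
    set g : ℂ → ℂ := fun τ => (β (z + τ • u))⁻¹ * inner ℂ a (α (z + τ • u)) with hg
    have hgd : DifferentiableOn ℂ g ((D₀ ∩ ball 0 (N : ℝ)) \ {τ | β (z + τ • u) = 0}) := by
      rintro τ ⟨⟨h1, -⟩, h2⟩
      have h3 : DifferentiableAt ℂ (fun τ : ℂ => α (z + τ • u)) τ :=
        (line_analytic hαd h1).differentiableAt
      have h4 : DifferentiableAt ℂ (fun τ : ℂ => inner ℂ a (α (z + τ • u))) τ :=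
        ((innerSL ℂ a).differentiableAt (x := α (z + τ • u))).comp τ h3
      exact (((hk τ h1).differentiableAt.inv h2).mul h4).differentiableWithinAt
    have hDZ : (D₀ ∩ ball 0 (N : ℝ)) \ {τ | β (z + τ • u) = 0} =
        (fun τ : ℂ => z + τ • u) ⁻¹' (ball x₀ r ∩ {z | β z ≠ 0}) ∩ ball 0 (N : ℝ) := by
      ext τ
      constructor
      · rintro ⟨⟨h1, h2⟩, h3⟩
        exact ⟨⟨h1, h3⟩, h2⟩
      · rintro ⟨⟨h1, h3⟩, h2⟩
        exact ⟨⟨h1, h2⟩, h3⟩
    have hopenDZ : IsOpen ((D₀ ∩ ball 0 (N : ℝ)) \ {τ | β (z + τ • u) = 0}) := by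
      rw [hDZ]
      exact (hOo.preimage hlc).inter isOpen_ball
    have hgL : ∫⁻ τ in (D₀ ∩ ball 0 (N : ℝ)) \ {τ | β (z + τ • u) = 0}, ‖g τ‖ₑ ^ 2 ≠ ⊤ := by
      have h1 : ∫⁻ τ in (D₀ ∩ ball 0 (N : ℝ)) \ {τ | β (z + τ • u) = 0}, ‖g τ‖ₑ ^ 2 ≤
          ∫⁻ τ in (D₀ ∩ ball 0 (N : ℝ)) \ {τ | β (z + τ • u) = 0},
            ‖a‖ₑ ^ 2 * φ (z + τ • u) := by
        refine setLIntegral_mono' hopenDZ.measurableSet fun τ hτ => ?_
        rw [hDZ] at hτ
        have h2 : z + τ • u ∈ ball x₀ r ∩ {z | β z ≠ 0} := hτ.1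
        rw [hφ, Set.indicator_of_mem h2, ← mul_pow]
        have h3 : g τ = inner ℂ a ((β (z + τ • u))⁻¹ • α (z + τ • u)) := by
          rw [inner_smul_right]
        rw [h3]
        gcongr
        rw [← ofReal_norm, ← ofReal_norm, ← ofReal_norm, ← ENNReal.ofReal_mul (norm_nonneg _)]
        exact ENNReal.ofReal_le_ofReal (norm_inner_le_norm _ _)
      refine ne_top_of_le_ne_top ?_ (h1.trans (lintegral_mono_set
        (t := ball 0 (N : ℝ)) fun τ hτ => hτ.1.2))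
      rw [lintegral_const_mul (‖a‖ₑ ^ 2) (f := fun τ : ℂ => φ (z + τ • u)) (hφm.comp hlc.measurable)]
      exact ENNReal.mul_ne_top (by simp) (hz N).ne
    obtain ⟨G, hG1, hG2⟩ := Vale.Agent.P271.H408.removable_L2_one hD
      (fun c hc => hiso c hc.1) hgd hgL
    have htD : t ∈ D₀ ∩ ball 0 (N : ℝ) := ⟨ht, by simpa using hN⟩
    have h1 : ∀ᶠ τ in 𝓝 t, ‖G τ‖ < ‖G t‖ + 1 :=
      (hG1.differentiableAt (hD.mem_nhds htD)).continuousAt.norm.eventually
        (gt_mem_nhds (by linarith))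
    refine ⟨‖G t‖ + 1, ?_⟩
    filter_upwards [eventually_nhdsWithin_of_eventually_nhds h1, hiso t ht,
      mem_nhdsWithin_of_mem_nhds (hD.mem_nhds htD)] with τ h2 h3 h4
    have h5 : G τ = g τ := hG2 ⟨h4, h3⟩
    rw [h5, hg] at h2
    simp only [norm_mul, norm_inv] at h2
    have h6 : 0 < ‖β (z + τ • u)‖ := norm_pos_iff.2 h3
    rw [inv_mul_lt_iff₀ h6] at h2
    linarith)
  refine ⟨ψ, Vale.Agent.P268.analyticAt_of_differentiableOn isOpen_ball hψ (mem_ball_self hρ), ?_⟩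
  filter_upwards [ball_mem_nhds x₀ hρ] with x hx using hψe x hx

end Vale.Agent.P284.H494
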