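import Vale.Agent.P284.H494.PerL
import Vale.Agent.P284.H494.L2Q

/-!
# P284 (helper494): local lemmas
-/

open scoped Manifold ContDiff Topology
open Filter Set Metric

noncomputable section

namespace Vale.Agent.P284.H494

open Vale.Agent.P272.K Vale.Agent.P284.H894.W Vale.Agent.P284.H894.G Vale.Agent.P284.H10

/-- A nonzero holomorphic germ is nonzero at all nearby points. -/
theorem not_ev_zero {P W : Type*} [NormedAddCommGroup P] [NormedSpace ℂ P]
    [NormedAddCommGroup W] [NormedSpace ℂ W] [CompleteSpace W] {g : P → W} {x₀ : P}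
    (hg : AnalyticAt ℂ g x₀)
    (h0 : ¬ ∀ᶠ x in 𝓝 x₀, g x = 0) : ∀ᶠ x in 𝓝 x₀, ¬ ∀ᶠ x' in 𝓝 x, g x' = 0 := by
  obtain ⟨r, hr, hb⟩ := Metric.eventually_nhds_iff_ball.1 hg.eventually_analyticAt
  filter_upwards [ball_mem_nhds x₀ hr] with x hx h1
  have h2 : EqOn g 0 (ball x₀ r) :=
    (show AnalyticOnNhd ℂ g (ball x₀ r) from hb).eqOn_zero_of_preconnected_of_eventuallyEq_zero
      (by
        have : NormedSpace ℝ P := NormedSpace.restrictScalars ℝ ℂ P
        exact (convex_ball x₀ r).isPreconnected) hx h1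
  apply h0
  filter_upwards [ball_mem_nhds x₀ hr] with x' hx' using h2 hx'

/-- The product of two nonzero holomorphic germs is nonzero. -/
theorem mul_not_ev_zero {P : Type*} [NormedAddCommGroup P] [NormedSpace ℂ P]
    {g k : P → ℂ} {x₀ : P} (hg : AnalyticAt ℂ g x₀) (hk : AnalyticAt ℂ k x₀)
    (h0 : ¬ ∀ᶠ x in 𝓝 x₀, g x = 0) (h1 : ¬ ∀ᶠ x in 𝓝 x₀, k x = 0) :
    ¬ ∀ᶠ x in 𝓝 x₀, g x * k x = 0 := by
  intro h2
  have h3 : ∃ᶠ x in 𝓝 x₀, g x ≠ 0 := Filter.not_eventually.1 h0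
  obtain ⟨x, hx, hk0, h4, hg2⟩ := (h3.and_eventually ((not_ev_zero hk h1).and
    (h2.eventually_nhds.and hg.eventually_analyticAt))).exists
  apply hk0
  filter_upwards [h4, hg2.continuousAt.eventually_ne hx] with x' h5 h6
  exact (mul_eq_zero.1 h5).resolve_left h6

/-- straightening of a submersion -/
theorem straight {n r : ℕ} {T : (Fin n → ℂ) → Fin r → ℂ} {z₀ : Fin n → ℂ}
    (hT : AnalyticAt ℂ T z₀) (hs : Function.Surjective (fderiv ℂ T z₀)) :
    ∃ (K : Submodule ℂ (Fin n → ℂ)) (κ : (Fin n → ℂ) → K) (Ψ : (Fin r → ℂ) × K → Fin n → ℂ),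
      AnalyticAt ℂ κ z₀ ∧ AnalyticAt ℂ Ψ (T z₀, κ z₀) ∧
      (∀ᶠ z in 𝓝 z₀, Ψ (T z, κ z) = z) ∧
      ∀ᶠ x in 𝓝 (T z₀, κ z₀), T (Ψ x) = x.1 ∧ κ (Ψ x) = x.2 := by
  have hF : ContDiffAt ℂ ω T z₀ := hT.contDiffAt
  set L := fderiv ℂ T z₀ with hL
  set K : Submodule ℂ (Fin n → ℂ) := LinearMap.ker (L : (Fin n → ℂ) →ₗ[ℂ] Fin r → ℂ) with hK
  obtain ⟨Q, hQ⟩ : K.ClosedComplemented := Submodule.ClosedComplemented.of_finiteDimensional _
  set Φ : (Fin n → ℂ) → (Fin r → ℂ) × K := fun x => (T x, Q (x - z₀)) with hΦ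
  have hrange : LinearMap.range (L : (Fin n → ℂ) →ₗ[ℂ] Fin r → ℂ) = ⊤ :=
    LinearMap.range_eq_top.2 hs
  have hdim : Module.finrank ℂ ((Fin r → ℂ) × K) = Module.finrank ℂ (Fin n → ℂ) := by
    rw [Module.finrank_prod]
    have h1 := LinearMap.finrank_range_add_finrank_ker (L : (Fin n → ℂ) →ₗ[ℂ] Fin r → ℂ)
    rw [hrange, finrank_top] at h1
    exact h1
  let D : (Fin n → ℂ) →L[ℂ] (Fin r → ℂ) × K := L.prod Q
  have hD : Function.Injective D := by
    intro v v' hv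
    have h1 : D (v - v') = 0 := by rw [map_sub, hv, sub_self]
    have h4 : L (v - v') = 0 := congrArg Prod.fst h1
    have h3 : Q (v - v') = 0 := congrArg Prod.snd h1
    have h5 := hQ ⟨v - v', h4⟩
    have h6 : (⟨v - v', h4⟩ : K) = 0 := by rw [← h5]; exact h3
    exact sub_eq_zero.1 (congrArg Subtype.val h6)
  let e : (Fin n → ℂ) ≃L[ℂ] (Fin r → ℂ) × K := (LinearEquiv.ofInjectiveOfFinrankEq
    (D : (Fin n → ℂ) →ₗ[ℂ] (Fin r → ℂ) × K) hD hdim.symm).toContinuousLinearEquiv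
  have hκc : AnalyticAt ℂ (fun x => Q (x - z₀)) z₀ :=
    (Q.analyticAt _).comp (analyticAt_id.sub analyticAt_const)
  have hΦc : ContDiffAt ℂ ω Φ z₀ := hF.prodMk hκc.contDiffAt
  have hΦd : HasFDerivAt Φ (e : (Fin n → ℂ) →L[ℂ] (Fin r → ℂ) × K) z₀ := by
    have h1 : HasFDerivAt Φ D z₀ := by
      refine HasFDerivAt.prodMk ?_ ?_
      · exact hT.differentiableAt.hasFDerivAt
      · have h2 : HasFDerivAt (fun x : Fin n → ℂ => x - z₀)
            (ContinuousLinearMap.id ℂ (Fin n → ℂ)) z₀ := (hasFDerivAt_id z₀).sub_const z₀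
        exact Q.hasFDerivAt.comp z₀ h2
    have h2 : (e : (Fin n → ℂ) →L[ℂ] (Fin r → ℂ) × K) = D := by
      ext v <;> rfl
    rw [h2]
    exact h1
  have hn : (ω : WithTop ℕ∞) ≠ 0 := by simp
  set R := hΦc.toOpenPartialHomeomorph Φ hΦd hn with hR
  have hx₀ : z₀ ∈ R.source := hΦc.mem_toOpenPartialHomeomorph_source hΦd hn
  refine ⟨K, fun x => Q (x - z₀), R.symm, hκc, ?_, ?_, ?_⟩
  · have := hΦc.to_localInverse hΦd hn
    exact this.analyticAt
  · filter_upwards [R.open_source.mem_nhds hx₀] with x hx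
    exact R.left_inv hx
  · have h1 : Φ z₀ ∈ R.target := R.map_source hx₀
    filter_upwards [R.open_target.mem_nhds h1] with x hx
    have h2 : Φ (R.symm x) = x := R.right_inv hx
    exact ⟨congrArg Prod.fst h2, congrArg Prod.snd h2⟩

section
variable {n : ℕ} {X : Type} [TopologicalSpace X] [ChartedSpace (Cm n) X] {E : Type}
  [TopologicalSpace E] {p : E → X}

/-- lift of a given chart of `X` to the covering space -/
theorem exists_ch_at (hp : IsCoveringMap p) {y : E} {e : Chart n X} (he : At e (p y)) {O : Set E}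
    (hO : O ∈ 𝓝 y) : ∃ ε : OpenPartialHomeomorph E (Cm n), IsCh p e ε ∧ y ∈ ε.source ∧
      ε.source ⊆ O ∧ Convex ℝ ε.target := by
  obtain ⟨f, hf1, hf2⟩ := hp.isLocalHomeomorph y
  set ε₁ := (f.trans e).restrOpen (interior O) isOpen_interior with hε₁
  have h1 : y ∈ ε₁.source := by
    rw [hε₁, OpenPartialHomeomorph.restrOpen_source, OpenPartialHomeomorph.trans_source]
    refine ⟨⟨hf1, ?_⟩, mem_interior_iff_mem_nhds.2 hO⟩
    show f y ∈ e.source
    rw [← hf2]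
    exact he.2
  obtain ⟨r, hr, hb⟩ := Metric.isOpen_iff.1 ε₁.open_target _ (ε₁.map_source h1)
  set ε₂ := (ε₁.symm.restrOpen (ball (ε₁ y) r) isOpen_ball).symm with hε₂
  have hs : ∀ y' ∈ ε₂.source, y' ∈ ε₁.source ∧ ε₂ y' = ε₁ y' := by
    intro y' hy'
    refine ⟨?_, rfl⟩
    have h2 : y' ∈ (ε₁.symm.restrOpen (ball (ε₁ y) r) isOpen_ball).target := hy'
    simp at h2
    exact h2.1
  refine ⟨ε₂, ⟨he.1, ?_, ?_⟩, ?_, ?_, ?_⟩
  · intro y' hy'
    obtain ⟨h2, -⟩ := hs y' hy'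
    rw [hε₁, OpenPartialHomeomorph.restrOpen_source, OpenPartialHomeomorph.trans_source] at h2
    have h3 : f y' ∈ e.source := h2.1.2
    rw [← hf2] at h3
    exact h3
  · intro y' hy'
    show e (f y') = e (p y')
    rw [← hf2]
  · show y ∈ (ε₁.symm.restrOpen (ball (ε₁ y) r) isOpen_ball).target
    simp
    exact ⟨h1, hr⟩
  · intro y' hy'
    obtain ⟨h2, -⟩ := hs y' hy'
    rw [hε₁, OpenPartialHomeomorph.restrOpen_source] at h2
    exact interior_subset h2.2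
  · have h2 : ε₂.target = ball (ε₁ y) r := by
      show (ε₁.symm.restrOpen (ball (ε₁ y) r) isOpen_ball).source = _
      rw [OpenPartialHomeomorph.restrOpen_source]
      exact inter_eq_right.2 hb
    rw [h2]
    exact convex_ball _ _

theorem IsCh.map_nhds {e : Chart n X} {ε : OpenPartialHomeomorph E (Cm n)} (h : IsCh p e ε)
    {y : E} (hy : y ∈ ε.source) : map (fun y' => e (p y')) (𝓝 y) = 𝓝 (e (p y)) := by
  rw [← h.eq y hy, ← ε.map_nhds_eq hy]
  refine Filter.map_congr ?_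
  filter_upwards [ε.open_source.mem_nhds hy] with y' hy' using (h.eq y' hy').symm

theorem map_nhds (hp : IsCoveringMap p) {y : E} {e : Chart n X} (he : At e (p y)) :
    map (fun y' => e (p y')) (𝓝 y) = 𝓝 (e (p y)) := by
  obtain ⟨ε, hε, hy, -, -⟩ := exists_ch_at hp he univ_mem
  exact IsCh.map_nhds hε hy

theorem IsCh.symm_tendsto {ε : OpenPartialHomeomorph E (Cm n)}
    {y : E} (hy : y ∈ ε.source) : Tendsto ε.symm (𝓝 (ε y)) (𝓝 y) := by
  have := ε.continuousAt_symm (ε.map_source hy)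
  unfold ContinuousAt at this
  rwa [ε.left_inv hy] at this

variable {w : Chart n X → Cm n → Matrix (Fin n) (Fin n) ℂ} {q r : ℕ} {F : E → Cm q} {B : ℝ}

theorem IsCh.analytic {e : Chart n X} {ε : OpenPartialHomeomorph E (Cm n)} (h : IsCh p e ε)
    (hF : HolB p w F B) : AnalyticOnNhd ℂ (F ∘ ε.symm) ε.target :=
  Vale.Agent.P268.analyticOnNhd_of_differentiableOn ε.open_target (h.diff hF)

/-- `F` is open at regular points -/
theorem reg_map_nhds [IsManifold 𝓘(ℂ, Cm n) ω X] (hp : IsCoveringMap p) (hF : HolB p w F B) {y : E}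
    (hy : Reg (n := n) p F y) : map F (𝓝 y) = 𝓝 (F y) := by
  obtain ⟨e, ε, hε, hyε, -, -⟩ := exists_ch (n := n) hp y univ_mem
  have h1 := (hε.reg_iff hp hF hyε).1 hy
  have h2 : ContDiffAt ℂ ω (F ∘ ε.symm) (ε y) :=
    (IsCh.analytic hε hF _ (ε.map_source hyε)).contDiffAt
  have h3 : HasStrictFDerivAt (F ∘ ε.symm) (fderiv ℂ (F ∘ ε.symm) (ε y)) (ε y) :=
    h2.hasStrictFDerivAt (by simp)
  have h4 := h3.map_nhds_eq_of_surj (LinearMap.range_eq_top.2 h1)
  rw [Function.comp_apply, ε.left_inv hyε] at h4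
  rw [← h4, ← ε.map_nhds_eq hyε, Filter.map_map]
  refine Filter.map_congr ?_
  filter_upwards [ε.open_source.mem_nhds hyε] with y' hy'
  simp [ε.left_inv hy']

/-- `π ∘ F` is holomorphic -/
theorem holB_comp (π : Cm q →L[ℂ] Cm r) (hF : HolB p w F B) :
    HolB p w (fun y => π (F y)) (‖π‖ ^ 2 * B) := by
  intro y e he
  obtain ⟨f, h1, h2, h3⟩ := hF y e he
  refine ⟨fun z => π (f z), ?_, ?_, fun v => ?_⟩
  · filter_upwards [h1] with y' hy'
    rw [hy']
  · filter_upwards [h2] with z hz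
    exact π.differentiableAt.comp z hz
  · have h4 : fderiv ℂ (fun z => π (f z)) (e (p y)) = π.comp (fderiv ℂ f (e (p y))) :=
      (π.hasFDerivAt.comp (e (p y)) h2.self_of_nhds.hasFDerivAt).fderiv
    rw [h4, ContinuousLinearMap.comp_apply]
    have h5 := π.le_opNorm (fderiv ℂ f (e (p y)) v)
    have h6 := h3 v
    calc ‖π (fderiv ℂ f (e (p y)) v)‖ ^ 2 ≤ (‖π‖ * ‖fderiv ℂ f (e (p y)) v‖) ^ 2 := by gcongr
      _ = ‖π‖ ^ 2 * ‖fderiv ℂ f (e (p y)) v‖ ^ 2 := by ring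
      _ ≤ ‖π‖ ^ 2 * (B * (∑ j, ∑ k, w e (e (p y)) j k * v j * (starRingEnd ℂ) (v k)).re) := by
          gcongr
      _ = _ := by ring

theorem reg_comp [IsManifold 𝓘(ℂ, Cm n) ω X] (hp : IsCoveringMap p) (π : Cm q →L[ℂ] Cm r) (hπ : Function.Surjective π)
    (hF : HolB p w F B) {y : E} (hy : Reg (n := n) p F y) :
    Reg (n := n) p (fun y => π (F y)) y := by
  obtain ⟨e, ε, hε, hyε, -, -⟩ := exists_ch (n := n) hp y univ_mem
  have h1 := (hε.reg_iff hp hF hyε).1 hy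
  refine (hε.reg_iff hp (holB_comp π hF) hyε).2 ?_
  have h2 : fderiv ℂ ((fun y => π (F y)) ∘ ε.symm) (ε y) =
      π.comp (fderiv ℂ (F ∘ ε.symm) (ε y)) :=
    (π.hasFDerivAt.comp (ε y)
      (IsCh.analytic hε hF _ (ε.map_source hyε)).differentiableAt.hasFDerivAt).fderiv
  rw [h2]
  exact hπ.comp h1

end

end Vale.Agent.P284.H494
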