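import Vale.Agent.P284.H494.TailS
import Vale.Agent.P284.H10.S4i

/-!
# P284 (helper494): holomorphic maps with discrete periods, critical values
-/

open scoped Manifold ContDiff Topology
open Filter Set Metric

noncomputable section

namespace Vale.Agent.P284.H494

open Vale.Agent.P272.K Vale.Agent.P284.H894.W Vale.Agent.P284.H894.G Vale.Agent.P284.H10

section
variable {n : ℕ} {X : Type} [TopologicalSpace X] [ChartedSpace (Cm n) X] {E : Type}
  [TopologicalSpace E] {p : E → X} {Γ : Type} [Group Γ] [MulAction Γ E]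
  {w : Chart n X → Cm n → Matrix (Fin n) (Fin n) ℂ} {q : ℕ} {F : E → Cm q} {c : Γ → Cm q}

theorem Per.add [Nonempty E] (hP : Per p w F c) (g k : Γ) : c (g * k) = c g + c k := by
  obtain ⟨y⟩ := ‹Nonempty E›
  have h1 := hP.equiv (g * k) y
  rw [mul_smul, hP.equiv g, hP.equiv k, add_assoc] at h1
  have h2 := add_left_cancel h1
  rw [← h2, add_comm]

theorem Per.continuous (hp : IsCoveringMap p) (hP : Per p w F c) : Continuous F := by
  obtain ⟨B, hB⟩ := hP.hol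
  exact hol_continuous hp hB

/-- the kernel of the periods acts cocompactly over balls -/
theorem Per.exists_compact [CompactSpace X] [Nonempty E] (hp : IsGalois Γ p)
    (hP : Per p w F c) (r : ℝ) :
    ∃ C : Set E, IsCompact C ∧ ∀ y, ‖F y‖ ≤ r → ∃ k : Γ, c k = 0 ∧ k • y ∈ C := by
  obtain ⟨C, hC, hcov⟩ := exists_compact_X hp n
  have hFc := hP.continuous hp.cov
  obtain ⟨M, hM⟩ := hC.exists_bound_of_continuousOn hFc.continuousOn
  have hfin := hP.disc (r + M)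
  have hch : ∀ v ∈ {v | (∃ g : Γ, c g = v) ∧ ‖v‖ ≤ r + M}, ∃ g : Γ, c g = v := fun v hv => hv.1
  choose! s hs using hch
  refine ⟨⋃ v ∈ {v | (∃ g : Γ, c g = v) ∧ ‖v‖ ≤ r + M}, (fun y => (s v)⁻¹ • y) '' C,
    hfin.isCompact_biUnion fun v _ => hC.image (hp.cont _), fun y hy => ?_⟩
  obtain ⟨g, hgy⟩ := hcov y
  have h1 : c g ∈ {v | (∃ g : Γ, c g = v) ∧ ‖v‖ ≤ r + M} := by
    refine ⟨⟨g, rfl⟩, ?_⟩
    have h2 := hP.equiv g y
    have h3 : c g = F (g • y) - F y := by rw [h2]; simp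
    rw [h3]
    have h4 := norm_sub_le (F (g • y)) (F y)
    have h5 := hM _ hgy
    linarith
  refine ⟨(s (c g))⁻¹ * g, ?_, mem_iUnion₂.2 ⟨c g, h1, g • y, hgy, ?_⟩⟩
  · have h3 := hP.add (s (c g)) ((s (c g))⁻¹ * g)
    rw [mul_inv_cancel_left, hs _ h1] at h3
    simpa using h3.symm
  · show (s (c g))⁻¹ • g • y = _
    rw [mul_smul]

theorem Per.reg_smul (hp : IsGalois Γ p) (hP : Per p w F c) {g : Γ} {y : E}
    (hr : Reg (n := n) p F (g • y)) : Reg (n := n) p F y := by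
  intro e f he hf
  have h1 : Tendsto (fun y' => g⁻¹ • y') (𝓝 (g • y)) (𝓝 y) := by
    have := (hp.cont g⁻¹).tendsto (g • y)
    simpa using this
  have h2 : ∀ᶠ y' in 𝓝 (g • y), F y' = (fun z => f z + c g) (e (p y')) := by
    filter_upwards [h1.eventually hf] with y' hy'
    have h3 := hP.equiv g (g⁻¹ • y')
    rw [smul_inv_smul] at h3
    rw [h3, hy', p_smul' hp]
  have h3 := hr e (fun z => f z + c g) (by rwa [p_smul' hp]) h2
  rw [p_smul' hp] at h3
  rwa [fderiv_add_const] at h3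

theorem Per.reg_smul_iff (hp : IsGalois Γ p) (hP : Per p w F c) (g : Γ) (y : E) :
    Reg (n := n) p F (g • y) ↔ Reg (n := n) p F y := by
  refine ⟨hP.reg_smul hp, fun h => hP.reg_smul hp (g := g⁻¹) ?_⟩
  simpa using h

theorem Per.countable (hP : Per p w F c) : (range c).Countable := by
  have h1 : range c = ⋃ r : ℕ, {v | (∃ g : Γ, c g = v) ∧ ‖v‖ ≤ r} := by
    ext v
    simp only [mem_iUnion]
    constructor
    · rintro ⟨g, rfl⟩
      obtain ⟨r, hr⟩ := exists_nat_ge ‖c g‖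
      exact ⟨r, ⟨g, rfl⟩, hr⟩
    · rintro ⟨r, ⟨g, rfl⟩, -⟩
      exact ⟨g, rfl⟩
  rw [h1]
  exact countable_iUnion fun r => (hP.disc r).countable

variable [IsManifold 𝓘(ℂ, Cm n) ω X]

theorem Per.closed_crit [CompactSpace X] [Nonempty E] (hp : IsGalois Γ p) (hP : Per p w F c) :
    IsClosed (F '' {y | ¬ Reg (n := n) p F y}) := by
  obtain ⟨B, hB⟩ := hP.hol
  have hFc := hP.continuous hp.cov
  refine closed_of_balls fun r => ?_
  obtain ⟨C, hC, hcov⟩ := hP.exists_compact hp r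
  have h1 : IsClosed {y | ¬ Reg (n := n) p F y} := (reg_open hp.cov hB).isClosed_compl
  have h2 : IsCompact (F '' (C ∩ {y | ¬ Reg (n := n) p F y})) := (hC.inter_right h1).image hFc
  have h3 : F '' {y | ¬ Reg (n := n) p F y} ∩ closedBall 0 r =
      F '' (C ∩ {y | ¬ Reg (n := n) p F y}) ∩ closedBall 0 r := by
    ext v
    constructor
    · rintro ⟨⟨y, hy, rfl⟩, hv⟩
      obtain ⟨k, hk, hky⟩ := hcov y (mem_closedBall_zero_iff.1 hv)
      refine ⟨⟨k • y, ⟨hky, ?_⟩, by rw [hP.equiv, hk, add_zero]⟩, hv⟩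
      intro h4
      exact hy ((hP.reg_smul_iff hp k y).1 h4)
    · rintro ⟨⟨y, ⟨-, hy⟩, rfl⟩, hv⟩
      exact ⟨⟨y, hy, rfl⟩, hv⟩
  rw [h3]
  exact h2.isClosed.inter isClosed_closedBall

theorem Per.cov_crit [CompactSpace X] (hN : 1 ≤ q) (hp : IsGalois Γ p) (hP : Per p w F c) :
    Cov (q - 1) (F '' {y | ¬ Reg (n := n) p F y}) := by
  obtain ⟨B, hB⟩ := hP.hol
  obtain ⟨C, hC, hcov⟩ := exists_compact_X hp n
  choose e ε hε hyε _ _ using fun y : E => exists_ch (n := n) hp.cov y univ_mem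
  obtain ⟨t, ht⟩ := hC.elim_nhds_subcover (fun y => (ε y).source)
    fun y _ => (ε y).open_source.mem_nhds (hyε y)
  have h1 : F '' {y | ¬ Reg (n := n) p F y} ⊆
      ⋃ v ∈ range c, ⋃ y ∈ (t : Set E), (fun x => x + -v) ''
        ((F ∘ (ε y).symm) '' {z ∈ (ε y).target |
          ¬ Function.Surjective (fderiv ℂ (F ∘ (ε y).symm) z)}) := by
    rintro _ ⟨y, hy, rfl⟩
    obtain ⟨g, hgy⟩ := hcov y
    obtain ⟨y₁, hy₁, hy₂⟩ := mem_iUnion₂.1 (ht.2 hgy)
    refine mem_iUnion₂.2 ⟨c g, ⟨g, rfl⟩, mem_iUnion₂.2 ⟨y₁, hy₁, F (g • y),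
      ⟨ε y₁ (g • y), ⟨(ε y₁).map_source hy₂, ?_⟩, ?_⟩, ?_⟩⟩
    · intro h2
      have h3 := ((hε y₁).reg_iff hp.cov hB hy₂).2 h2
      exact hy ((hP.reg_smul_iff hp g y).1 h3)
    · show F ((ε y₁).symm (ε y₁ (g • y))) = _
      rw [(ε y₁).left_inv hy₂]
    · show F (g • y) + -c g = F y
      rw [hP.equiv g]; simp
  refine Cov.mono (Cov.biUnion hP.countable fun v _ =>
    Cov.biUnion t.countable_toSet fun y _ => ?_) h1
  exact (crit_cov hN (ε y).open_target ((hε y).diff hB)).closedSubset _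

/-- the regular points form a connected set -/
theorem reg_preconnected [ConnectedSpace E] {B : ℝ} (hN : 1 ≤ q) (hp : IsCoveringMap p)
    (hF : HolB p w F B) (hex : ∃ y, Reg (n := n) p F y) :
    IsPreconnected {y : E | Reg (n := n) p F y} := by
  have hdense := reg_dense hN hp hF hex
  have h1 : {y : E | Reg (n := n) p F y} = {y : E | ¬ Reg (n := n) p F y}ᶜ := by
    ext y; simp
  rw [h1] at hdense ⊢
  refine preconn_compl hdense fun y => ?_
  obtain ⟨e, ε, hε, hyε, -, hc⟩ := exists_ch (n := n) hp y univ_mem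
  obtain ⟨y₁, hy₁, hr₁⟩ := hdense.inter_open_nonempty _ ε.open_source ⟨y, hyε⟩
  have h2 := (hε.reg_iff hp hF hy₁).1 (not_not.1 hr₁)
  have hd := degen_cov hN ε.open_target hc (hε.diff hF) ⟨_, ε.map_source hy₁, h2⟩
  have hn : 1 ≤ n := hN.trans (N_le_n h2)
  refine ⟨ε.source, ε.open_source, hyε, ?_⟩
  have h3 := preconn_diff (hd.mono inter_subset_left) (by simp; omega) ε.open_target hc
  have h4 : ε.source \ {y : E | ¬ Reg (n := n) p F y} = ε.symm '' (ε.target \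
      {z ∈ ε.target | ¬ Function.Surjective (fderiv ℂ (F ∘ ε.symm) z)}) := by
    ext y'
    constructor
    · rintro ⟨h5, h6⟩
      refine ⟨ε y', ⟨ε.map_source h5, ?_⟩, ε.left_inv h5⟩
      rintro ⟨-, h7⟩
      exact h7 ((hε.reg_iff hp hF h5).1 (not_not.1 h6))
    · rintro ⟨z, ⟨h5, h6⟩, rfl⟩
      refine ⟨ε.map_target h5, fun h7 => h6 ⟨h5, fun h8 => h7 ?_⟩⟩
      refine (hε.reg_iff hp hF (ε.map_target h5)).2 ?_
      rwa [ε.right_inv h5]
  rw [h4]
  exact h3.image _ (ε.continuousOn_symm.mono sdiff_subset)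

end

end Vale.Agent.P284.H494
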