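import Vale.Agent.P284.H573.HForm
import Vale.Agent.P284.H894.W.Spec2

/-!
# P284 (helper494): tail of MF(I), statement

`E → X` is a Galois covering with group `Γ`, `F : E → ℂ^q` holomorphic with discrete periods, and `h` is a
Hilbert space valued function on the set of regular points of `F`, which locally depends only on `F`, is
equivariant and not constant, such that `h dF₁ ∧ … ∧ dF_q` is holomorphic on all of `E`, and `‖h‖²` is
bounded by a locally integrable function of `F`. Then there is a Hilbert space valued form on `E` with a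
good point.
-/

open scoped Manifold ContDiff Topology ENNReal
open Filter Set Metric MeasureTheory

noncomputable section

namespace Vale.Agent.P284.H494

open Vale.Agent.P272.K Vale.Agent.P284.H573 Vale.Agent.P284.H894.G Vale.Agent.P284.H894.W

section
variable {n : ℕ} {X : Type} [TopologicalSpace X] [ChartedSpace (Cm n) X]
  {E : Type} [TopologicalSpace E]

/-- `F : E → ℂ^q` is holomorphic with bounded derivative, `F (g y) = F y + c g`, and the periods `c g` form
a discrete set. -/
structure Per {Γ : Type} [Group Γ] [MulAction Γ E] (p : E → X)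
    (w : Chart n X → Cm n → Matrix (Fin n) (Fin n) ℂ) {q : ℕ} (F : E → Cm q) (c : Γ → Cm q) :
    Prop where
  hol : ∃ B, HolB p w F B
  equiv : ∀ (g : Γ) (y : E), F (g • y) = F y + c g
  disc : ∀ R : ℝ, {v | (∃ g : Γ, c g = v) ∧ ‖v‖ ≤ R}.Finite

variable (n) in
/-- The regular values of `F`. -/
def RV (p : E → X) {q : ℕ} (F : E → Cm q) : Set (Cm q) := {t | ∀ y, F y = t → Reg (n := n) p F y}

variable (n) in
/-- `h` is a function on the regular points of `F` with the properties listed above. -/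
structure SheetFun (Γ : Type) [Group Γ] [MulAction Γ E] (p : E → X) {q : ℕ} (F : E → Cm q)
    {W : Type} [NormedAddCommGroup W] [InnerProductSpace ℂ W] (h : E → W) : Prop where
  loc : ∀ y, Reg (n := n) p F y → ∃ f : Cm q → W, AnalyticAt ℂ f (F y) ∧ ∀ᶠ y' in 𝓝 y, h y' = f (F y')
  ext : ∀ (y : E) (e : Chart n X) (f : Cm n → Cm q), At e (p y) → AnalyticAt ℂ f (e (p y)) →
    (∀ᶠ y' in 𝓝 y, F y' = f (e (p y'))) → ∀ ξ : Fin q → Cm n, ∃ φ : Cm n → W,
      AnalyticAt ℂ φ (e (p y)) ∧ ∀ᶠ y' in 𝓝 y, Reg (n := n) p F y' →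
        (Matrix.of fun i j => fderiv ℂ f (e (p y')) (ξ j) i).det • h y' = φ (e (p y'))
  equiv : ∀ g : Γ, ∃ U : W →ₗᵢ[ℂ] W, ∀ y, Reg (n := n) p F y → h (g • y) = U (h y)
  int : ∃ s : Cm q → ℝ≥0∞, (∀ R : ℝ, ∫⁻ t in ball (0 : Cm q) R, s t < ⊤) ∧
    ∀ y, F y ∈ RV n p F → ENNReal.ofReal (‖h y‖ ^ 2) ≤ s (F y)
  ne : ∃ y y', Reg (n := n) p F y ∧ Reg (n := n) p F y' ∧ h y ≠ h y'

end

/-- **MF(I), tail**: from a function on the sheets to a form with a good point. -/
def TailStmt : Prop :=
  ∀ (n q : ℕ) (X : Type) [TopologicalSpace X] [T2Space X] [CompactSpace X] [ConnectedSpace X]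
    [ChartedSpace (Cm n) X] [IsManifold 𝓘(ℂ, Cm n) ω X]
    (w : Chart n X → Cm n → Matrix (Fin n) (Fin n) ℂ)
    (E Γ : Type) [TopologicalSpace E] [ConnectedSpace E] [Group Γ] [MulAction Γ E]
    (p : E → X), IsGalois Γ p →
    ∀ (F : E → Cm q) (c : Γ → Cm q), Per p w F c →
    ∀ (W : Type) [NormedAddCommGroup W] [InnerProductSpace ℂ W] [CompleteSpace W] (h : E → W),
      SheetFun n Γ p F h →
    ∃ (r m : ℕ) (H : Type) (_ : NormedAddCommGroup H) (_ : InnerProductSpace ℂ H)
      (_ : CompleteSpace H) (v : E → Chart n X → (Fin r → Cm n) → H),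
      1 ≤ r ∧ 1 ≤ m ∧ HForm n r m p H v ∧ ∃ y, GoodAt p r m v y

end Vale.Agent.P284.H494
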