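import Vale.Agent.P284.H494.Tay

/-!
# P284 (helper494): tail of MF(I), proof
-/

open scoped Manifold ContDiff Topology ENNReal
open Filter Set Metric MeasureTheory

noncomputable section

namespace Vale.Agent.P284.H494

open Vale.Agent.P272.K Vale.Agent.P284.H894.W Vale.Agent.P284.H894.G Vale.Agent.P284.H10
  Vale.Agent.P284.H573

section
variable {n : ℕ} {X : Type} [TopologicalSpace X] [ChartedSpace (Cm n) X] {E : Type}
  [TopologicalSpace E]
  {p : E → X} {w : Chart n X → Cm n → Matrix (Fin n) (Fin n) ℂ} {r : ℕ} {t : E → Cm r}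
  {B : ℝ} {R : Set E} {W : Type} [NormedAddCommGroup W] [InnerProductSpace ℂ W] {u : E → W}
  {Γ : Type} [Group Γ] [MulAction Γ E]

/-- the iterated derivatives of a function of `t` -/
def jet (t : E → Cm r) (u : E → W) : (i : ℕ) → (Fin i → Cm r) → E → W
  | 0, _ => u
  | i + 1, m => DV t (m 0) (jet t u i (Fin.tail m))

theorem jet_GF [IsManifold 𝓘(ℂ, Cm n) ω X] [CompleteSpace W] [ConnectedSpace E] (hr : 1 ≤ r)
    (hp : IsCoveringMap p) (ht : HolB p w t B)
    (hR : IsOpen R) (hRr : ∀ y ∈ R, Reg (n := n) p t y) (hex : ∃ y, Reg (n := n) p t y)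
    (hu : GF n p t R u) : ∀ (i : ℕ) (m : Fin i → Cm r), GF n p t R (jet t u i m)
  | 0, _ => hu
  | i + 1, m => (jet_GF hr hp ht hR hRr hex hu i (Fin.tail m)).deriv hr hp ht hR hRr hex (m 0)

theorem DV_smul [IsManifold 𝓘(ℂ, Cm n) ω X] (hp : IsGalois Γ p) (ht : HolB p w t B)
    (hR : IsOpen R) (hRr : ∀ y ∈ R, Reg (n := n) p t y) (hRg : ∀ (g : Γ) (y : E), g • y ∈ R ↔ y ∈ R)
    (hu : GF n p t R u) {g : Γ} {a : Cm r} (hg : ∀ y, t (g • y) = t y + a) {U : W →ₗᵢ[ℂ] W}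
    (hU : ∀ y ∈ R, u (g • y) = U (u y)) (v : Cm r) :
    ∀ y ∈ R, DV t v u (g • y) = U (DV t v u y) := by
  intro y hy
  obtain ⟨f, hfa, hf⟩ := hu.loc y (hRr y hy)
  have hf' : ∀ᶠ y' in 𝓝 y, u y' = f (t y') := by
    filter_upwards [hf, hR.mem_nhds hy] with y' h5 h6 using h5 h6
  rw [DV_eq (reg_map_nhds hp.cov ht (hRr y hy)) hfa hf']
  have hgy : g • y ∈ R := (hRg g y).2 hy
  have hinv : ∀ y', t (g⁻¹ • y') = t y' - a := by
    intro y'
    have h1 := hg (g⁻¹ • y')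
    rw [smul_inv_smul] at h1
    rw [h1, add_sub_cancel_right]
  have h3 : Tendsto (fun y' => g⁻¹ • y') (𝓝 (g • y)) (𝓝 y) := by
    have := (hp.cont g⁻¹).tendsto (g • y)
    simpa using this
  have h4 : ∀ᶠ y' in 𝓝 (g • y), u y' = (fun b => U (f (b - a))) (t y') := by
    filter_upwards [h3.eventually hf', hR.mem_nhds hgy] with y' h5 h6
    have h7 := hU (g⁻¹ • y') ((hRg _ _).2 h6)
    rw [smul_inv_smul] at h7
    rw [h7, h5, hinv]
  have hsub : AnalyticAt ℂ (fun b : Cm r => b - a) (t (g • y)) := analyticAt_id.sub analyticAt_const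
  have h5 : t (g • y) - a = t y := by rw [hg]; simp
  have hfs : AnalyticAt ℂ (fun b => f (b - a)) (t (g • y)) := hfa.fun_comp_of_eq hsub h5
  have hga : AnalyticAt ℂ (fun b => U (f (b - a))) (t (g • y)) :=
    (U.toContinuousLinearMap.analyticAt _).comp hfs
  rw [DV_eq (reg_map_nhds hp.cov ht (hRr _ hgy)) hga h4]
  have h6 : fderiv ℂ (fun b => U (f (b - a))) (t (g • y)) =
      U.toContinuousLinearMap.comp (fderiv ℂ (fun b => f (b - a)) (t (g • y))) :=
    (U.toContinuousLinearMap.hasFDerivAt.comp _ hfs.differentiableAt.hasFDerivAt).fderiv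
  rw [h6, fderiv_comp_sub, h5]
  rfl

theorem jet_smul [IsManifold 𝓘(ℂ, Cm n) ω X] [CompleteSpace W] [ConnectedSpace E] (hr : 1 ≤ r)
    (hp : IsGalois Γ p) (ht : HolB p w t B)
    (hR : IsOpen R) (hRr : ∀ y ∈ R, Reg (n := n) p t y) (hex : ∃ y, Reg (n := n) p t y)
    (hRg : ∀ (g : Γ) (y : E), g • y ∈ R ↔ y ∈ R)
    (hu : GF n p t R u) {g : Γ} {a : Cm r} (hg : ∀ y, t (g • y) = t y + a) {U : W →ₗᵢ[ℂ] W}
    (hU : ∀ y ∈ R, u (g • y) = U (u y)) :
    ∀ (i : ℕ) (m : Fin i → Cm r), ∀ y ∈ R, jet t u i m (g • y) = U (jet t u i m y)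
  | 0, _ => hU
  | i + 1, m => DV_smul hp ht hR hRr hRg (jet_GF hr hp.cov ht hR hRr hex hu i (Fin.tail m)) hg
      (jet_smul hr hp ht hR hRr hex hRg hu hg hU i (Fin.tail m)) (m 0)

theorem iter_analytic {f : Cm r → W} [CompleteSpace W] {a : Cm r} (hf : AnalyticAt ℂ f a) (i : ℕ)
    (m : Fin i → Cm r) : AnalyticAt ℂ (fun a => iteratedFDeriv ℂ i f a m) a :=
  ((ContinuousMultilinearMap.apply ℂ (fun _ : Fin i => Cm r) W m).analyticAt _).comp
    (AnalyticOnNhd.iteratedFDeriv (s := {a})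
      (fun x hx => by rw [mem_singleton_iff.1 hx]; exact hf) i _ rfl)

theorem iter_succ {f : Cm r → W} [CompleteSpace W] {a : Cm r} (hf : AnalyticAt ℂ f a) (i : ℕ)
    (m : Fin (i + 1) → Cm r) : iteratedFDeriv ℂ (i + 1) f a m =
      fderiv ℂ (fun a => iteratedFDeriv ℂ i f a (Fin.tail m)) a (m 0) := by
  have h0 : AnalyticAt ℂ (iteratedFDeriv ℂ i f) a :=
    AnalyticOnNhd.iteratedFDeriv (s := {a})
      (fun x hx => by rw [mem_singleton_iff.1 hx]; exact hf) i _ rfl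
  rw [iteratedFDeriv_succ_apply_left]
  have h1 := ((ContinuousMultilinearMap.apply ℂ (fun _ : Fin i => Cm r) W
    (Fin.tail m)).hasFDerivAt.comp a h0.differentiableAt.hasFDerivAt).fderiv
  have h2 : fderiv ℂ (fun a => iteratedFDeriv ℂ i f a (Fin.tail m)) a =
      (ContinuousMultilinearMap.apply ℂ (fun _ : Fin i => Cm r) W (Fin.tail m)).comp
        (fderiv ℂ (iteratedFDeriv ℂ i f) a) := h1
  rw [h2]
  rfl

theorem jet_loc [IsManifold 𝓘(ℂ, Cm n) ω X] [CompleteSpace W]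
    (hp : IsCoveringMap p) (ht : HolB p w t B)
    (hR : IsOpen R) (hRr : ∀ y ∈ R, Reg (n := n) p t y) {y₀ : E} (hy₀ : y₀ ∈ R) {f : Cm r → W}
    (hfa : AnalyticAt ℂ f (t y₀)) (hf : ∀ᶠ y in 𝓝 y₀, u y = f (t y)) :
    ∀ (i : ℕ) (m : Fin i → Cm r),
      ∀ᶠ y in 𝓝 y₀, jet t u i m y = iteratedFDeriv ℂ i f (t y) m := by
  have htc := hol_continuous hp ht
  intro i
  induction i with
  | zero =>
    intro m
    filter_upwards [hf] with y hy
    rw [iteratedFDeriv_zero_apply]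
    exact hy
  | succ i ih =>
    intro m
    filter_upwards [(ih (Fin.tail m)).eventually_nhds, hR.mem_nhds hy₀,
      htc.continuousAt.eventually hfa.eventually_analyticAt] with y h1 h2 h3
    rw [iter_succ h3]
    exact DV_eq (reg_map_nhds hp ht (hRr y h2)) (iter_analytic h3 i _) h1 _

theorem GF_const [IsManifold 𝓘(ℂ, Cm n) ω X] (v : W) : GF n p t R (fun _ => v) := by
  refine ⟨fun y _ => ⟨fun _ => v, analyticAt_const, Eventually.of_forall fun _ _ => rfl⟩,
    fun y e he => ⟨fun _ => 1, fun _ => v, analyticAt_const, analyticAt_const, ?_,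
      Eventually.of_forall fun _ _ => one_smul _ _⟩⟩
  intro h
  exact one_ne_zero h.self_of_nhds

/-- the value at the points of `R` -/
theorem vl_mem (hp : IsCoveringMap p) (hRd : Dense R) {M : ℕ} {y : E} {e : Chart n X}
    (he : At e (p y)) [CompleteSpace W] (h : ExtAt p t R u M y e) (hy : y ∈ R)
    (ξ : Fin r → Cm n) : vl p t R u M y e ξ = dt p t y e ξ ^ M • u y := by
  obtain ⟨ψ, hψ, hψe⟩ := h ξ
  have h1 := (vl_eq hp hRd he
    (hψ.eventually_analyticAt.mono fun x hx => hx.continuousAt) hψe).self_of_nhds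
  have h2 := hψe.self_of_nhds hy
  simp only at h1 h2
  rw [h1, h2]

end

theorem tailStmt : TailStmt := by
  intro n q X _ _ _ _ _ _ w E Γ _ _ _ _ p hp F c hP W _ _ _ h hS
  obtain ⟨B, hB⟩ := hP.hol
  have hex : ∃ y, Reg (n := n) p F y := by
    obtain ⟨y, -, hy, -⟩ := hS.ne
    exact ⟨y, hy⟩
  -- `q ≥ 1`
  have hq : 1 ≤ q := by
    by_contra hq0
    have hq0' : q = 0 := by omega
    subst hq0'
    have hreg : ∀ y, Reg (n := n) p F y := fun y e f _ _ => Function.surjective_to_subsingleton _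
    have hlc : IsLocallyConstant h := by
      rw [IsLocallyConstant.iff_eventually_eq]
      intro y
      obtain ⟨f, -, hf⟩ := hS.loc y (hreg y)
      filter_upwards [hf] with y' hy'
      rw [hy', hf.self_of_nhds, Subsingleton.elim (F y') (F y)]
    obtain ⟨y, y', -, -, hne⟩ := hS.ne
    exact hne (hlc.apply_eq_of_preconnectedSpace y y')
  obtain ⟨r, π, hr, hπ, hloc⟩ := exists_pi hq hp.cov hB hS.loc hS.ne
  set t : E → Cm r := fun y => π (F y) with ht
  have htB := holB_comp (p := p) (w := w) π hB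
  set R : Set E := {y | Reg (n := n) p F y} with hR
  have hRo : IsOpen R := reg_open hp.cov hB
  have hRd : Dense R := reg_dense hq hp.cov hB hex
  have hRr : ∀ y ∈ R, Reg (n := n) p t y := fun y hy => reg_comp hp.cov π hπ hB hy
  have hRg : ∀ (g : Γ) (y : E), g • y ∈ R ↔ y ∈ R := fun g y => hP.reg_smul_iff hp g y
  have hext : ∃ y, Reg (n := n) p t y := by
    obtain ⟨y, hy⟩ := hex
    exact ⟨y, hRr y hy⟩
  have hg : ∀ g : Γ, ∃ a, ∀ y, t (g • y) = t y + a := by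
    intro g
    refine ⟨π (c g), fun y => ?_⟩
    show π (F (g • y)) = π (F y) + π (c g)
    rw [hP.equiv, map_add]
  have hGF : GF n p t R h := by
    refine ⟨fun y hy => no_pole hq hp hP hex hS π hπ (fun y hy => ?_) hy, fun y e he => ?_⟩
    · obtain ⟨f, h1, h2, -⟩ := hloc y hy
      exact ⟨f, h1, h2⟩
    · obtain ⟨ε, hε, hyε, -, hc⟩ := exists_ch_at hp.cov he univ_mem
      obtain ⟨ζ, hma, hm0, -⟩ := exists_minor hq hp.cov hB hex hε hc hyε
      have hz : e (p y) = ε y := (hε.eq y hyε).symm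
      have hFa : AnalyticAt ℂ (F ∘ ε.symm) (e (p y)) := by
        rw [hz]
        exact IsCh.analytic hε hB _ (ε.map_source hyε)
      obtain ⟨φ, hφa, hφ⟩ := hS.ext y e (F ∘ ε.symm) he hFa (hε.ev hyε) ζ
      have hm1 : AnalyticAt ℂ (fun z => (Matrix.of fun i j =>
          fderiv ℂ (F ∘ ε.symm) z (ζ j) i).det) (e (p y)) := by
        rw [hz]
        exact hma _ (ε.map_source hyε)
      have hm2 : ¬ ∀ᶠ z in 𝓝 (e (p y)), (Matrix.of fun i j =>
          fderiv ℂ (F ∘ ε.symm) z (ζ j) i).det = 0 := by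
        rw [hz]
        exact hm0
      exact ⟨fun z => (Matrix.of fun i j => fderiv ℂ (F ∘ ε.symm) z (ζ j) i).det, φ, hm1, hφa,
        hm2, hφ⟩
  have hU : ∀ g : Γ, ∃ U : W →ₗᵢ[ℂ] W, ∀ y ∈ R, h (g • y) = U (h y) := fun g => hS.equiv g
  -- the point and the local function
  obtain ⟨y₀, hy₀⟩ := hex
  have hy₀R : y₀ ∈ R := hy₀
  obtain ⟨f, hfa, hf, hfn⟩ := hloc y₀ hy₀
  -- the order of the jets
  let N : ℕ → Submodule ℂ (Cm r) := fun k =>
    { carrier := {η | ∀ i ≤ k, ∀ s : Fin i → Fin r,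
        fderiv ℂ (fun a => iteratedFDeriv ℂ i f a fun j => Pi.single (s j) 1) (t y₀) η = 0}
      zero_mem' := by
        intro i _ s
        exact map_zero _
      add_mem' := by
        intro η η' h1 h2 i hi s
        rw [map_add, h1 i hi s, h2 i hi s, add_zero]
      smul_mem' := by
        intro b η h1 i hi s
        rw [map_smul, h1 i hi s, smul_zero] }
  have hanti : Antitone N := fun k l hkl η hη i hi s => hη i (hi.trans hkl) s
  obtain ⟨k, hk⟩ := IsArtinian.monotone_stabilizes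
    (⟨fun k => OrderDual.toDual (N k), fun k l hkl => hanti hkl⟩ : ℕ →o (Submodule ℂ (Cm r))ᵒᵈ)
  have hk' : ∀ l, k ≤ l → N k = N l := fun l hl => hk l hl
  have hNk : ∀ η ∈ N k, η = 0 := by
    intro η hη
    refine hfn η (taylor_zero hfa fun i s => ?_)
    have h1 : η ∈ N (max k i) := by
      rw [← hk' _ (le_max_left _ _)]
      exact hη
    exact h1 i (le_max_right _ _) s
  -- the functions
  let u : (Σ i : Fin (k + 1), (Fin i → Fin r)) → E → W := fun x =>
    jet t h x.1 fun j => Pi.single (x.2 j) 1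
  have huGF : ∀ x, GF n p t R (u x) := fun x =>
    jet_GF hr hp.cov htB hRo hRr hext hGF _ _
  have huU : ∀ x, ∀ g : Γ, ∃ U : W →ₗᵢ[ℂ] W, ∀ y ∈ R, u x (g • y) = U (u x y) := by
    intro x g
    obtain ⟨a, ha⟩ := hg g
    obtain ⟨U, hU'⟩ := hU g
    exact ⟨U, jet_smul hr hp htB hRo hRr hext hRg hGF ha hU' _ _⟩
  have h1GF : GF n p t R (fun _ : E => (1 : ℂ)) := GF_const 1
  have h1U : ∀ g : Γ, ∃ U : ℂ →ₗᵢ[ℂ] ℂ, ∀ y ∈ R,
      (fun _ : E => (1 : ℂ)) (g • y) = U ((fun _ : E => (1 : ℂ)) y) := fun g =>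
    ⟨LinearIsometry.id, fun y _ => rfl⟩
  choose M₁ hM₁ using fun x => ext_all hp htB hRo hRd hRr hRg hg (huGF x) (huU x)
  obtain ⟨M₂, hM₂⟩ := ext_all hp htB hRo hRd hRr hRg hg h1GF h1U
  set M : ℕ := Finset.univ.sup M₁ + M₂ + 1 with hM
  have hMu : ∀ x (y : E) (e : Chart n X), At e (p y) → ExtAt p t R (u x) M y e := fun x =>
    hM₁ x M (by
      have := Finset.le_sup (f := M₁) (Finset.mem_univ x)
      omega)
  have hM1 : ∀ (y : E) (e : Chart n X), At e (p y) →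
      ExtAt p t R (fun _ : E => (1 : ℂ)) M y e := hM₂ M (by omega)
  have hv₁ := hform_vl hp htB hRd hRg hg h1U hM1
  have hv₂ := hform_pi fun x => hform_vl hp htB hRd hRg hg (huU x) (hMu x)
  have hv := hform_prod hv₁ hv₂
  refine ⟨r, M, _, _, _, inferInstance, _, hr, by omega, hv, y₀, ?_⟩
  -- the good point
  obtain ⟨e, ε, hε, hyε, -, -⟩ := exists_ch (n := n) hp.cov y₀ univ_mem
  have hz : e (p y₀) = ε y₀ := (hε.eq y₀ hyε).symm
  have hzt : ε y₀ ∈ ε.target := ε.map_source hyε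
  have hTa := IsCh.analytic hε htB
  have hbz : (t ∘ ε.symm) (e (p y₀)) = t y₀ := by
    rw [hz, Function.comp_apply, ε.left_inv hyε]
  set γ₂ : Cm r → PiLp 2 (fun _ : (Σ i : Fin (k + 1), (Fin i → Fin r)) => W) := fun a =>
    WithLp.toLp 2 fun x => iteratedFDeriv ℂ x.1 f a fun j => Pi.single (x.2 j) 1 with hγ₂
  have hγ₂a : AnalyticAt ℂ γ₂ (t y₀) :=
    ((PiLp.continuousLinearEquiv 2 ℂ fun _ : (Σ i : Fin (k + 1), (Fin i → Fin r)) =>
      W).symm.toContinuousLinearMap.analyticAt _).comp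
      (AnalyticAt.pi fun x => iter_analytic hfa _ _)
  set γ : Cm r → WithLp 2 (ℂ × PiLp 2 (fun _ : (Σ i : Fin (k + 1), (Fin i → Fin r)) => W)) :=
    fun a => WithLp.toLp 2 (1, γ₂ a) with hγ
  have hγa : AnalyticAt ℂ γ (t y₀) :=
    ((WithLp.prodContinuousLinearEquiv 2 ℂ ℂ (PiLp 2 (fun _ : (Σ i : Fin (k + 1),
      (Fin i → Fin r)) => W))).symm.toContinuousLinearMap.analyticAt _).comp
      (analyticAt_const.prod hγ₂a)
  refine ⟨e, t ∘ ε.symm, γ, ?_⟩
  refine ⟨hε.at hyε, ?_, ?_, ?_, ?_, ?_⟩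
  · rw [hz]
    exact hTa _ hzt
  · rw [hz]
    exact (hε.reg_iff hp.cov htB hyε).1 (hRr y₀ hy₀R)
  · rw [hbz]
    exact hγa
  · rw [hbz]
    refine ⟨?_, ?_⟩
    · intro h0
      have h1 : (γ (t y₀)).fst = 0 := by rw [h0]; rfl
      exact one_ne_zero h1
    · intro η b hηb
      apply hNk η
      -- the first component
      let L₁ : WithLp 2 (ℂ × PiLp 2 (fun _ : (Σ i : Fin (k + 1), (Fin i → Fin r)) => W)) →L[ℂ] ℂ :=
        (ContinuousLinearMap.fst ℂ ℂ _).comp
          (WithLp.prodContinuousLinearEquiv 2 ℂ ℂ (PiLp 2 (fun _ : (Σ i : Fin (k + 1),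
            (Fin i → Fin r)) => W))).toContinuousLinearMap
      let L₂ : WithLp 2 (ℂ × PiLp 2 (fun _ : (Σ i : Fin (k + 1), (Fin i → Fin r)) => W)) →L[ℂ]
          (∀ _ : (Σ i : Fin (k + 1), (Fin i → Fin r)), W) :=
        (PiLp.continuousLinearEquiv 2 ℂ fun _ : (Σ i : Fin (k + 1), (Fin i → Fin r)) =>
          W).toContinuousLinearMap.comp ((ContinuousLinearMap.snd ℂ ℂ _).comp
          (WithLp.prodContinuousLinearEquiv 2 ℂ ℂ (PiLp 2 (fun _ : (Σ i : Fin (k + 1),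
            (Fin i → Fin r)) => W))).toContinuousLinearMap)
      have h1 : fderiv ℂ (fun a => L₁ (γ a)) (t y₀) = L₁.comp (fderiv ℂ γ (t y₀)) :=
        (L₁.hasFDerivAt.comp _ hγa.differentiableAt.hasFDerivAt).fderiv
      have h2 : (fun a => L₁ (γ a)) = fun _ => (1 : ℂ) := rfl
      have h3 : b = 0 := by
        have h4 := congrArg (fun L : Cm r →L[ℂ] ℂ => L η) h1
        simp only [ContinuousLinearMap.comp_apply] at h4
        rw [h2, hηb, map_smul] at h4
        have h5 : L₁ (γ (t y₀)) = 1 := rfl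
        rw [h5] at h4
        simpa using h4.symm
      rw [h3, zero_smul] at hηb
      intro i hi s
      let x : (Σ i : Fin (k + 1), (Fin i → Fin r)) := ⟨⟨i, by omega⟩, s⟩
      let L : WithLp 2 (ℂ × PiLp 2 (fun _ : (Σ i : Fin (k + 1), (Fin i → Fin r)) => W)) →L[ℂ] W :=
        (ContinuousLinearMap.proj x).comp L₂
      have h4 : fderiv ℂ (fun a => L (γ a)) (t y₀) = L.comp (fderiv ℂ γ (t y₀)) :=
        (L.hasFDerivAt.comp _ hγa.differentiableAt.hasFDerivAt).fderiv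
      have h5 : (fun a => L (γ a)) =
          fun a => iteratedFDeriv ℂ i f a fun j => Pi.single (s j) 1 := rfl
      rw [h5] at h4
      rw [h4, ContinuousLinearMap.comp_apply, hηb, map_zero]
  · -- the normal form
    have hj : ∀ᶠ y in 𝓝 y₀, ∀ x : (Σ i : Fin (k + 1), (Fin i → Fin r)), u x y =
        iteratedFDeriv ℂ x.1 f (t y) fun j => Pi.single (x.2 j) 1 :=
      eventually_all.2 fun x => jet_loc hp.cov htB hRo hRr hy₀R hfa hf _ _
    filter_upwards [hj, hRo.mem_nhds hy₀R, ε.open_source.mem_nhds hyε] with y h1 h2 h3 ξ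
    have hzy : e (p y) = ε y := (hε.eq y h3).symm
    have hey : At e (p y) := hε.at h3
    have hby : (t ∘ ε.symm) (e (p y)) = t y := by
      rw [hzy, Function.comp_apply, ε.left_inv h3]
    rw [hby, hzy, ← dt_ch hp.cov htB hε h3]
    rw [vl_mem hp.cov hRd hey (hM1 y e hey) h2 ξ]
    have h4 : (fun x => vl p t R (u x) M y e ξ) = dt p t y e ξ ^ M •
        fun x : (Σ i : Fin (k + 1), (Fin i → Fin r)) =>
          iteratedFDeriv ℂ x.1 f (t y) fun j => Pi.single (x.2 j) 1 := by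
      funext x
      rw [vl_mem hp.cov hRd hey (hMu x y e hey) h2 ξ, h1 x]
      rfl
    rw [h4]
    rfl

end Vale.Agent.P284.H494
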