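import Vale.Agent.P268.Hol
import Vale.Agent.P271.H408.Ext

/-!
# P284 (helper494): quotients of holomorphic functions with removable singularities along lines
-/

open Set Filter Metric Topology

namespace Vale.Agent.P284.H494

/-- One variable: Cauchy formula for a quotient with removable singularities. -/
theorem cauchy_quot {W : Type*} [NormedAddCommGroup W] [NormedSpace ℂ W] [CompleteSpace W]
    {k : ℂ → ℂ} {Φ : ℂ → W} {s s' : ℝ} (hs : 0 < s) (hss' : s < s')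
    (hk : DifferentiableOn ℂ k (ball 0 s')) (hΦ : DifferentiableOn ℂ Φ (ball 0 s'))
    (hks : ∀ t ∈ sphere (0 : ℂ) s, k t ≠ 0)
    (hb : ∀ t ∈ ball (0 : ℂ) s', ∃ C : ℝ, ∀ᶠ τ in 𝓝[≠] t, ‖Φ τ‖ ≤ C * ‖k τ‖) :
    k 0 • ((2 * Real.pi * Complex.I : ℂ)⁻¹ • ∮ t in C(0, s), t⁻¹ • (k t)⁻¹ • Φ t) = Φ 0 := by
  have hs'0 : 0 < s' := hs.trans hss'
  have h0s : (0 : ℂ) ∈ ball (0 : ℂ) s' := mem_ball_self hs'0
  have han : AnalyticOnNhd ℂ k (ball 0 s') := hk.analyticOnNhd isOpen_ball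
  have hsm : (s : ℂ) ∈ sphere (0 : ℂ) s := by
    rw [mem_sphere_zero_iff_norm, Complex.norm_real, Real.norm_eq_abs, abs_of_pos hs]
  have hclosed : closedBall (0 : ℂ) s ⊆ ball 0 s' := closedBall_subset_ball hss'
  have hiso : ∀ c ∈ ball (0 : ℂ) s', ∀ᶠ t in 𝓝[≠] c, k t ≠ 0 := by
    intro c hc
    rcases (han c hc).eventually_eq_zero_or_eventually_ne_zero with h2 | h2
    · exfalso
      exact hks _ hsm (han.eqOn_zero_of_preconnected_of_eventuallyEq_zero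
        (convex_ball (0 : ℂ) s').isPreconnected hc h2 (hclosed (sphere_subset_closedBall hsm)))
    · exact h2
  set g : ℂ → W := fun t => (k t)⁻¹ • Φ t with hg
  have hgd : ∀ t ∈ ball (0 : ℂ) s', k t ≠ 0 → DifferentiableAt ℂ g t := by
    intro t ht hkt
    exact ((hk.differentiableAt (isOpen_ball.mem_nhds ht)).inv hkt).smul
      (hΦ.differentiableAt (isOpen_ball.mem_nhds ht))
  set G : ℂ → W := fun t => limUnder (𝓝[≠] t) g with hG
  have hGe : ∀ t ∈ ball (0 : ℂ) s', k t ≠ 0 → G t = g t := fun t ht hkt =>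
    ((hgd t ht hkt).continuousAt.tendsto.mono_left nhdsWithin_le_nhds).limUnder_eq
  have hGd : DifferentiableOn ℂ G (ball 0 s') := by
    intro c hc
    obtain ⟨C, hC⟩ := hb c hc
    have h1 : ∀ᶠ t in 𝓝[≠] c, k t ≠ 0 ∧ t ∈ ball (0 : ℂ) s' ∧ ‖Φ t‖ ≤ C * ‖k t‖ := by
      filter_upwards [hiso c hc, mem_nhdsWithin_of_mem_nhds (isOpen_ball.mem_nhds hc), hC]
        with t h3 h4 h5 using ⟨h3, h4, h5⟩
    rw [eventually_nhdsWithin_iff, Metric.eventually_nhds_iff_ball] at h1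
    obtain ⟨δ, hδ, h⟩ := h1
    have h2 : ∀ t ∈ ball c δ \ {c}, k t ≠ 0 ∧ t ∈ ball (0 : ℂ) s' ∧ ‖Φ t‖ ≤ C * ‖k t‖ :=
      fun t ht => h t ht.1 ht.2
    have hd : DifferentiableOn ℂ g (ball c δ \ {c}) := fun t ht =>
      (hgd t (h2 t ht).2.1 (h2 t ht).1).differentiableWithinAt
    have hbd : BddAbove (norm ∘ g '' (ball c δ \ {c})) := by
      refine ⟨C, ?_⟩
      rintro _ ⟨t, ht, rfl⟩
      obtain ⟨h3, -, h4⟩ := h2 t ht
      have h5 : 0 < ‖k t‖ := norm_pos_iff.2 h3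
      show ‖(k t)⁻¹ • Φ t‖ ≤ C
      rw [norm_smul, norm_inv, inv_mul_le_iff₀ h5]
      linarith
    have h3 := Complex.differentiableOn_update_limUnder_of_bddAbove (ball_mem_nhds c hδ) hd hbd
    have h4 := h3.differentiableAt (ball_mem_nhds c hδ)
    refine (h4.congr_of_eventuallyEq ?_).differentiableWithinAt
    filter_upwards [ball_mem_nhds c hδ] with t ht
    by_cases htc : t = c
    · rw [htc, Function.update_self]
    · rw [Function.update_of_ne htc]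
      exact hGe t (h2 t ⟨ht, htc⟩).2.1 (h2 t ⟨ht, htc⟩).1
  have hcauchy := (hGd.mono hclosed).circleIntegral_sub_inv_smul (w := 0) (mem_ball_self hs)
  have hcirc2 : ∮ t in C(0, s), t⁻¹ • (k t)⁻¹ • Φ t = ∮ t in C(0, s), (t - 0)⁻¹ • G t := by
    apply circleIntegral.integral_congr hs.le
    intro t ht
    show t⁻¹ • (k t)⁻¹ • Φ t = (t - 0)⁻¹ • G t
    rw [sub_zero, hGe t (hclosed (sphere_subset_closedBall ht)) (hks t ht)]
  rw [hcirc2, hcauchy, smul_smul (2 * Real.pi * Complex.I : ℂ)⁻¹,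
    inv_mul_cancel₀ Complex.two_pi_I_ne_zero, one_smul]
  by_cases hk0 : k 0 = 0
  · rw [hk0, zero_smul]
    obtain ⟨C, hC⟩ := hb 0 h0s
    have h1 : Tendsto (fun τ => C * ‖k τ‖) (𝓝[≠] 0) (𝓝 0) := by
      have h2 : ContinuousAt (fun τ => C * ‖k τ‖) 0 :=
        continuousAt_const.mul (hk.differentiableAt (isOpen_ball.mem_nhds h0s)).continuousAt.norm
      have h3 := h2.tendsto
      rw [hk0, norm_zero, mul_zero] at h3
      exact h3.mono_left nhdsWithin_le_nhds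
    have h2 : Tendsto Φ (𝓝[≠] 0) (𝓝 0) := squeeze_zero_norm' hC h1
    have h3 : Tendsto Φ (𝓝[≠] 0) (𝓝 (Φ 0)) :=
      (hΦ.differentiableAt (isOpen_ball.mem_nhds h0s)).continuousAt.tendsto.mono_left
        nhdsWithin_le_nhds
    exact tendsto_nhds_unique h2 h3
  · rw [hGe 0 h0s hk0, hg]
    simp only [smul_smul, mul_inv_cancel₀ hk0, one_smul]

/-- **Quotients along lines.** `ω` is holomorphic near `x₀` and not identically zero on the line
`x₀ + ℂ u`; if for a dense set of `z` the restriction of `Φ / ω` to the line `z + ℂ u` has removable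
singularities, then `Φ = ω ψ` near `x₀`, with `ψ` holomorphic. The hypothesis is only needed for the
scalar functions `⟪a, Φ⟫`. -/
theorem line_ext {P W : Type*} [NormedAddCommGroup P] [NormedSpace ℂ P] [FiniteDimensional ℂ P]
    [NormedAddCommGroup W] [InnerProductSpace ℂ W] [CompleteSpace W]
    {ω : P → ℂ} {Φ : P → W} {x₀ : P} {r : ℝ} (hr : 0 < r) {u : P}
    (hω : DifferentiableOn ℂ ω (ball x₀ r)) (hΦ : DifferentiableOn ℂ Φ (ball x₀ r))
    (hu : ∀ᶠ τ in 𝓝[≠] (0 : ℂ), ω (x₀ + τ • u) ≠ 0)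
    (hD : ∀ a : W, Dense {z : P | (∃ t : ℂ, z + t • u ∈ ball x₀ r ∧ ω (z + t • u) ≠ 0) →
      ∀ t : ℂ, z + t • u ∈ ball x₀ r → ∃ C : ℝ, ∀ᶠ τ in 𝓝[≠] t,
        ‖inner ℂ a (Φ (z + τ • u))‖ ≤ C * ‖ω (z + τ • u)‖}) :
    ∃ ρ > 0, ρ ≤ r ∧ ∃ ψ : P → W, DifferentiableOn ℂ ψ (ball x₀ ρ) ∧
      ∀ z ∈ ball x₀ ρ, ω z • ψ z = Φ z := by
  -- a circle without zeros
  obtain ⟨s, hs, hsr, hcirc⟩ : ∃ s : ℝ, 0 < s ∧ s * ‖u‖ < r ∧
      ∀ t : ℂ, ‖t‖ = s → ω (x₀ + t • u) ≠ 0 := by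
    rw [eventually_nhdsWithin_iff, Metric.eventually_nhds_iff_ball] at hu
    obtain ⟨δ, hδ, h⟩ := hu
    have hu1 : 0 < ‖u‖ + 1 := by positivity
    refine ⟨min (δ / 2) (r / (‖u‖ + 1) / 2), by positivity, ?_, ?_⟩
    · calc min (δ / 2) (r / (‖u‖ + 1) / 2) * ‖u‖ ≤ (r / (‖u‖ + 1) / 2) * ‖u‖ := by
            gcongr; exact min_le_right _ _
        _ ≤ (r / (‖u‖ + 1) / 2) * (‖u‖ + 1) := by gcongr; linarith
        _ = r / 2 := by field_simp
        _ < r := by linarith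
    · intro t ht
      apply h t
      · rw [mem_ball_zero_iff, ht]
        exact (min_le_left _ _).trans_lt (by linarith)
      · rw [Set.mem_compl_iff, Set.mem_singleton_iff]
        intro h4
        rw [h4, norm_zero] at ht
        have : (0 : ℝ) < min (δ / 2) (r / (‖u‖ + 1) / 2) := by positivity
        linarith
  -- the open set where `ω ≠ 0`
  have hOo : IsOpen (ball x₀ r ∩ {z | ω z ≠ 0}) := by
    have : ball x₀ r ∩ {z | ω z ≠ 0} = ball x₀ r ∩ ω ⁻¹' {0}ᶜ := by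
      ext z; simp
    rw [this]
    exact hω.continuousOn.isOpen_inter_preimage isOpen_ball isOpen_compl_singleton
  have hΨc : Continuous (fun q : P × ℂ => q.1 + q.2 • u) := by fun_prop
  have htube : ({x₀} : Set P) ×ˢ sphere (0 : ℂ) s ⊆
      (fun q : P × ℂ => q.1 + q.2 • u) ⁻¹' (ball x₀ r ∩ {z | ω z ≠ 0}) := by
    rintro ⟨z, t⟩ ⟨hz, ht⟩
    rw [Set.mem_singleton_iff] at hz
    rw [mem_sphere_zero_iff_norm] at ht
    subst hz
    refine ⟨?_, hcirc t ht⟩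
    rw [mem_ball, dist_eq_norm, add_sub_cancel_left, norm_smul, ht]
    exact hsr
  obtain ⟨A, T, hA, hT, hpA, hsT, hAT⟩ := generalized_tube_lemma isCompact_singleton
    (isCompact_sphere (0 : ℂ) s) (hOo.preimage hΨc) htube
  obtain ⟨ρ₁, hρ₁, hρA⟩ := Metric.isOpen_iff.1 hA x₀ (hpA rfl)
  obtain ⟨s', hss', hs'r⟩ : ∃ s' : ℝ, s < s' ∧ s' * ‖u‖ < r := by
    have h1 : ContinuousAt (fun s' : ℝ => s' * ‖u‖) s := by fun_prop
    have h2 : ∀ᶠ s' in 𝓝[>] s, s' * ‖u‖ < r :=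
      (h1.eventually (gt_mem_nhds hsr)).filter_mono nhdsWithin_le_nhds
    obtain ⟨s', h3, h4⟩ := (h2.and self_mem_nhdsWithin).exists
    exact ⟨s', h4, h3⟩
  set ρ : ℝ := min (min ρ₁ r) (r - s' * ‖u‖) with hρdef
  have hρ0 : 0 < ρ := lt_min (lt_min hρ₁ hr) (by linarith)
  have hρr : ρ ≤ r := (min_le_left _ _).trans (min_le_right _ _)
  have hATO : ∀ z ∈ ball x₀ ρ, ∀ t ∈ T, z + t • u ∈ ball x₀ r ∩ {z | ω z ≠ 0} := by
    intro z hz t ht
    have hzA : z ∈ A := hρA (ball_subset_ball ((min_le_left _ _).trans (min_le_left _ _)) hz)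
    exact hAT (Set.mk_mem_prod hzA ht)
  have hin : ∀ z ∈ ball x₀ ρ, ∀ t ∈ ball (0 : ℂ) s', z + t • u ∈ ball x₀ r := by
    intro z hz t ht
    rw [mem_ball_zero_iff] at ht
    rw [mem_ball, dist_eq_norm] at hz ⊢
    have h1 : ‖t • u‖ ≤ s' * ‖u‖ := by
      rw [norm_smul]; gcongr
    have h2 : ρ ≤ r - s' * ‖u‖ := min_le_right _ _
    calc ‖z + t • u - x₀‖ = ‖(z - x₀) + t • u‖ := by congr 1; abel
      _ ≤ ‖z - x₀‖ + ‖t • u‖ := norm_add_le _ _
      _ < r := by linarith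
  have hT' : IsOpen (T \ {0}) := hT.sdiff isClosed_singleton
  have hsT' : sphere (0 : ℂ) s ⊆ T \ {0} := by
    intro t ht
    refine ⟨hsT ht, ?_⟩
    rw [Set.mem_singleton_iff]
    intro h0
    rw [mem_sphere_zero_iff_norm, h0, norm_zero] at ht
    exact hs.ne ht
  have hFd : DifferentiableOn ℂ (fun z => (2 * Real.pi * Complex.I : ℂ)⁻¹ •
      ∮ t in C(0, s), t⁻¹ • (ω (z + t • u))⁻¹ • Φ (z + t • u)) (ball x₀ ρ) := by
    refine (Vale.Agent.P268.differentiableOn_circleIntegral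
      (G := fun q : P × ℂ => q.2⁻¹ • (ω (q.1 + q.2 • u))⁻¹ • Φ (q.1 + q.2 • u)) hs.le isOpen_ball
      hT' hsT' ?_).const_smul (2 * Real.pi * Complex.I : ℂ)⁻¹
    have hmaps : MapsTo (fun q : P × ℂ => q.1 + q.2 • u) (ball x₀ ρ ×ˢ (T \ {0})) (ball x₀ r) := by
      rintro ⟨z, t⟩ ⟨hz, ht⟩
      exact (hATO z hz t ht.1).1
    apply DifferentiableOn.smul
    · apply DifferentiableOn.inv (by fun_prop)
      intro q hq
      exact hq.2.2
    · apply DifferentiableOn.smul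
      · apply DifferentiableOn.inv (hω.comp (by fun_prop) hmaps)
        rintro ⟨z, t⟩ ⟨hz, ht⟩
        exact (hATO z hz t ht.1).2
      · exact hΦ.comp (by fun_prop) hmaps
  refine ⟨ρ, hρ0, hρr, _, hFd, ?_⟩
  intro z₁ hz₁
  refine ext_inner_left ℂ fun a => ?_
  -- the identity on a dense set
  have hkey : ∀ z ∈ ball x₀ ρ ∩ {z : P | (∃ t : ℂ, z + t • u ∈ ball x₀ r ∧ ω (z + t • u) ≠ 0) →
      ∀ t : ℂ, z + t • u ∈ ball x₀ r → ∃ C : ℝ, ∀ᶠ τ in 𝓝[≠] t,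
        ‖inner ℂ a (Φ (z + τ • u))‖ ≤ C * ‖ω (z + τ • u)‖},
      inner ℂ a (ω z • ((2 * Real.pi * Complex.I : ℂ)⁻¹ •
        ∮ t in C(0, s), t⁻¹ • (ω (z + t • u))⁻¹ • Φ (z + t • u))) = inner ℂ a (Φ z) := by
    rintro z ⟨hz, hzD⟩
    have hsm : (s : ℂ) ∈ sphere (0 : ℂ) s := by
      rw [mem_sphere_zero_iff_norm, Complex.norm_real, Real.norm_eq_abs, abs_of_pos hs]
    have h1 := hzD ⟨s, hATO z hz s (hsT hsm)⟩
    have hm : MapsTo (fun t : ℂ => z + t • u) (ball 0 s') (ball x₀ r) := fun t ht => hin z hz t ht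
    have hin' : Differentiable ℂ (fun b : W => inner ℂ a b) := (innerSL ℂ a).differentiable
    have h2 := cauchy_quot (k := fun t => ω (z + t • u)) (Φ := fun t => inner ℂ a (Φ (z + t • u)))
      hs hss' (hω.comp (by fun_prop) hm) (hin'.comp_differentiableOn (hΦ.comp (by fun_prop) hm))
      (fun t ht => (hATO z hz t (hsT ht)).2) (fun t ht => h1 t (hin z hz t ht))
    simp only [zero_smul, add_zero] at h2
    rw [inner_smul_right, inner_smul_right]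
    have h3 : inner ℂ a (∮ t in C(0, s), t⁻¹ • (ω (z + t • u))⁻¹ • Φ (z + t • u)) =
        ∮ t in C(0, s), t⁻¹ • (ω (z + t • u))⁻¹ • inner ℂ a (Φ (z + t • u)) := by
      have hci : CircleIntegrable (fun t : ℂ => t⁻¹ • (ω (z + t • u))⁻¹ • Φ (z + t • u)) 0 s := by
        apply ContinuousOn.circleIntegrable hs.le
        have hm' : MapsTo (fun t : ℂ => z + t • u) (sphere 0 s) (ball x₀ r) := fun t ht =>
          (hATO z hz t (hsT ht)).1
        refine ContinuousOn.smul (ContinuousOn.inv₀ (by fun_prop) fun t ht => (hsT' ht).2) ?_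
        refine ContinuousOn.smul (ContinuousOn.inv₀
          (hω.continuousOn.comp (by fun_prop) hm') fun t ht => (hATO z hz t (hsT ht)).2)
          (hΦ.continuousOn.comp (by fun_prop) hm')
      have h4 := (innerSL ℂ a).intervalIntegral_comp_comm hci.out
      rw [circleIntegral, circleIntegral]
      simp only [innerSL_apply_apply] at h4
      rw [← h4]
      simp only [inner_smul_right, smul_eq_mul]
    rw [h3]
    simpa using h2
  have hcl : z₁ ∈ closure (ball x₀ ρ ∩ {z : P | (∃ t : ℂ, z + t • u ∈ ball x₀ r ∧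
      ω (z + t • u) ≠ 0) → ∀ t : ℂ, z + t • u ∈ ball x₀ r → ∃ C : ℝ, ∀ᶠ τ in 𝓝[≠] t,
        ‖inner ℂ a (Φ (z + τ • u))‖ ≤ C * ‖ω (z + τ • u)‖}) :=
    (hD a).open_subset_closure_inter isOpen_ball hz₁
  have : (𝓝[ball x₀ ρ ∩ {z : P | (∃ t : ℂ, z + t • u ∈ ball x₀ r ∧
      ω (z + t • u) ≠ 0) → ∀ t : ℂ, z + t • u ∈ ball x₀ r → ∃ C : ℝ, ∀ᶠ τ in 𝓝[≠] t,
        ‖inner ℂ a (Φ (z + τ • u))‖ ≤ C * ‖ω (z + τ • u)‖}] z₁).NeBot :=
    mem_closure_iff_nhdsWithin_neBot.1 hcl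
  have hz₁n : ball x₀ ρ ∈ 𝓝 z₁ := isOpen_ball.mem_nhds hz₁
  have hz₁r : ball x₀ r ∈ 𝓝 z₁ := isOpen_ball.mem_nhds (ball_subset_ball hρr hz₁)
  have hin' : Continuous (fun b : W => inner ℂ a b) := (innerSL ℂ a).continuous
  have hc1 : ContinuousAt (fun z => inner ℂ a (ω z • ((2 * Real.pi * Complex.I : ℂ)⁻¹ •
        ∮ t in C(0, s), t⁻¹ • (ω (z + t • u))⁻¹ • Φ (z + t • u)))) z₁ :=
    ContinuousAt.comp (g := fun b : W => inner ℂ a b) hin'.continuousAt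
      ((hω.differentiableAt hz₁r).continuousAt.smul (hFd.differentiableAt hz₁n).continuousAt)
  have hc2 : ContinuousAt (fun z => inner ℂ a (Φ z)) z₁ :=
    ContinuousAt.comp (g := fun b : W => inner ℂ a b) hin'.continuousAt
      (hΦ.differentiableAt hz₁r).continuousAt
  refine tendsto_nhds_unique (l := 𝓝[ball x₀ ρ ∩ {z : P | (∃ t : ℂ, z + t • u ∈ ball x₀ r ∧
      ω (z + t • u) ≠ 0) → ∀ t : ℂ, z + t • u ∈ ball x₀ r → ∃ C : ℝ, ∀ᶠ τ in 𝓝[≠] t,
        ‖inner ℂ a (Φ (z + τ • u))‖ ≤ C * ‖ω (z + τ • u)‖}] z₁)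
    (hc1.tendsto.mono_left nhdsWithin_le_nhds) ?_
  refine (hc2.tendsto.mono_left nhdsWithin_le_nhds).congr' ?_
  filter_upwards [self_mem_nhdsWithin] with z hz using (hkey z hz).symm

end Vale.Agent.P284.H494
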