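import Vale.Agent.P284.H494.Null

/-!
# P284 (helper494): the derivative of `t : E → ℂ^r` in the charts of `X`
-/

open scoped Manifold ContDiff Topology ENNReal
open Filter Set Metric MeasureTheory

noncomputable section

namespace Vale.Agent.P284.H494

open Vale.Agent.P272.K Vale.Agent.P284.H894.W Vale.Agent.P284.H894.G Vale.Agent.P284.H10

/-! ### analyticity -/

theorem apply_analytic {P V V' : Type*} [NormedAddCommGroup P] [NormedSpace ℂ P]
    [NormedAddCommGroup V] [NormedSpace ℂ V] [NormedAddCommGroup V'] [NormedSpace ℂ V']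
    {L : P → V →L[ℂ] V'} {v : P → V} {x : P} (hL : AnalyticAt ℂ L x) (hv : AnalyticAt ℂ v x) :
    AnalyticAt ℂ (fun x => L x (v x)) x :=
  ((ContinuousLinearMap.id ℂ (V →L[ℂ] V')).analyticAt_bilinear (L x, v x)).comp₂ hL hv

theorem det_analytic {P : Type*} [NormedAddCommGroup P] [NormedSpace ℂ P] {r : ℕ}
    {M : P → Matrix (Fin r) (Fin r) ℂ} {x : P} (hM : ∀ i j, AnalyticAt ℂ (fun x => M x i j) x) :
    AnalyticAt ℂ (fun x => (M x).det) x := by
  simp only [Matrix.det_apply']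
  refine Finset.analyticAt_fun_sum _ fun σ _ => ?_
  exact analyticAt_const.mul (Finset.analyticAt_fun_prod _ fun i _ => hM (σ i) i)

theorem entry_analytic {P : Type*} [NormedAddCommGroup P] [NormedSpace ℂ P] {r : ℕ}
    {f : P → Cm r} {x : P} (hf : AnalyticAt ℂ f x) (i : Fin r) : AnalyticAt ℂ (fun x => f x i) x :=
  ((ContinuousLinearMap.proj (R := ℂ) (φ := fun _ : Fin r => ℂ) i).analyticAt _).comp hf

section
variable {n : ℕ} {X : Type} [TopologicalSpace X] [ChartedSpace (Cm n) X] {E : Type}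
  [TopologicalSpace E] {p : E → X}
  {w : Chart n X → Cm n → Matrix (Fin n) (Fin n) ℂ} {r : ℕ} {t : E → Cm r} {B : ℝ}

open Classical in
/-- the derivative of `t` at `y` in the chart `e` -/
def TD (p : E → X) (t : E → Cm r) (y : E) (e : Chart n X) : Cm n →L[ℂ] Cm r :=
  if hx : ∃ f : Cm n → Cm r, AnalyticAt ℂ f (e (p y)) ∧ ∀ᶠ y' in 𝓝 y, t y' = f (e (p y'))
  then fderiv ℂ hx.choose (e (p y)) else 0

/-- the minor of `t` on the vectors `ξ` -/
def dt (p : E → X) (t : E → Cm r) (y : E) (e : Chart n X) (ξ : Fin r → Cm n) : ℂ :=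
  (Matrix.of fun i j => TD p t y e (ξ j) i).det

theorem TD_eq (hp : IsCoveringMap p) {y : E} {e : Chart n X} (he : At e (p y)) {f : Cm n → Cm r}
    (hfa : AnalyticAt ℂ f (e (p y))) (hf : ∀ᶠ y' in 𝓝 y, t y' = f (e (p y'))) :
    TD p t y e = fderiv ℂ f (e (p y)) := by
  have hx : ∃ f : Cm n → Cm r, AnalyticAt ℂ f (e (p y)) ∧ ∀ᶠ y' in 𝓝 y, t y' = f (e (p y')) :=
    ⟨f, hfa, hf⟩
  rw [TD, dif_pos hx]
  apply Filter.EventuallyEq.fderiv_eq
  rw [← map_nhds hp he]
  show ∀ᶠ y' in 𝓝 y, hx.choose (e (p y')) = f (e (p y'))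
  filter_upwards [hx.choose_spec.2, hf] with y' h1 h2
  rw [← h1, h2]

theorem IsCh.nhds_target {e : Chart n X} {ε : OpenPartialHomeomorph E (Cm n)} (hε : IsCh p e ε)
    {y : E} (hy : y ∈ ε.source) : ε.target ∈ 𝓝 (e (p y)) := by
  rw [← hε.eq y hy]
  exact ε.open_target.mem_nhds (ε.map_source hy)

theorem TD_ch (hp : IsCoveringMap p) (ht : HolB p w t B) {e : Chart n X}
    {ε : OpenPartialHomeomorph E (Cm n)} (hε : IsCh p e ε) {y : E} (hy : y ∈ ε.source) :
    TD p t y e = fderiv ℂ (t ∘ ε.symm) (ε y) := by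
  rw [TD_eq hp (hε.at hy) (f := t ∘ ε.symm) ?_ (hε.ev hy), hε.eq y hy]
  rw [← hε.eq y hy]
  exact IsCh.analytic hε ht _ (ε.map_source hy)

theorem dt_ch (hp : IsCoveringMap p) (ht : HolB p w t B) {e : Chart n X}
    {ε : OpenPartialHomeomorph E (Cm n)} (hε : IsCh p e ε) {y : E} (hy : y ∈ ε.source)
    (ξ : Fin r → Cm n) :
    dt p t y e ξ = (Matrix.of fun i j => fderiv ℂ (t ∘ ε.symm) (ε y) (ξ j) i).det := by
  rw [dt, TD_ch hp ht hε hy]

omit [ChartedSpace (Cm n) X] in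
theorem dt_det (y : E) (e : Chart n X) (A : Matrix (Fin r) (Fin r) ℂ) (ξ : Fin r → Cm n) :
    dt p t y e (fun i => ∑ j, A i j • ξ j) = A.det * dt p t y e ξ := by
  rw [dt, dt, mul_comm, ← Matrix.det_transpose A, ← Matrix.det_mul]
  congr 1
  ext i j
  simp only [Matrix.of_apply, map_sum, map_smul, Finset.sum_apply, Pi.smul_apply, smul_eq_mul,
    Matrix.mul_apply, Matrix.transpose_apply]
  exact Finset.sum_congr rfl fun k _ => mul_comm _ _

/-- the minor is jointly analytic -/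
theorem minor_analytic {T : Cm n → Cm r} {z : Cm n} (hT : AnalyticAt ℂ T z)
    (ξ : Fin r → Cm n) : AnalyticAt ℂ (fun x : Cm n × (Fin r → Cm n) =>
      (Matrix.of fun i j => fderiv ℂ T x.1 (x.2 j) i).det) (z, ξ) := by
  refine det_analytic fun i j => ?_
  simp only [Matrix.of_apply]
  refine entry_analytic (f := fun x : Cm n × (Fin r → Cm n) => fderiv ℂ T x.1 (x.2 j)) ?_ i
  refine apply_analytic (L := fun x : Cm n × (Fin r → Cm n) => fderiv ℂ T x.1)
    (v := fun x => x.2 j) ?_ ?_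
  · exact hT.fderiv.fun_comp_of_eq analyticAt_fst rfl
  · exact ((ContinuousLinearMap.proj (R := ℂ) (φ := fun _ : Fin r => Cm n) j).analyticAt _).comp
      analyticAt_snd

variable [IsManifold 𝓘(ℂ, Cm n) ω X]

theorem TD_change (hp : IsCoveringMap p) (ht : HolB p w t B) {y : E} {e e' : Chart n X}
    (he : At e (p y)) (he' : At e' (p y)) (v : Cm n) :
    TD p t y e v = TD p t y e' (fderiv ℂ (fun z => e' (e.symm z)) (e (p y)) v) := by
  obtain ⟨ε', hε', hy', -, -⟩ := exists_ch_at hp he' univ_mem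
  have ha : AnalyticAt ℂ (t ∘ ε'.symm) (e' (p y)) := by
    rw [← hε'.eq y hy']
    exact IsCh.analytic hε' ht _ (ε'.map_source hy')
  have hτ := (transition he he').analyticAt
  have hτ0 : e' (e.symm (e (p y))) = e' (p y) := by rw [e.left_inv he.2]
  have hfa : AnalyticAt ℂ (fun z => (t ∘ ε'.symm) (e' (e.symm z))) (e (p y)) :=
    ha.fun_comp_of_eq hτ hτ0
  have hf : ∀ᶠ y' in 𝓝 y, t y' = (fun z => (t ∘ ε'.symm) (e' (e.symm z))) (e (p y')) := by
    have h1 : ∀ᶠ y' in 𝓝 y, p y' ∈ e.source :=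
      hp.continuous.continuousAt.eventually (e.open_source.mem_nhds he.2)
    filter_upwards [hε'.ev (F := t) hy', h1] with y' h2 h3
    rw [e.left_inv h3, ← h2]
  rw [TD_eq hp he hfa hf, TD_eq hp he' ha (hε'.ev hy')]
  have h1 : fderiv ℂ (fun z => (t ∘ ε'.symm) (e' (e.symm z))) (e (p y)) =
      (fderiv ℂ (t ∘ ε'.symm) (e' (e.symm (e (p y))))).comp
        (fderiv ℂ (fun z => e' (e.symm z)) (e (p y))) :=
    fderiv_fun_comp (g := t ∘ ε'.symm) (f := fun z => e' (e.symm z)) _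
      (by rw [hτ0]; exact ha.differentiableAt) hτ.differentiableAt
  rw [h1, hτ0]
  rfl

theorem dt_change (hp : IsCoveringMap p) (ht : HolB p w t B) {y : E} {e e' : Chart n X}
    (he : At e (p y)) (he' : At e' (p y)) (ξ : Fin r → Cm n) :
    dt p t y e ξ =
      dt p t y e' (fun i => fderiv ℂ (fun z => e' (e.symm z)) (e (p y)) (ξ i)) := by
  rw [dt, dt]
  congr 1
  ext i j
  simp only [Matrix.of_apply]
  rw [TD_change hp ht he he']

omit [IsManifold 𝓘(ℂ, Cm n) ω X] in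
theorem dt_smul {Γ : Type} [Group Γ] [MulAction Γ E] (hp : IsGalois Γ p) (ht : HolB p w t B)
    {g : Γ} {a : Cm r} (hg : ∀ y, t (g • y) = t y + a) {y : E} {e : Chart n X} (he : At e (p y))
    (ξ : Fin r → Cm n) : dt p t (g • y) e ξ = dt p t y e ξ := by
  obtain ⟨f, h1, h2, -⟩ := ht y e he
  have hfa : AnalyticAt ℂ f (e (p y)) := by
    obtain ⟨ρ, hρ, hb⟩ := Metric.eventually_nhds_iff_ball.1 h2
    exact Vale.Agent.P268.analyticAt_of_differentiableOn isOpen_ball
      (fun z hz => (hb z hz).differentiableWithinAt) (mem_ball_self hρ)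
  have h3 : Tendsto (fun y' => g⁻¹ • y') (𝓝 (g • y)) (𝓝 y) := by
    have := (hp.cont g⁻¹).tendsto (g • y)
    simpa using this
  have h4 : ∀ᶠ y' in 𝓝 (g • y), t y' = (fun z => f z + a) (e (p y')) := by
    filter_upwards [h3.eventually h1] with y' hy'
    have h5 := hg (g⁻¹ • y')
    rw [smul_inv_smul] at h5
    rw [h5, hy', p_smul' hp]
  have h5 : TD p t (g • y) e = TD p t y e := by
    rw [TD_eq hp.cov he hfa h1, TD_eq hp.cov (by rwa [p_smul' hp])
      (f := fun z => f z + a) (by rw [p_smul' hp]; exact hfa.add analyticAt_const) h4,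
      p_smul' hp, fderiv_add_const]
  rw [dt, dt, h5]

theorem reg_of_dt (hp : IsCoveringMap p) (ht : HolB p w t B) {y : E} {e : Chart n X}
    (he : At e (p y)) {ξ : Fin r → Cm n} (hne : dt p t y e ξ ≠ 0) : Reg (n := n) p t y := by
  obtain ⟨ε, hε, hy, -, -⟩ := exists_ch_at hp he univ_mem
  rw [dt_ch hp ht hε hy] at hne
  refine (hε.reg_iff hp ht hy).2 ?_
  refine surj_of_mnr (A := (Pi.basisFun ℂ (Fin r)).constr ℂ ξ) ?_
  rw [mnr]
  have h1 : ∀ j, ((Pi.basisFun ℂ (Fin r)).constr ℂ ξ) (Pi.single j 1) = ξ j := by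
    intro j
    rw [← Pi.basisFun_apply, Module.Basis.constr_basis]
  simp only [h1]
  exact hne

end

end Vale.Agent.P284.H494
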