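import Vale.Agent.P284.H494.GF

/-!
# P284 (helper494): extension of `dt ^ M • u`
-/

open scoped Manifold ContDiff Topology ENNReal
open Filter Set Metric MeasureTheory

noncomputable section

namespace Vale.Agent.P284.H494

open Vale.Agent.P272.K Vale.Agent.P284.H894.W Vale.Agent.P284.H894.G Vale.Agent.P284.H10

section
variable {n : ℕ} {X : Type} [TopologicalSpace X] [ChartedSpace (Cm n) X] {E : Type}
  [TopologicalSpace E]

/-- `dt ^ M • u` extends holomorphically near `y`, jointly in the point and the vectors `ξ`. -/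
def ExtAt (p : E → X) {r : ℕ} (t : E → Cm r) (R : Set E) {W : Type} [NormedAddCommGroup W]
    [InnerProductSpace ℂ W] (u : E → W) (M : ℕ) (y : E) (e : Chart n X) : Prop :=
  ∀ ξ₀ : Fin r → Cm n, ∃ ψ : Cm n × (Fin r → Cm n) → W, AnalyticAt ℂ ψ (e (p y), ξ₀) ∧
    ∀ᶠ x : E × (Fin r → Cm n) in 𝓝 (y, ξ₀), x.1 ∈ R →
      dt p t x.1 e x.2 ^ M • u x.1 = ψ (e (p x.1), x.2)

variable {p : E → X} {w : Chart n X → Cm n → Matrix (Fin n) (Fin n) ℂ} {r : ℕ} {t : E → Cm r}
  {B : ℝ} {R : Set E} {W : Type} [NormedAddCommGroup W] [InnerProductSpace ℂ W] {u : E → W}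
  [IsManifold 𝓘(ℂ, Cm n) ω X]

/-- the change of vectors is analytic -/
theorem change_analytic {x : X} {e e' : Chart n X} (he : At e x) (he' : At e' x) {r : ℕ}
    (ξ₀ : Fin r → Cm n) : AnalyticAt ℂ (fun x : Cm n × (Fin r → Cm n) => (e' (e.symm x.1),
      fun i => fderiv ℂ (fun z => e' (e.symm z)) x.1 (x.2 i))) (e x, ξ₀) := by
  have hτ := (transition he he').analyticAt
  refine AnalyticAt.prod (hτ.fun_comp_of_eq analyticAt_fst rfl) (AnalyticAt.pi fun i => ?_)
  refine apply_analytic (L := fun x : Cm n × (Fin r → Cm n) =>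
    fderiv ℂ (fun z => e' (e.symm z)) x.1) (v := fun x => x.2 i) ?_ ?_
  · exact hτ.fderiv.fun_comp_of_eq analyticAt_fst rfl
  · exact ((ContinuousLinearMap.proj (R := ℂ) (φ := fun _ : Fin r => Cm n) i).analyticAt _).comp
      analyticAt_snd

/-- continuity of the change of vectors on `E` -/
theorem change_tendsto (hp : IsCoveringMap p) {y : E} {e e' : Chart n X} (he : At e (p y))
    (he' : At e' (p y)) {r : ℕ} (ξ₀ : Fin r → Cm n) :
    Tendsto (fun x : E × (Fin r → Cm n) => (x.1,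
      fun i => fderiv ℂ (fun z => e' (e.symm z)) (e (p x.1)) (x.2 i))) (𝓝 (y, ξ₀))
      (𝓝 (y, fun i => fderiv ℂ (fun z => e' (e.symm z)) (e (p y)) (ξ₀ i))) := by
  refine Tendsto.prodMk_nhds (continuous_fst.tendsto _) ?_
  have h1 := (change_analytic he he' ξ₀).continuousAt
  have h2 : ContinuousAt (fun y' => e (p y')) y :=
    (e.continuousAt he.2).comp hp.continuous.continuousAt
  have h3 : ContinuousAt (fun x : E × (Fin r → Cm n) => (e (p x.1), x.2)) (y, ξ₀) :=
    (ContinuousAt.comp (g := fun y' => e (p y')) (f := fun x : E × (Fin r → Cm n) => x.1)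
      (x := (y, ξ₀)) h2 continuousAt_fst).prodMk continuousAt_snd
  have h4 := ContinuousAt.comp (g := fun x : Cm n × (Fin r → Cm n) => (e' (e.symm x.1),
      fun i => fderiv ℂ (fun z => e' (e.symm z)) x.1 (x.2 i)))
      (f := fun x : E × (Fin r → Cm n) => (e (p x.1), x.2)) (x := (y, ξ₀)) h1 h3
  exact (continuous_snd.tendsto _).comp h4.tendsto

theorem ExtAt.change (hp : IsCoveringMap p) (ht : HolB p w t B) {M : ℕ} {y : E}
    {e e' : Chart n X} (he : At e (p y)) (he' : At e' (p y)) (h : ExtAt p t R u M y e') :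
    ExtAt p t R u M y e := by
  intro ξ₀
  obtain ⟨ψ, hψ, hψe⟩ := h fun i => fderiv ℂ (fun z => e' (e.symm z)) (e (p y)) (ξ₀ i)
  have h0 : e' (e.symm (e (p y))) = e' (p y) := by rw [e.left_inv he.2]
  refine ⟨fun x => ψ (e' (e.symm x.1), fun i => fderiv ℂ (fun z => e' (e.symm z)) x.1 (x.2 i)),
    ?_, ?_⟩
  · exact hψ.fun_comp_of_eq (change_analytic he he' ξ₀) (by simp only [h0])
  · have h1 := (change_tendsto hp he he' ξ₀).eventually hψe
    have h2 : ∀ᶠ y' in 𝓝 y, p y' ∈ e.source ∧ p y' ∈ e'.source :=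
      (hp.continuous.continuousAt.eventually (e.open_source.mem_nhds he.2)).and
        (hp.continuous.continuousAt.eventually (e'.open_source.mem_nhds he'.2))
    have h3 : ∀ᶠ x : E × (Fin r → Cm n) in 𝓝 (y, ξ₀), p x.1 ∈ e.source ∧ p x.1 ∈ e'.source :=
      (continuous_fst.tendsto (y, ξ₀)).eventually h2
    filter_upwards [h1, h3] with x h4 h5 hx
    have h6 := h4 hx
    rw [← dt_change hp ht ⟨he.1, h5.1⟩ ⟨he'.1, h5.2⟩] at h6
    rw [h6, e.left_inv h5.1]

omit [IsManifold 𝓘(ℂ, Cm n) ω X] in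
theorem ExtAt.smul {Γ : Type} [Group Γ] [MulAction Γ E] (hp : IsGalois Γ p) (ht : HolB p w t B)
    (hR : ∀ (g : Γ) (y : E), g • y ∈ R ↔ y ∈ R) {M : ℕ} {y : E} {e : Chart n X} {g : Γ} {a : Cm r}
    (hg : ∀ y, t (g • y) = t y + a) {U : W →ₗᵢ[ℂ] W} (hU : ∀ y ∈ R, u (g • y) = U (u y))
    (he : At e (p y)) (h : ExtAt p t R u M y e) : ExtAt p t R u M (g • y) e := by
  intro ξ₀
  obtain ⟨ψ, hψ, hψe⟩ := h ξ₀
  refine ⟨fun x => U (ψ x), ?_, ?_⟩
  · rw [p_smul' hp]
    exact (U.toContinuousLinearMap.analyticAt _).comp hψ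
  · have h3 : Tendsto (fun y' => g⁻¹ • y') (𝓝 (g • y)) (𝓝 y) := by
      have := (hp.cont g⁻¹).tendsto (g • y)
      simpa using this
    have h4 : Tendsto (fun x : E × (Fin r → Cm n) => (g⁻¹ • x.1, x.2)) (𝓝 (g • y, ξ₀))
        (𝓝 (y, ξ₀)) :=
      Tendsto.prodMk_nhds (h3.comp (continuous_fst.tendsto (g • y, ξ₀)))
        (continuous_snd.tendsto (g • y, ξ₀))
    have h5 : ∀ᶠ x : E × (Fin r → Cm n) in 𝓝 (g • y, ξ₀), p x.1 ∈ e.source := by
      have h6 : ∀ᶠ y' in 𝓝 (g • y), p y' ∈ e.source :=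
        hp.cov.continuous.continuousAt.eventually (e.open_source.mem_nhds (by
          rw [p_smul' hp]; exact he.2))
      exact (continuous_fst.tendsto (g • y, ξ₀)).eventually h6
    filter_upwards [h4.eventually hψe, h5] with x h6 h7 hx
    have h8 : g⁻¹ • x.1 ∈ R := (hR _ _).2 hx
    have h9 := h6 h8
    have h10 : x.1 = g • (g⁻¹ • x.1) := by rw [smul_inv_smul]
    have hx' : At e (p (g⁻¹ • x.1)) := by rw [p_smul' hp]; exact ⟨he.1, h7⟩
    have h11 : dt p t x.1 e x.2 = dt p t (g⁻¹ • x.1) e x.2 := by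
      conv_lhs => rw [h10]
      exact dt_smul hp ht hg hx' _
    have h12 : u x.1 = U (u (g⁻¹ • x.1)) := by
      conv_lhs => rw [h10]
      exact hU _ h8
    rw [h11, h12, ← map_smul, h9, p_smul' hp]

variable [CompleteSpace W]

theorem fst_deriv {o : Cm n → ℂ} {z x₀ : Cm n} {M : ℕ} {r : ℕ} (ho : AnalyticAt ℂ o z)
    (h : iteratedFDeriv ℂ M o z (fun _ => x₀) ≠ 0) (ξ₀ : Fin r → Cm n) :
    iteratedFDeriv ℂ M (fun x : Cm n × (Fin r → Cm n) => o x.1) (z, ξ₀)
      (fun _ => (x₀, (0 : Fin r → Cm n))) ≠ 0 := by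
  obtain ⟨ρ, hρ, hb⟩ := Metric.eventually_nhds_iff_ball.1 ho.eventually_analyticAt
  have h1 : DifferentiableOn ℂ o (ball z ρ) := fun z' hz' =>
    (hb z' hz').differentiableAt.differentiableWithinAt
  have h2 : DifferentiableOn ℂ (fun x : Cm n × (Fin r → Cm n) => o x.1) (ball (z, ξ₀) ρ) := by
    intro x hx
    rw [mem_ball, Prod.dist_eq, max_lt_iff] at hx
    exact ((hb x.1 hx.1).differentiableAt.comp x differentiableAt_fst).differentiableWithinAt
  have h3 := line_deriv h2 M (z := (z, ξ₀)) (u := (x₀, (0 : Fin r → Cm n))) (t := 0)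
    (by simpa using hρ)
  have h4 := line_deriv h1 M (z := z) (u := x₀) (t := 0) (by simpa using hρ)
  rw [zero_smul, add_zero] at h3 h4
  rw [← h3]
  simp only [Prod.smul_mk, Prod.mk_add_mk]
  rw [h4]
  exact h

/-- local extension -/
theorem ext_local (hp : IsCoveringMap p) (ht : HolB p w t B) (hR : IsOpen R) (hRd : Dense R)
    (hRr : ∀ y ∈ R, Reg (n := n) p t y) (hu : GF n p t R u) (y₀ : E) :
    ∃ M₀ : ℕ, ∀ᶠ y in 𝓝 y₀, ∀ M, M₀ ≤ M → ∀ e : Chart n X, At e (p y) → ExtAt p t R u M y e := by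
  obtain ⟨e₀, ε, hε, hyε, -, hc⟩ := exists_ch (n := n) hp y₀ univ_mem
  obtain ⟨o, φ, ho, hφ, ho0, hoφ⟩ := hu.quo y₀ e₀ (hε.at hyε)
  obtain ⟨M₀, x₀, hM₀⟩ := exists_deriv_ne ho ho0
  refine ⟨M₀, ?_⟩
  have hTa := IsCh.analytic hε ht
  set T : Cm n → Cm r := t ∘ ε.symm with hT
  have htc := hol_continuous hp ht
  have h1 : ∀ᶠ z in 𝓝 (e₀ (p y₀)), iteratedFDeriv ℂ M₀ o z (fun _ => x₀) ≠ 0 := by
    have h2 : AnalyticAt ℂ (iteratedFDeriv ℂ M₀ o) (e₀ (p y₀)) :=
      AnalyticOnNhd.iteratedFDeriv (s := {e₀ (p y₀)})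
        (fun x hx => by rw [mem_singleton_iff.1 hx]; exact ho) M₀ _ rfl
    have h3 : ContinuousAt (fun z => iteratedFDeriv ℂ M₀ o z (fun _ => x₀)) (e₀ (p y₀)) :=
      (ContinuousMultilinearMap.apply ℂ (fun _ : Fin M₀ => Cm n) ℂ
        (fun _ => x₀)).continuous.continuousAt.comp h2.continuousAt
    exact h3.eventually_ne hM₀
  have hec : ContinuousAt (fun y' => e₀ (p y')) y₀ :=
    (e₀.continuousAt (hε.src y₀ hyε)).comp hp.continuous.continuousAt
  filter_upwards [hec.eventually h1, hec.eventually ho.eventually_analyticAt,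
    hec.eventually hφ.eventually_analyticAt, hec.eventually (not_ev_zero ho ho0),
    hoφ.eventually_nhds, ε.open_source.mem_nhds hyε] with y h2 h3 h4 h5 h6 hy M hM e he
  refine ExtAt.change hp ht he (hε.at hy) fun ξ₀ => ?_
  have hz : e₀ (p y) = ε y := (hε.eq y hy).symm
  have hzt : ε y ∈ ε.target := ε.map_source hy
  rw [hz] at h2 h3 h4 h5 ⊢
  set g : Cm n × (Fin r → Cm n) → ℂ := fun x =>
    (Matrix.of fun i j => fderiv ℂ T x.1 (x.2 j) i).det with hg
  have hfst : Tendsto (fun x : Cm n × (Fin r → Cm n) => x.1) (𝓝 (ε y, ξ₀)) (𝓝 (ε y)) :=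
    continuous_fst.tendsto _
  have hsymm : Tendsto ε.symm (𝓝 (ε y)) (𝓝 y) := IsCh.symm_tendsto hy
  have hgood : ∀ᶠ x : Cm n × (Fin r → Cm n) in 𝓝 (ε y, ξ₀), (∃ _ : Fin M, g x ≠ 0) →
      ∃ f : Cm n × (Fin r → Cm n) → W, ContinuousAt f x ∧
        ∀ᶠ x' in 𝓝 x, φ x'.1 = o x'.1 • f x' := by
    filter_upwards [hfst.eventually (ε.open_target.mem_nhds hzt),
      hfst.eventually (hsymm.eventually h6.eventually_nhds),
      hfst.eventually h3.eventually_analyticAt,
      hfst.eventually h4.eventually_analyticAt] with x a b c d hx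
    obtain ⟨-, hgx⟩ := hx
    have hys : ε.symm x.1 ∈ ε.source := ε.map_target a
    have hreg : Reg (n := n) p t (ε.symm x.1) := by
      refine reg_of_dt hp ht (hε.at hys) (ξ := x.2) ?_
      rw [dt_ch hp ht hε hys, ε.right_inv a]
      exact hgx
    obtain ⟨f, hfa, hf⟩ := hu.loc _ hreg
    have hTx : T x.1 = t (ε.symm x.1) := rfl
    have hfc : ContinuousAt (fun z => f (T z)) x.1 := by
      have h7 : ContinuousAt f (T x.1) := by rw [hTx]; exact hfa.continuousAt
      exact ContinuousAt.comp (g := f) h7 (hTa _ a).continuousAt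
    refine ⟨fun x => f (T x.1), ContinuousAt.comp (g := fun z => f (T z))
      (f := fun x : Cm n × (Fin r → Cm n) => x.1) hfc continuousAt_fst, ?_⟩
    -- equality near `x.1`
    have h8 : ∀ᶠ z in 𝓝 x.1, φ z = o z • f (T z) := by
      have hs' : Tendsto ε.symm (𝓝 x.1) (𝓝 (ε.symm x.1)) := ε.continuousAt_symm a
      have hfT : ∀ᶠ z in 𝓝 x.1, AnalyticAt ℂ f (T z) := by
        have h9 : ∀ᶠ a' in 𝓝 (T x.1), AnalyticAt ℂ f a' := by
          rw [hTx]; exact hfa.eventually_analyticAt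
        exact (hTa _ a).continuousAt.eventually h9
      filter_upwards [(hs'.eventually hf).eventually_nhds, (hs'.eventually b).eventually_nhds,
        ε.open_target.mem_nhds a, c.eventually_analyticAt, d.eventually_analyticAt, hfT]
        with z i j k l m o'
      have hcz : ContinuousAt (fun z => o z • f (T z)) z := by
        refine l.continuousAt.smul ?_
        exact ContinuousAt.comp (g := f) o'.continuousAt (hTa _ k).continuousAt
      refine eq_of_frequently m.continuousAt hcz ?_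
      have hfr : ∃ᶠ z' in 𝓝 z, ε.symm z' ∈ R := by
        have h9 : ∃ᶠ y' in 𝓝 (ε.symm z), y' ∈ R := mem_closure_iff_frequently.1 (hRd _)
        have h10 := ε.map_nhds_eq (ε.map_target k)
        rw [ε.right_inv k] at h10
        rw [← h10]
        refine Filter.frequently_map.2 ?_
        refine (h9.and_eventually (ε.open_source.mem_nhds (ε.map_target k))).mono
          fun y' h11 => ?_
        rw [ε.left_inv h11.2]
        exact h11.1
      refine (hfr.and_eventually (i.and (j.and (ε.open_target.mem_nhds k)))).mono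
        fun z' h9 => ?_
      obtain ⟨h10, h11, h12, h13⟩ := h9
      have h14 := h12 h10
      have hys' : ε.symm z' ∈ ε.source := ε.map_target h13
      rw [← hε.eq _ hys', ε.right_inv h13, h11 h10] at h14
      rw [← h14]
      rfl
    have h9 : Tendsto (fun x : Cm n × (Fin r → Cm n) => x.1) (𝓝 x) (𝓝 x.1) :=
      continuous_fst.tendsto _
    exact h9.eventually h8
  have hO : AnalyticAt ℂ (fun x : Cm n × (Fin r → Cm n) => o x.1) (ε y, ξ₀) :=
    h3.fun_comp_of_eq analyticAt_fst rfl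
  have hΦ : AnalyticAt ℂ (fun x : Cm n × (Fin r → Cm n) => φ x.1) (ε y, ξ₀) :=
    h4.fun_comp_of_eq analyticAt_fst rfl
  obtain ⟨ψ, hψ, hψe⟩ := pole_ext hO hΦ (fst_deriv h3 h2 ξ₀) (ι := Fin M) (g := fun _ => g)
    (fun _ => minor_analytic (hTa _ hzt) ξ₀) (by simpa using hM) hgood
  refine ⟨ψ, hψ, ?_⟩
  -- transfer to `E`
  have hεt : Tendsto (fun x : E × (Fin r → Cm n) => (ε x.1, x.2)) (𝓝 (y, ξ₀))
      (𝓝 (ε y, ξ₀)) := by
    refine Tendsto.prodMk_nhds ?_ (continuous_snd.tendsto _)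
    exact (ε.continuousAt hy).tendsto.comp (continuous_fst.tendsto (y, ξ₀))
  have hfE : Tendsto (fun x : E × (Fin r → Cm n) => x.1) (𝓝 (y, ξ₀)) (𝓝 y) :=
    continuous_fst.tendsto _
  have hεy : Tendsto ε (𝓝 y) (𝓝 (ε y)) := ε.continuousAt hy
  filter_upwards [(hεt.eventually hψe).eventually_nhds,
    (hεt.eventually hψ.eventually_analyticAt), hfE.eventually (ε.open_source.mem_nhds hy),
    hfE.eventually h6.eventually_nhds, hfE.eventually (hεy.eventually (not_ev_zero h3 h5))]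
    with x a b c d f' hx
  have hxz : e₀ (p x.1) = ε x.1 := (hε.eq _ c).symm
  rw [hxz, dt_ch hp ht hε c]
  -- continuity in `y'` for fixed `ξ`
  have hins : Tendsto (fun y' : E => (y', x.2)) (𝓝 x.1) (𝓝 x) :=
    Tendsto.prodMk_nhds tendsto_id tendsto_const_nhds
  obtain ⟨f, hfa, hf⟩ := hu.loc x.1 (hRr _ hx)
  have huc : ContinuousAt u x.1 := by
    have h7 : ContinuousAt (fun y' => f (t y')) x.1 :=
      ContinuousAt.comp (g := f) hfa.continuousAt htc.continuousAt
    refine h7.congr ?_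
    filter_upwards [hf, hR.mem_nhds hx] with y' h8 h9 using (h8 h9).symm
  have hgc : ContinuousAt (fun y' : E => g (ε y', x.2)) x.1 := by
    have h7 := (minor_analytic (hTa _ (ε.map_source c)) x.2).continuousAt
    have h8 : ContinuousAt (fun y' : E => (ε y', x.2)) x.1 :=
      (ε.continuousAt c).prodMk continuousAt_const
    exact ContinuousAt.comp (g := g) (f := fun y' : E => (ε y', x.2)) h7 h8
  have hψc : ContinuousAt (fun y' : E => ψ (ε y', x.2)) x.1 := by
    have h8 : ContinuousAt (fun y' : E => (ε y', x.2)) x.1 :=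
      (ε.continuousAt c).prodMk continuousAt_const
    exact ContinuousAt.comp (g := ψ) (f := fun y' : E => (ε y', x.2)) b.continuousAt h8
  refine eq_of_frequently (u := fun y' => g (ε y', x.2) ^ M • u y')
    (v := fun y' => ψ (ε y', x.2)) ((hgc.pow M).smul huc) hψc ?_
  have hfr : ∃ᶠ y' in 𝓝 x.1, o (ε y') ≠ 0 := by
    rw [Filter.Frequently]
    intro h7
    apply f'
    have h8 : ∀ᶠ y' in 𝓝 x.1, o (ε y') = 0 := h7.mono fun y' h => not_not.1 h
    rw [← ε.map_nhds_eq c]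
    exact h8
  have hRx : ∀ᶠ y' in 𝓝 x.1, y' ∈ R := hR.mem_nhds hx
  have hsx : ∀ᶠ y' in 𝓝 x.1, y' ∈ ε.source := ε.open_source.mem_nhds c
  refine (hfr.and_eventually ((hins.eventually a).and (d.and (hRx.and hsx)))).mono
    fun y' h7 => ?_
  obtain ⟨h8, h9, h10, h11, h12⟩ := h7
  have h13 := h10 h11
  rw [← hε.eq _ h12] at h13
  simp only [Finset.prod_const, Finset.card_univ, Fintype.card_fin] at h9
  rw [← h13, smul_comm] at h9
  exact (smul_right_injective W h8 h9).symm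

end

end Vale.Agent.P284.H494
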