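import Vale.Agent.P284.H494.DT

/-!
# P284 (helper494): functions of `t` with poles, and their derivatives
-/

open scoped Manifold ContDiff Topology ENNReal
open Filter Set Metric MeasureTheory

noncomputable section

namespace Vale.Agent.P284.H494

open Vale.Agent.P272.K Vale.Agent.P284.H894.W Vale.Agent.P284.H894.G Vale.Agent.P284.H10

theorem fderiv_ap {P V : Type*} [NormedAddCommGroup P] [NormedSpace ℂ P] [NormedAddCommGroup V]
    [NormedSpace ℂ V] [CompleteSpace V] {f : P → V} {a v : P} (hf : AnalyticAt ℂ f a) :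
    AnalyticAt ℂ (fun a => fderiv ℂ f a v) a :=
  ((ContinuousLinearMap.apply ℂ V v).analyticAt _).comp hf.fderiv

section
variable {n : ℕ} {X : Type} [TopologicalSpace X] [ChartedSpace (Cm n) X] {E : Type}
  [TopologicalSpace E]

variable (n) in
/-- `u` is locally a holomorphic function of `t` at the regular points of `t`, and a quotient of
holomorphic functions everywhere (identities on the set `R`). -/
structure GF (p : E → X) {r : ℕ} (t : E → Cm r) (R : Set E) {W : Type} [NormedAddCommGroup W]
    [InnerProductSpace ℂ W] (u : E → W) : Prop where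
  loc : ∀ y, Reg (n := n) p t y → ∃ f : Cm r → W, AnalyticAt ℂ f (t y) ∧
    ∀ᶠ y' in 𝓝 y, y' ∈ R → u y' = f (t y')
  quo : ∀ (y : E) (e : Chart n X), At e (p y) → ∃ (o : Cm n → ℂ) (φ : Cm n → W),
    AnalyticAt ℂ o (e (p y)) ∧ AnalyticAt ℂ φ (e (p y)) ∧ (¬ ∀ᶠ z in 𝓝 (e (p y)), o z = 0) ∧
    ∀ᶠ y' in 𝓝 y, y' ∈ R → o (e (p y')) • u y' = φ (e (p y'))

open Classical in
/-- the derivative of `u` (as a function of `t`) in the direction `v` -/
def DV {r : ℕ} (t : E → Cm r) {W : Type} [NormedAddCommGroup W] [InnerProductSpace ℂ W]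
    (v : Cm r) (u : E → W) (y : E) : W :=
  if hx : ∃ f : Cm r → W, AnalyticAt ℂ f (t y) ∧ ∀ᶠ y' in 𝓝 y, u y' = f (t y')
  then fderiv ℂ hx.choose (t y) v else 0

variable {p : E → X} {w : Chart n X → Cm n → Matrix (Fin n) (Fin n) ℂ} {r : ℕ} {t : E → Cm r}
  {B : ℝ} {R : Set E} {W : Type} [NormedAddCommGroup W] [InnerProductSpace ℂ W] {u : E → W}

theorem DV_eq {y : E} (hy : map t (𝓝 y) = 𝓝 (t y)) {f : Cm r → W} (hfa : AnalyticAt ℂ f (t y))
    (hf : ∀ᶠ y' in 𝓝 y, u y' = f (t y')) (v : Cm r) : DV t v u y = fderiv ℂ f (t y) v := by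
  have hx : ∃ f : Cm r → W, AnalyticAt ℂ f (t y) ∧ ∀ᶠ y' in 𝓝 y, u y' = f (t y') := ⟨f, hfa, hf⟩
  rw [DV, dif_pos hx]
  have h1 : hx.choose =ᶠ[𝓝 (t y)] f := by
    rw [← hy]
    show ∀ᶠ y' in 𝓝 y, hx.choose (t y') = f (t y')
    filter_upwards [hx.choose_spec.2, hf] with y' h1 h2
    rw [← h1, h2]
  rw [h1.fderiv_eq]

/-- adjugate matrices depend analytically on the matrix -/
theorem adj_analytic {P : Type*} [NormedAddCommGroup P] [NormedSpace ℂ P] {r : ℕ}
    {M : P → Matrix (Fin r) (Fin r) ℂ} {x : P} (hM : ∀ i j, AnalyticAt ℂ (fun x => M x i j) x)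
    (i j : Fin r) : AnalyticAt ℂ (fun x => (M x).adjugate i j) x := by
  simp only [Matrix.adjugate_apply]
  refine det_analytic fun k l => ?_
  by_cases hk : k = j
  · subst hk
    simp only [Matrix.updateRow_self]
    exact analyticAt_const
  · simp only [Matrix.updateRow_ne hk]
    exact hM k l

variable [IsManifold 𝓘(ℂ, Cm n) ω X] [CompleteSpace W]

/-- the derivative of a function of `t` -/
theorem GF.deriv [ConnectedSpace E] (hr : 1 ≤ r) (hp : IsCoveringMap p) (ht : HolB p w t B)
    (hR : IsOpen R) (hRr : ∀ y ∈ R, Reg (n := n) p t y) (hex : ∃ y, Reg (n := n) p t y)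
    (hu : GF n p t R u) (v : Cm r) : GF n p t R (DV t v u) := by
  constructor
  · intro y hy
    obtain ⟨f, hfa, hf⟩ := hu.loc y hy
    refine ⟨fun a => fderiv ℂ f a v, fderiv_ap hfa, ?_⟩
    have htc := hol_continuous hp ht
    filter_upwards [hf.eventually_nhds, htc.continuousAt.eventually hfa.eventually_analyticAt]
      with y' h1 h2 h3
    refine DV_eq (reg_map_nhds hp ht (hRr y' h3)) h2 ?_ v
    filter_upwards [h1, hR.mem_nhds h3] with y'' h4 h5 using h4 h5
  · intro y e he
    obtain ⟨o, φ, ho, hφ, ho0, hoφ⟩ := hu.quo y e he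
    obtain ⟨ε, hε, hyε, -, hc⟩ := exists_ch_at hp he univ_mem
    obtain ⟨ξ, hma, hm0, hmr⟩ := exists_minor hr hp ht hex hε hc hyε
    have hz : e (p y) = ε y := (hε.eq y hyε).symm
    have hzt : ε y ∈ ε.target := ε.map_source hyε
    rw [hz] at ho hφ ho0
    have hTa := IsCh.analytic hε ht
    set T : Cm n → Cm r := t ∘ ε.symm with hT
    set M : Cm n → Matrix (Fin r) (Fin r) ℂ := fun z => Matrix.of fun i j => fderiv ℂ T z (ξ j) i
      with hM
    set γ : Fin r → Cm n → W := fun j z => o z • fderiv ℂ φ z (ξ j) - fderiv ℂ o z (ξ j) • φ z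
      with hγ
    have hMa : ∀ i j, AnalyticAt ℂ (fun z => M z i j) (ε y) := fun i j =>
      entry_analytic (f := fun z => fderiv ℂ T z (ξ j)) (fderiv_ap (hTa _ hzt)) i
    have hγa : ∀ j, AnalyticAt ℂ (γ j) (ε y) := fun j =>
      (ho.fun_smul (fderiv_ap hφ)).fun_sub ((fderiv_ap ho).fun_smul hφ)
    refine ⟨fun z => (o z * o z) * (M z).det, fun z => ∑ k, v k • ∑ j, (M z).adjugate j k • γ j z,
      ?_, ?_, ?_, ?_⟩
    · rw [hz]
      exact (ho.mul ho).mul (hma _ hzt)
    · rw [hz]
      refine Finset.analyticAt_fun_sum _ fun k _ => analyticAt_const.fun_smul ?_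
      exact Finset.analyticAt_fun_sum _ fun j _ => (adj_analytic hMa j k).fun_smul (hγa j)
    · rw [hz]
      exact mul_not_ev_zero (ho.mul ho) (hma _ hzt) (mul_not_ev_zero ho ho ho0 ho0) hm0
    · -- the identity
      have hεt : Tendsto ε (𝓝 y) (𝓝 (ε y)) := ε.continuousAt hyε
      filter_upwards [hoφ.eventually_nhds, ε.open_source.mem_nhds hyε,
        hεt.eventually ho.eventually_analyticAt, hεt.eventually hφ.eventually_analyticAt]
        with y' h1 h2 h3 h4 hy'
      have hz' : e (p y') = ε y' := (hε.eq y' h2).symm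
      rw [hz']
      obtain ⟨f, hfa, hf⟩ := hu.loc y' (hRr y' hy')
      have hf' : ∀ᶠ y'' in 𝓝 y', u y'' = f (t y'') := by
        filter_upwards [hf, hR.mem_nhds hy'] with y'' h5 h6 using h5 h6
      have hDV : ∀ v', DV t v' u y' = fderiv ℂ f (t y') v' :=
        DV_eq (reg_map_nhds hp ht (hRr y' hy')) hfa hf'
      have hTy : T (ε y') = t y' := by rw [hT, Function.comp_apply, ε.left_inv h2]
      have hzt' : ε y' ∈ ε.target := ε.map_source h2
      have hTd : DifferentiableAt ℂ T (ε y') := (hTa _ hzt').differentiableAt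
      -- `φ = o • f ∘ T` near `ε y'`
      have h5 : φ =ᶠ[𝓝 (ε y')] fun z => o z • f (T z) := by
        rw [← hz', ← IsCh.map_nhds hε h2]
        show ∀ᶠ y'' in 𝓝 y', φ (e (p y'')) = o (e (p y'')) • f (T (e (p y'')))
        filter_upwards [h1, hf', hR.mem_nhds hy', ε.open_source.mem_nhds h2] with y'' h6 h7 h8 h9
        rw [← h6 h8, h7, ← hε.eq y'' h9, hT, Function.comp_apply, ε.left_inv h9]
      have hfT : DifferentiableAt ℂ (fun z => f (T z)) (ε y') := by
        have : DifferentiableAt ℂ f (T (ε y')) := by rw [hTy]; exact hfa.differentiableAt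
        exact this.comp (ε y') hTd
      have h6 : ∀ x, fderiv ℂ φ (ε y') x = fderiv ℂ o (ε y') x • f (t y') +
          o (ε y') • fderiv ℂ f (t y') (fderiv ℂ T (ε y') x) := by
        intro x
        rw [h5.fderiv_eq, fderiv_fun_smul h3.differentiableAt hfT]
        have h7 : fderiv ℂ (fun z => f (T z)) (ε y') =
            (fderiv ℂ f (T (ε y'))).comp (fderiv ℂ T (ε y')) :=
          fderiv_fun_comp (g := f) (f := T) _ (by rw [hTy]; exact hfa.differentiableAt) hTd
        rw [h7, hTy]
        simp only [_root_.add_apply, _root_.smul_apply,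
          ContinuousLinearMap.comp_apply, ContinuousLinearMap.smulRight_apply]
        rw [add_comm]
      have h7 : φ (ε y') = o (ε y') • f (t y') := by
        have := h5.self_of_nhds
        simp only [hTy] at this
        exact this
      have h8 : ∀ j, γ j (ε y') =
          (o (ε y') * o (ε y')) • ∑ i, M (ε y') i j • fderiv ℂ f (t y') (Pi.single i 1) := by
        intro j
        have h9 : fderiv ℂ f (t y') (fderiv ℂ T (ε y') (ξ j)) =
            ∑ i, M (ε y') i j • fderiv ℂ f (t y') (Pi.single i 1) := by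
          have h10 : fderiv ℂ T (ε y') (ξ j) = ∑ i, M (ε y') i j • (Pi.single i (1 : ℂ) : Cm r) := by
            ext k
            simp [hM, Finset.sum_apply, Pi.single_apply]
          conv_lhs => rw [h10]
          rw [map_sum]
          simp only [map_smul]
        rw [← h9, hγ]
        simp only
        rw [h6, h7, smul_add, smul_smul, smul_smul, smul_smul]
        rw [mul_comm (o (ε y')) (fderiv ℂ o (ε y') (ξ j))]
        abel
      have h9 : DV t v u y' = ∑ k, v k • fderiv ℂ f (t y') (Pi.single k 1) := by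
        rw [hDV]
        have h10 : v = ∑ k, v k • (Pi.single k (1 : ℂ) : Cm r) := by
          ext k
          simp [Finset.sum_apply, Pi.single_apply]
        conv_lhs => rw [h10]
        rw [map_sum]
        simp only [map_smul]
      rw [h9, Finset.smul_sum]
      refine Finset.sum_congr rfl fun k _ => ?_
      rw [smul_comm]
      congr 1
      simp only [h8]
      have h10 : ∑ j, (M (ε y')).adjugate j k • (o (ε y') * o (ε y')) •
          ∑ i, M (ε y') i j • fderiv ℂ f (t y') (Pi.single i 1) =
          (o (ε y') * o (ε y')) • ∑ i, (∑ j, M (ε y') i j * (M (ε y')).adjugate j k) •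
            fderiv ℂ f (t y') (Pi.single i 1) := by
        have h11 : ∀ j, (M (ε y')).adjugate j k • (o (ε y') * o (ε y')) •
            ∑ i, M (ε y') i j • fderiv ℂ f (t y') (Pi.single i 1) =
            (o (ε y') * o (ε y')) • ∑ i, (M (ε y') i j * (M (ε y')).adjugate j k) •
              fderiv ℂ f (t y') (Pi.single i 1) := by
          intro j
          rw [smul_comm]
          congr 1
          rw [Finset.smul_sum]
          refine Finset.sum_congr rfl fun i _ => ?_
          rw [smul_smul, mul_comm]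
        simp only [h11]
        rw [← Finset.smul_sum, Finset.sum_comm]
        congr 1
        refine Finset.sum_congr rfl fun i _ => ?_
        rw [Finset.sum_smul]
      rw [h10]
      have h11 : ∀ i, ∑ j, M (ε y') i j * (M (ε y')).adjugate j k =
          if i = k then (M (ε y')).det else 0 := by
        intro i
        have h12 := congrFun (congrFun (Matrix.mul_adjugate (M (ε y'))) i) k
        rw [Matrix.mul_apply] at h12
        rw [h12, Matrix.smul_apply, Matrix.one_apply]
        split_ifs <;> simp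
      simp only [h11, ite_smul, zero_smul]
      rw [Finset.sum_ite_eq' Finset.univ k, if_pos (Finset.mem_univ k), smul_smul]

end

end Vale.Agent.P284.H494
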