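import Vale.Agent.P284.H494.Ext

/-!
# P284 (helper494): the forms `dt ^ M • u`
-/

open scoped Manifold ContDiff Topology ENNReal
open Filter Set Metric MeasureTheory

noncomputable section

namespace Vale.Agent.P284.H494

open Vale.Agent.P272.K Vale.Agent.P284.H894.W Vale.Agent.P284.H894.G Vale.Agent.P284.H10
  Vale.Agent.P284.H573

section
variable {n : ℕ} {X : Type} [TopologicalSpace X] [ChartedSpace (Cm n) X] {E : Type}
  [TopologicalSpace E]
  {p : E → X} {w : Chart n X → Cm n → Matrix (Fin n) (Fin n) ℂ} {r : ℕ} {t : E → Cm r}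
  {B : ℝ} {R : Set E} {W : Type} [NormedAddCommGroup W] [InnerProductSpace ℂ W] {u : E → W}
  {Γ : Type} [Group Γ] [MulAction Γ E]

/-- extension with one exponent everywhere -/
theorem ext_all [CompactSpace X] [IsManifold 𝓘(ℂ, Cm n) ω X] [CompleteSpace W]
    (hp : IsGalois Γ p) (ht : HolB p w t B) (hR : IsOpen R)
    (hRd : Dense R) (hRr : ∀ y ∈ R, Reg (n := n) p t y) (hRg : ∀ (g : Γ) (y : E), g • y ∈ R ↔ y ∈ R)
    (hg : ∀ g : Γ, ∃ a, ∀ y, t (g • y) = t y + a) (hu : GF n p t R u)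
    (hU : ∀ g : Γ, ∃ U : W →ₗᵢ[ℂ] W, ∀ y ∈ R, u (g • y) = U (u y)) :
    ∃ M₀ : ℕ, ∀ M, M₀ ≤ M → ∀ (y : E) (e : Chart n X), At e (p y) → ExtAt p t R u M y e := by
  obtain ⟨C, hC, hcov⟩ := exists_compact_X hp n
  choose M₀ hM₀ using ext_local hp.cov ht hR hRd hRr hu
  obtain ⟨s, -, hs⟩ := hC.elim_nhds_subcover (fun y => {y' | ∀ M, M₀ y ≤ M → ∀ e : Chart n X,
    At e (p y') → ExtAt p t R u M y' e}) fun y _ => hM₀ y
  refine ⟨s.sup M₀, fun M hM y e he => ?_⟩
  obtain ⟨γ, hγ⟩ := hcov y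
  obtain ⟨y₁, hy₁, hy₂⟩ := mem_iUnion₂.1 (hs hγ)
  have h1 := hy₂ M ((Finset.le_sup hy₁).trans hM) e (by rw [p_smul' hp]; exact he)
  obtain ⟨a, ha⟩ := hg γ⁻¹
  obtain ⟨U, hU'⟩ := hU γ⁻¹
  have h2 := ExtAt.smul hp ht hRg ha hU' (by rw [p_smul' hp]; exact he) h1
  rwa [inv_smul_smul] at h2

/-- the value of `dt ^ M • u` -/
def vl (p : E → X) (t : E → Cm r) (R : Set E) (u : E → W) (M : ℕ) (y : E) (e : Chart n X)
    (ξ : Fin r → Cm n) : W :=
  limUnder (𝓝[R] y) fun y' => dt p t y' e ξ ^ M • u y'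

theorem ep_cont (hp : IsCoveringMap p) {y : E} {e : Chart n X} (he : At e (p y)) :
    ContinuousAt (fun y' => e (p y')) y :=
  (e.continuousAt he.2).comp hp.continuous.continuousAt

theorem vl_tendsto (hp : IsCoveringMap p) (hRd : Dense R) {M : ℕ} {y : E} {e : Chart n X}
    (he : At e (p y)) (h : ExtAt p t R u M y e) (ξ : Fin r → Cm n) :
    Tendsto (fun y' => dt p t y' e ξ ^ M • u y') (𝓝[R] y) (𝓝 (vl p t R u M y e ξ)) := by
  have hne : (𝓝[R] y).NeBot := mem_closure_iff_nhdsWithin_neBot.1 (hRd y)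
  obtain ⟨ψ, hψ, hψe⟩ := h ξ
  have h1 : Tendsto (fun y' : E => (y', ξ)) (𝓝 y) (𝓝 (y, ξ)) :=
    Tendsto.prodMk_nhds tendsto_id tendsto_const_nhds
  have h2 : Tendsto (fun y' => ψ (e (p y'), ξ)) (𝓝 y) (𝓝 (ψ (e (p y), ξ))) := by
    have h3 : ContinuousAt (fun y' => (e (p y'), ξ)) y := (ep_cont hp he).prodMk continuousAt_const
    exact (ContinuousAt.comp (g := ψ) (f := fun y' => (e (p y'), ξ)) hψ.continuousAt h3).tendsto
  have h3 : Tendsto (fun y' => dt p t y' e ξ ^ M • u y') (𝓝[R] y) (𝓝 (ψ (e (p y), ξ))) := by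
    refine (h2.mono_left nhdsWithin_le_nhds).congr' ?_
    rw [Filter.EventuallyEq, eventually_nhdsWithin_iff]
    filter_upwards [h1.eventually hψe] with y' h4 h5 using (h4 h5).symm
  rw [vl, h3.limUnder_eq]
  exact h3

theorem vl_eq (hp : IsCoveringMap p) (hRd : Dense R) {M : ℕ} {y : E} {e : Chart n X}
    (he : At e (p y)) {ξ : Fin r → Cm n} {ψ : Cm n × (Fin r → Cm n) → W}
    (hc : ∀ᶠ x in 𝓝 (e (p y), ξ), ContinuousAt ψ x)
    (hψe : ∀ᶠ x : E × (Fin r → Cm n) in 𝓝 (y, ξ), x.1 ∈ R →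
      dt p t x.1 e x.2 ^ M • u x.1 = ψ (e (p x.1), x.2)) :
    ∀ᶠ x : E × (Fin r → Cm n) in 𝓝 (y, ξ), vl p t R u M x.1 e x.2 = ψ (e (p x.1), x.2) := by
  have h0 : Tendsto (fun x : E × (Fin r → Cm n) => (e (p x.1), x.2)) (𝓝 (y, ξ))
      (𝓝 (e (p y), ξ)) := by
    refine Tendsto.prodMk_nhds ?_ (continuous_snd.tendsto _)
    exact (ep_cont hp he).tendsto.comp (continuous_fst.tendsto (y, ξ))
  have h5 : ∀ᶠ x : E × (Fin r → Cm n) in 𝓝 (y, ξ), p x.1 ∈ e.source := by
    have h6 : ∀ᶠ y' in 𝓝 y, p y' ∈ e.source :=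
      hp.continuous.continuousAt.eventually (e.open_source.mem_nhds he.2)
    exact (continuous_fst.tendsto (y, ξ)).eventually h6
  filter_upwards [hψe.eventually_nhds, h0.eventually hc, h5] with x h1 h2 h6
  have hne : (𝓝[R] x.1).NeBot := mem_closure_iff_nhdsWithin_neBot.1 (hRd x.1)
  have h3 : Tendsto (fun y' : E => (y', x.2)) (𝓝 x.1) (𝓝 x) :=
    Tendsto.prodMk_nhds tendsto_id tendsto_const_nhds
  have h4 : Tendsto (fun y' => ψ (e (p y'), x.2)) (𝓝 x.1) (𝓝 (ψ (e (p x.1), x.2))) := by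
    have h7 : ContinuousAt (fun y' => (e (p y'), x.2)) x.1 :=
      (ep_cont hp ⟨he.1, h6⟩).prodMk continuousAt_const
    exact (ContinuousAt.comp (g := ψ) (f := fun y' => (e (p y'), x.2)) h2 h7).tendsto
  have h7 : Tendsto (fun y' => dt p t y' e x.2 ^ M • u y') (𝓝[R] x.1)
      (𝓝 (ψ (e (p x.1), x.2))) := by
    refine (h4.mono_left nhdsWithin_le_nhds).congr' ?_
    rw [Filter.EventuallyEq, eventually_nhdsWithin_iff]
    filter_upwards [h3.eventually h1] with y' h8 h9 using (h8 h9).symm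
  exact h7.limUnder_eq

variable [IsManifold 𝓘(ℂ, Cm n) ω X] [CompleteSpace W]

/-- `dt ^ M • u` is a holomorphic form on the covering -/
theorem hform_vl (hp : IsGalois Γ p) (ht : HolB p w t B) (hRd : Dense R)
    (hRg : ∀ (g : Γ) (y : E), g • y ∈ R ↔ y ∈ R)
    (hg : ∀ g : Γ, ∃ a, ∀ y, t (g • y) = t y + a)
    (hU : ∀ g : Γ, ∃ U : W →ₗᵢ[ℂ] W, ∀ y ∈ R, u (g • y) = U (u y)) {M : ℕ}
    (h : ∀ (y : E) (e : Chart n X), At e (p y) → ExtAt p t R u M y e) :
    HForm n r M p W (vl p t R u M) := by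
  constructor
  · -- holomorphic
    intro y e he
    obtain ⟨ε, hε, hy, -, -⟩ := exists_ch_at hp.cov he univ_mem
    refine ⟨fun x => vl p t R u M (ε.symm x.1) e x.2, fun ξ => ?_, ?_⟩
    · obtain ⟨ψ, hψ, hψe⟩ := h y e he ξ
      have h1 := vl_eq hp.cov hRd he
        (hψ.eventually_analyticAt.mono fun x hx => hx.continuousAt) hψe
      refine hψ.congr ?_
      have hz : e (p y) = ε y := (hε.eq y hy).symm
      rw [hz]
      have h2 : Tendsto (fun x : Cm n × (Fin r → Cm n) => (ε.symm x.1, x.2)) (𝓝 (ε y, ξ))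
          (𝓝 (y, ξ)) := by
        refine Tendsto.prodMk_nhds ?_ (continuous_snd.tendsto _)
        exact (IsCh.symm_tendsto hy).comp (continuous_fst.tendsto (ε y, ξ))
      have h3 : ∀ᶠ x : Cm n × (Fin r → Cm n) in 𝓝 (ε y, ξ), x.1 ∈ ε.target :=
        (continuous_fst.tendsto (ε y, ξ)).eventually (ε.open_target.mem_nhds (ε.map_source hy))
      filter_upwards [h2.eventually h1, h3] with x h4 h5
      have h6 : e (p (ε.symm x.1)) = x.1 := by
        rw [← hε.eq _ (ε.map_target h5), ε.right_inv h5]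
      rw [h4, h6]
    · filter_upwards [ε.open_source.mem_nhds hy] with y' hy' ξ
      rw [← hε.eq _ hy', ε.left_inv hy']
  · -- change of charts
    intro y e e' he he' ξ
    have hne : (𝓝[R] y).NeBot := mem_closure_iff_nhdsWithin_neBot.1 (hRd y)
    set ξ' : Fin r → Cm n := fun i => fderiv ℂ (fun z => e' (e.symm z)) (e (p y)) (ξ i) with hξ'
    obtain ⟨ψ, hψ, hψe⟩ := h y e' he' ξ'
    have h1 := (vl_eq hp.cov hRd he'
      (hψ.eventually_analyticAt.mono fun x hx => hx.continuousAt) hψe).self_of_nhds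
    simp only at h1
    rw [h1]
    refine tendsto_nhds_unique (vl_tendsto hp.cov hRd he (h y e he) ξ) ?_
    have hins : Tendsto (fun y' : E => (y', ξ)) (𝓝 y) (𝓝 (y, ξ)) :=
      Tendsto.prodMk_nhds tendsto_id tendsto_const_nhds
    have h2 := (change_tendsto hp.cov he he' ξ).comp hins
    have h3 : Tendsto (fun x : E × (Fin r → Cm n) => (e' (p x.1), x.2)) (𝓝 (y, ξ'))
        (𝓝 (e' (p y), ξ')) := by
      refine Tendsto.prodMk_nhds ?_ (continuous_snd.tendsto _)
      exact (ep_cont hp.cov he').tendsto.comp (continuous_fst.tendsto (y, ξ'))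
    have h4 := (hψ.continuousAt.tendsto.comp h3).comp h2
    refine (h4.mono_left nhdsWithin_le_nhds).congr' ?_
    rw [Filter.EventuallyEq, eventually_nhdsWithin_iff]
    filter_upwards [h2.eventually hψe,
      hp.cov.continuous.continuousAt.eventually (e.open_source.mem_nhds he.2),
      hp.cov.continuous.continuousAt.eventually (e'.open_source.mem_nhds he'.2)]
      with y' h5 h6 h7 h8
    have h9 := h5 h8
    simp only [Function.comp_apply] at h9 ⊢
    rw [← h9, ← dt_change hp.cov ht ⟨he.1, h6⟩ ⟨he'.1, h7⟩]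
  · -- determinant rule
    intro y e he A ξ
    have hne : (𝓝[R] y).NeBot := mem_closure_iff_nhdsWithin_neBot.1 (hRd y)
    refine tendsto_nhds_unique (vl_tendsto hp.cov hRd he (h y e he) _) ?_
    have h1 := (vl_tendsto hp.cov hRd he (h y e he) ξ).const_smul (A.det ^ M)
    refine h1.congr fun y' => ?_
    rw [dt_det, mul_pow, mul_smul]
  · -- invariance
    intro y y₁ e he hyy ξ
    obtain ⟨γ, rfl⟩ := (hp.orb y y₁).1 hyy
    obtain ⟨a, ha⟩ := hg γ
    obtain ⟨U, hU'⟩ := hU γ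
    have he' : At e (p (γ • y)) := by rw [p_smul' hp]; exact he
    have hne : (𝓝[R] (γ • y)).NeBot := mem_closure_iff_nhdsWithin_neBot.1 (hRd _)
    have h1 := vl_tendsto hp.cov hRd he' (h _ e he') ξ
    have h2 : Tendsto (fun y' => γ⁻¹ • y') (𝓝[R] (γ • y)) (𝓝[R] y) := by
      refine tendsto_nhdsWithin_iff.2 ⟨?_, ?_⟩
      · have := (hp.cont γ⁻¹).tendsto (γ • y)
        rw [inv_smul_smul] at this
        exact this.mono_left nhdsWithin_le_nhds
      · filter_upwards [self_mem_nhdsWithin] with y' hy' using (hRg _ _).2 hy'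
    have h3 := (U.continuous.tendsto _).comp ((vl_tendsto hp.cov hRd he (h y e he) ξ).comp h2)
    have h4 : vl p t R u M (γ • y) e ξ = U (vl p t R u M y e ξ) := by
      refine tendsto_nhds_unique h1 (h3.congr' ?_)
      have h5 : ∀ᶠ y' in 𝓝[R] (γ • y), p y' ∈ e.source :=
        eventually_nhdsWithin_of_eventually_nhds
          (hp.cov.continuous.continuousAt.eventually (e.open_source.mem_nhds he'.2))
      filter_upwards [self_mem_nhdsWithin, h5] with y' h6 h7
      have h8 : γ⁻¹ • y' ∈ R := (hRg _ _).2 h6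
      have h9 := hU' _ h8
      rw [smul_inv_smul] at h9
      have h10 := dt_smul hp ht ha (y := γ⁻¹ • y') (e := e)
        (by rw [p_smul' hp]; exact ⟨he.1, h7⟩) ξ
      rw [smul_inv_smul] at h10
      simp only [Function.comp_apply]
      rw [h9, h10, map_smul]
    rw [h4, U.norm_map]

omit [IsManifold 𝓘(ℂ, Cm n) ω X] in
/-- products of forms -/
theorem hform_prod {R m : ℕ} {H₁ H₂ : Type} [NormedAddCommGroup H₁] [InnerProductSpace ℂ H₁]
    [NormedAddCommGroup H₂] [InnerProductSpace ℂ H₂]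
    {v₁ : E → Chart n X → (Fin R → Cm n) → H₁} {v₂ : E → Chart n X → (Fin R → Cm n) → H₂}
    (h₁ : HForm n R m p H₁ v₁) (h₂ : HForm n R m p H₂ v₂) :
    HForm n R m p (WithLp 2 (H₁ × H₂)) fun y e ξ => WithLp.toLp 2 (v₁ y e ξ, v₂ y e ξ) := by
  constructor
  · intro y e he
    obtain ⟨F₁, hF₁, hv₁⟩ := h₁.hol y e he
    obtain ⟨F₂, hF₂, hv₂⟩ := h₂.hol y e he
    refine ⟨fun x => WithLp.toLp 2 (F₁ x, F₂ x), fun ξ => ?_, ?_⟩
    · exact ((WithLp.prodContinuousLinearEquiv 2 ℂ H₁ H₂).symm.toContinuousLinearMap.analyticAt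
        _).comp ((hF₁ ξ).prod (hF₂ ξ))
    · filter_upwards [hv₁, hv₂] with y' a b ξ
      rw [a ξ, b ξ]
  · intro y e e' he he' ξ
    rw [h₁.change y e e' he he' ξ, h₂.change y e e' he he' ξ]
  · intro y e he A ξ
    rw [h₁.det y e he A ξ, h₂.det y e he A ξ]
    rfl
  · intro y y₁ e he hyy ξ
    rw [WithLp.prod_norm_eq_of_L2, WithLp.prod_norm_eq_of_L2]
    simp only [WithLp.toLp_fst, WithLp.toLp_snd]
    rw [h₁.inv y y₁ e he hyy ξ, h₂.inv y y₁ e he hyy ξ]

omit [IsManifold 𝓘(ℂ, Cm n) ω X] in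
/-- finite families of forms -/
theorem hform_pi {R m : ℕ} {ι : Type} [Fintype ι] {H : Type} [NormedAddCommGroup H]
    [InnerProductSpace ℂ H] {v : ι → E → Chart n X → (Fin R → Cm n) → H}
    (h : ∀ i, HForm n R m p H (v i)) :
    HForm n R m p (PiLp 2 fun _ : ι => H) fun y e ξ => WithLp.toLp 2 fun i => v i y e ξ := by
  constructor
  · intro y e he
    choose F hF hv using fun i => (h i).hol y e he
    refine ⟨fun x => WithLp.toLp 2 fun i => F i x, fun ξ => ?_, ?_⟩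
    · exact ((PiLp.continuousLinearEquiv 2 ℂ fun _ : ι => H).symm.toContinuousLinearMap.analyticAt
        _).comp (AnalyticAt.pi fun i => hF i ξ)
    · filter_upwards [eventually_all.2 hv] with y' a ξ
      congr 1
      funext i
      exact a i ξ
  · intro y e e' he he' ξ
    congr 1
    funext i
    exact (h i).change y e e' he he' ξ
  · intro y e he A ξ
    have h1 : (fun i => v i y e fun i => ∑ j, A i j • ξ j) = A.det ^ m • fun i => v i y e ξ := by
      funext i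
      exact (h i).det y e he A ξ
    rw [h1]
    rfl
  · intro y y₁ e he hyy ξ
    rw [PiLp.norm_eq_of_L2, PiLp.norm_eq_of_L2]
    congr 1
    refine Finset.sum_congr rfl fun i _ => ?_
    simp only
    rw [(h i).inv y y₁ e he hyy ξ]

end

end Vale.Agent.P284.H494
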