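import Vale.Agent.P284.H494.Sweep

/-!
# P284 (helper494): `h` has no pole where `π ∘ F` is a submersion
-/

open scoped Manifold ContDiff Topology ENNReal
open Filter Set Metric MeasureTheory

noncomputable section

namespace Vale.Agent.P284.H494

open Vale.Agent.P272.K Vale.Agent.P284.H894.W Vale.Agent.P284.H894.G Vale.Agent.P284.H10

theorem vol_cov {q : ℕ} (hq : 1 ≤ q) {S : Set (Cm q)} (hS : Cov (q - 1) S) :
    (volume : Measure (Cm q)) S = 0 := by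
  have h1 : (Measure.addHaar : Measure (Cm q)) S = 0 := null_of_cov hS (by simp; omega)
  exact Measure.absolutelyContinuous_isAddHaarMeasure volume Measure.addHaar h1

section
variable {n : ℕ} {X : Type} [TopologicalSpace X] [ChartedSpace (Cm n) X] {E : Type}
  [TopologicalSpace E] {p : E → X} {Γ : Type} [Group Γ] [MulAction Γ E]
  {w : Chart n X → Cm n → Matrix (Fin n) (Fin n) ℂ} {q r : ℕ} {F : E → Cm q} {c : Γ → Cm q}
  [IsManifold 𝓘(ℂ, Cm n) ω X]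
  {W : Type} [NormedAddCommGroup W] [InnerProductSpace ℂ W] [CompleteSpace W] {h : E → W}

/-- `h` has no pole where `π ∘ F` is a submersion -/
theorem no_pole [CompactSpace X] [ConnectedSpace E] (hq : 1 ≤ q) (hp : IsGalois Γ p)
    (hP : Per p w F c) (hex : ∃ y, Reg (n := n) p F y) (hS : SheetFun n Γ p F h)
    (π : Cm q →L[ℂ] Cm r) (hπ : Function.Surjective π)
    (hloc : ∀ y, Reg (n := n) p F y → ∃ f : Cm r → W, AnalyticAt ℂ f (π (F y)) ∧
      ∀ᶠ y' in 𝓝 y, h y' = f (π (F y')))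
    {y₀ : E} (hy₀ : Reg (n := n) p (fun y => π (F y)) y₀) :
    ∃ f : Cm r → W, AnalyticAt ℂ f (π (F y₀)) ∧
      ∀ᶠ y in 𝓝 y₀, Reg (n := n) p F y → h y = f (π (F y)) := by
  obtain ⟨B, hB⟩ := hP.hol
  have hFc := hP.continuous hp.cov
  obtain ⟨ρ, hρ, hquot⟩ := quot_form hq hp.cov hB hex hS.ext π hloc hy₀
  obtain ⟨R, hR, hRb⟩ : ∃ R > 0, ∀ τ ∈ ball (F y₀) R, π τ ∈ ball (π (F y₀)) ρ :=
    Metric.eventually_nhds_iff_ball.1 (π.continuous.continuousAt.eventually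
      (ball_mem_nhds (π (F y₀)) hρ))
  obtain ⟨α, β, hα, hβ, ⟨y₁, hy₁V, hy₁r, -, hβ₁, hy₁⟩, hfin⟩ :=
    hquot (F ⁻¹' ball (F y₀) R) (hFc.continuousAt.eventually (ball_mem_nhds _ hR))
  have hy₁V' : F y₁ ∈ ball (F y₀) R := hy₁V
  have hβπ : AnalyticOnNhd ℂ (fun τ => β (π τ)) (ball (F y₀) R) := fun τ hτ =>
    (hβ _ (hRb τ hτ)).fun_comp_of_eq (π.analyticAt τ) rfl
  have hαπ : AnalyticOnNhd ℂ (fun τ => α (π τ)) (ball (F y₀) R) := fun τ hτ =>
    (hα _ (hRb τ hτ)).fun_comp_of_eq (π.analyticAt τ) rfl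
  have hβ0 : ∀ τ ∈ ball (F y₀) R, ¬ ∀ᶠ τ' in 𝓝 τ, β (π τ') = 0 := by
    intro τ hτ h0
    exact hβ₁ (hβπ.eqOn_zero_of_preconnected_of_eventuallyEq_zero
      (convex_ball (F y₀) R).isPreconnected hτ h0 hy₁V')
  set S₁ : Set (Cm q) := F '' {y | ¬ Reg (n := n) p F y} with hS₁
  set S₂ : Set (Cm q) := {τ | β (π τ) = 0} with hS₂
  have hS₁c : Cov (q - 1) S₁ := hP.cov_crit hq hp
  have hS₂c : Cov (q - 1) (S₂ ∩ ball (F y₀) R) :=
    (cov_zero (n := q - 1) (by simp; omega) isOpen_ball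
      (fun τ hτ => (hβπ τ hτ).differentiableAt.differentiableWithinAt) hβ0).mono
      fun τ hτ => ⟨hτ.2, hτ.1⟩
  have hSc : Cov (q - 1) ((S₁ ∪ S₂) ∩ ball (F y₀) R) := by
    rw [union_inter_distrib_right]
    exact (hS₁c.mono inter_subset_left).union hS₂c
  have hrk : q - 1 + 1 ≤ Module.finrank ℂ (Cm q) := by simp; omega
  have hpre : IsPreconnected (ball (F y₀) R \ (S₁ ∪ S₂)) :=
    preconn_diff hSc hrk isOpen_ball (convex_ball _ _)
  have hO : IsOpen (ball (F y₀) R \ (S₁ ∪ S₂)) := by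
    have h1 : ball (F y₀) R \ (S₁ ∪ S₂) =
        (ball (F y₀) R ∩ (fun τ => β (π τ)) ⁻¹' {0}ᶜ) ∩ S₁ᶜ := by
      ext τ
      constructor
      · rintro ⟨h2, h3⟩
        exact ⟨⟨h2, fun h4 => h3 (Or.inr h4)⟩, fun h4 => h3 (Or.inl h4)⟩
      · rintro ⟨⟨h2, h3⟩, h4⟩
        exact ⟨h2, fun h5 => h5.elim h4 h3⟩
    rw [h1]
    refine IsOpen.inter ?_ (hP.closed_crit hp).isOpen_compl
    exact (hβπ.continuousOn).isOpen_inter_preimage isOpen_ball isOpen_compl_singleton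
  have hOR : ball (F y₀) R \ (S₁ ∪ S₂) ⊆ RV n p F := by
    intro τ hτ y hy
    by_contra hr
    exact hτ.2 (Or.inl ⟨y, hr, hy⟩)
  set k : Cm q → W := fun τ => (β (π τ))⁻¹ • α (π τ) with hk
  have hka : AnalyticOnNhd ℂ k (ball (F y₀) R \ (S₁ ∪ S₂)) := by
    intro τ hτ
    exact ((hβπ τ hτ.1).inv fun h0 => hτ.2 (Or.inr h0)).fun_smul (hαπ τ hτ.1)
  -- a starting point
  obtain ⟨y₂, hy₂O, hy₂⟩ : ∃ y₂, F y₂ ∈ ball (F y₀) R \ (S₁ ∪ S₂) ∧
      ∀ᶠ y in 𝓝 y₂, h y = k (F y) := by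
    have h1 : ∀ᶠ y in 𝓝 y₁, h y = k (F y) := by
      have h2 : ∀ᶠ y in 𝓝 y₁, β (π (F y)) ≠ 0 :=
        (ContinuousAt.comp (g := fun τ => β (π τ)) (hβπ _ hy₁V').continuousAt
          hFc.continuousAt).eventually_ne hβ₁
      filter_upwards [hy₁, h2] with y h3 h4
      rw [hk]
      simp only
      rw [← h3, smul_smul, inv_mul_cancel₀ h4, one_smul]
    have h2 : F '' {y | (∀ᶠ y' in 𝓝 y, h y' = k (F y')) ∧ F y ∈ ball (F y₀) R} ∈ 𝓝 (F y₁) := by
      rw [← reg_map_nhds hp.cov hB hy₁r]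
      refine image_mem_map ?_
      exact h1.eventually_nhds.and (hFc.continuousAt.eventually (isOpen_ball.mem_nhds hy₁V'))
    set O₁ := interior (F '' {y | (∀ᶠ y' in 𝓝 y, h y' = k (F y')) ∧ F y ∈ ball (F y₀) R}) with hO₁
    have h3 : O₁ ⊆ ball (F y₀) R := by
      intro τ hτ
      obtain ⟨y, ⟨-, hy⟩, rfl⟩ := interior_subset hτ
      exact hy
    obtain ⟨τ, hτ1, hτ2⟩ := nonempty_diff (S := S₁ ∪ S₂) (O := O₁)
      (hSc.mono (inter_subset_inter_right _ h3)) hrk isOpen_interior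
      ⟨F y₁, mem_interior_iff_mem_nhds.2 h2⟩
    obtain ⟨y, ⟨hy, hyb⟩, rfl⟩ := interior_subset hτ1
    exact ⟨y, ⟨hyb, hτ2⟩, hy⟩
  have hswp := sweep hp hP hS.loc hS.equiv hO hpre hka hOR hy₂O hy₂
  -- square integrability
  obtain ⟨s, hs, hsb⟩ := hS.int
  have hL : ∫⁻ τ in ball (F y₀) R ∩ {τ | β (π τ) ≠ 0}, ‖(β (π τ))⁻¹ • α (π τ)‖ₑ ^ 2 ≠ ⊤ := by
    have h1 : ∫⁻ τ in ball (F y₀) R ∩ {τ | β (π τ) ≠ 0}, ‖(β (π τ))⁻¹ • α (π τ)‖ₑ ^ 2 ≤
        ∫⁻ τ in ball (F y₀) R ∩ {τ | β (π τ) ≠ 0}, s τ := by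
      have hms : MeasurableSet (ball (F y₀) R ∩ {τ | β (π τ) ≠ 0}) := by
        have : ball (F y₀) R ∩ {τ | β (π τ) ≠ 0} =
            ball (F y₀) R ∩ (fun τ => β (π τ)) ⁻¹' {0}ᶜ := by
          ext τ; simp
        rw [this]
        exact ((hβπ.continuousOn).isOpen_inter_preimage isOpen_ball
          isOpen_compl_singleton).measurableSet
      apply lintegral_mono_ae
      rw [ae_restrict_iff' hms]
      have h2 : ∀ᵐ τ ∂(volume : Measure (Cm q)), τ ∉ S₁ := by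
        rw [ae_iff]
        simpa using vol_cov hq hS₁c
      filter_upwards [h2] with τ hτ1 hτ2
      obtain ⟨y, hy1, hy2⟩ := hswp τ ⟨hτ2.1, fun h3 => h3.elim hτ1 hτ2.2⟩
      have h3 : F y ∈ RV n p F := by
        rw [hy1]
        exact hOR ⟨hτ2.1, fun h3 => h3.elim hτ1 hτ2.2⟩
      have h4 := hsb y h3
      rw [hy1, hy2, ENNReal.ofReal_pow (norm_nonneg _), ofReal_norm] at h4
      exact h4
    obtain ⟨R', hR'⟩ : ∃ R' : ℝ, ball (F y₀) R ⊆ ball 0 R' :=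
      (isBounded_ball (x := F y₀) (r := R)).subset_ball 0
    exact ne_top_of_le_ne_top (hs R').ne (h1.trans (lintegral_mono_set
      (inter_subset_left.trans hR')))
  have hx₀ : F y₀ ∈ ball (F y₀) R := mem_ball_self hR
  obtain ⟨ψ, hψ, hψe⟩ := l2_quot (hβπ _ hx₀) (hαπ _ hx₀) (hβ0 _ hx₀) hR hL
  -- descend to `ℂ^r`
  obtain ⟨σ, hσ⟩ := (π : Cm q →ₗ[ℂ] Cm r).exists_rightInverse_of_surjective
    (LinearMap.range_eq_top.2 hπ)
  have hσ' : ∀ a, π (LinearMap.toContinuousLinearMap σ a) = a := fun a =>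
    congrArg (fun L : Cm r →ₗ[ℂ] Cm r => L a) hσ
  set j : Cm r → Cm q := fun a => F y₀ + LinearMap.toContinuousLinearMap σ (a - π (F y₀)) with hj
  have hj0 : j (π (F y₀)) = F y₀ := by
    rw [hj]; simp
  have hja : AnalyticAt ℂ j (π (F y₀)) :=
    analyticAt_const.add (((LinearMap.toContinuousLinearMap σ).analyticAt _).comp
      (analyticAt_id.sub analyticAt_const))
  have hπj : ∀ a, π (j a) = a := by
    intro a
    rw [hj]
    simp only
    rw [map_add, hσ']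
    simp
  have hf₁a : AnalyticAt ℂ (fun a => ψ (j a)) (π (F y₀)) := hψ.fun_comp_of_eq hja hj0
  refine ⟨fun a => ψ (j a), hf₁a, ?_⟩
  have hjc : Tendsto j (𝓝 (π (F y₀))) (𝓝 (F y₀)) := by
    have := hja.continuousAt.tendsto
    rwa [hj0] at this
  have h1 : ∀ᶠ a in 𝓝 (π (F y₀)), β a • ψ (j a) = α a := by
    filter_upwards [hjc.eventually hψe] with a ha
    rwa [hπj] at ha
  have hπF : Continuous fun y => π (F y) := π.continuous.comp hFc
  have hβr : ∀ a ∈ ball (π (F y₀)) ρ, ∀ y, π (F y) = a → Reg (n := n) p F y →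
      ∃ᶠ y' in 𝓝 y, β (π (F y')) ≠ 0 := by
    intro a ha y hy hyr
    have hyt := reg_comp hp.cov π hπ hB hyr
    have h2 := reg_map_nhds hp.cov (holB_comp π hB) hyt
    rw [Filter.Frequently]
    intro h3
    have h4 : ∀ᶠ y' in 𝓝 y, β (π (F y')) = 0 := h3.mono fun y' h => not_not.1 h
    have h5 : ∀ᶠ a' in 𝓝 (π (F y)), β a' = 0 := by
      rw [← h2]
      exact h4
    rw [hy] at h5
    refine hβ₁ (hβ.eqOn_zero_of_preconnected_of_eventuallyEq_zero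
      (convex_ball (π (F y₀)) ρ).isPreconnected ha h5 (hRb _ hy₁V'))
  filter_upwards [hfin.eventually_nhds, (hπF.continuousAt.eventually h1).eventually_nhds,
    hπF.continuousAt.eventually (ball_mem_nhds (π (F y₀)) hρ),
    hπF.continuousAt.eventually hf₁a.eventually_analyticAt] with y h2 h3 h4 h5 hyr
  obtain ⟨f', hf'a, hf'⟩ := hS.loc y hyr
  have hc1 : ContinuousAt h y := by
    have h6 : ContinuousAt (fun y' => f' (F y')) y :=
      ContinuousAt.comp (g := f') hf'a.continuousAt hFc.continuousAt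
    exact h6.congr (hf'.mono fun y' h => h.symm)
  have hc2 : ContinuousAt (fun y => ψ (j (π (F y)))) y :=
    ContinuousAt.comp (g := fun a => ψ (j a)) (f := fun y => π (F y)) h5.continuousAt
      hπF.continuousAt
  refine eq_of_frequently hc1 hc2 ?_
  have h6 : ∀ᶠ y' in 𝓝 y, Reg (n := n) p F y' := (reg_open hp.cov hB).mem_nhds hyr
  refine ((hβr _ h4 y rfl hyr).and_eventually (h2.and (h3.and h6))).mono fun y' h7 => ?_
  obtain ⟨h8, h9, h10, h11⟩ := h7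
  have h12 := h9 h11
  rw [← h10] at h12
  exact smul_right_injective W h8 h12

end

end Vale.Agent.P284.H494
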