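import Vale.Agent.P284.H494.NoPole

/-!
# P284 (helper494): the directions along which `h` is constant
-/

open scoped Manifold ContDiff Topology ENNReal
open Filter Set Metric MeasureTheory

noncomputable section

namespace Vale.Agent.P284.H494

open Vale.Agent.P272.K Vale.Agent.P284.H894.W Vale.Agent.P284.H894.G Vale.Agent.P284.H10

theorem const_seg {P W : Type*} [NormedAddCommGroup P] [NormedSpace ℂ P]
    [NormedAddCommGroup W] [NormedSpace ℂ W] {f : P → W} {a v : P}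
    (hd : ∀ s ∈ Icc (0 : ℝ) 1, DifferentiableAt ℂ f (a + (s : ℂ) • v))
    (h0 : ∀ s ∈ Icc (0 : ℝ) 1, fderiv ℂ f (a + (s : ℂ) • v) v = 0) : f (a + v) = f a := by
  have hder : ∀ s ∈ Icc (0 : ℝ) 1, HasDerivAt (fun s : ℝ => f (a + (s : ℂ) • v)) (0 : W) s := by
    intro s hs
    have h1 : HasDerivAt (fun z : ℂ => a + z • v) v (s : ℂ) := by
      simpa using ((hasDerivAt_id (s : ℂ)).smul_const v).const_add a
    have h2 := (hd s hs).hasFDerivAt.comp_hasDerivAt (s : ℂ) h1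
    rw [h0 s hs] at h2
    have h3 : HasDerivAt (fun s : ℝ => (s : ℂ)) 1 s := Complex.ofRealCLM.hasDerivAt
    have h4 := HasDerivAt.scomp (𝕜 := ℝ) (𝕜' := ℂ) s h2 h3
    rw [smul_zero] at h4
    exact h4
  have h1 := constant_of_has_deriv_right_zero (f := fun s : ℝ => f (a + (s : ℂ) • v))
    (a := (0 : ℝ)) (b := 1) (fun s hs => (hder s hs).continuousAt.continuousWithinAt)
    (fun s hs => (hder s ⟨hs.1, hs.2.le⟩).hasDerivWithinAt) 1 ⟨zero_le_one, le_rfl⟩
  simpa using h1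

section
variable {n : ℕ} {X : Type} [TopologicalSpace X] [ChartedSpace (Cm n) X] {E : Type}
  [TopologicalSpace E] {p : E → X}
  {w : Chart n X → Cm n → Matrix (Fin n) (Fin n) ℂ} {q r : ℕ} {F : E → Cm q} {B : ℝ}
  [IsManifold 𝓘(ℂ, Cm n) ω X]
  {W : Type} [NormedAddCommGroup W] [InnerProductSpace ℂ W] [CompleteSpace W] {h : E → W}

omit [NormedAddCommGroup W] [InnerProductSpace ℂ W] [CompleteSpace W] in
theorem germ_unique (hp : IsCoveringMap p) (hF : HolB p w F B) {y : E}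
    (hy : Reg (n := n) p F y) {f f' : Cm q → W} (hf : ∀ᶠ y' in 𝓝 y, h y' = f (F y'))
    (hf' : ∀ᶠ y' in 𝓝 y, h y' = f' (F y')) : f =ᶠ[𝓝 (F y)] f' := by
  rw [← reg_map_nhds hp hF hy]
  show ∀ᶠ y' in 𝓝 y, f (F y') = f' (F y')
  filter_upwards [hf, hf'] with y' h1 h2
  rw [← h1, h2]

/-- the directions along which `h` is constant near `y` -/
def NN (F : E → Cm q) (h : E → W) (y : E) : Set (Cm q) :=
  {v | ∃ f : Cm q → W, AnalyticAt ℂ f (F y) ∧ (∀ᶠ y' in 𝓝 y, h y' = f (F y')) ∧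
    ∀ᶠ a in 𝓝 (F y), fderiv ℂ f a v = 0}

omit [CompleteSpace W] in
theorem NN_iff (hp : IsCoveringMap p) (hF : HolB p w F B) {y : E}
    (hy : Reg (n := n) p F y) {f : Cm q → W} (hfa : AnalyticAt ℂ f (F y))
    (hf : ∀ᶠ y' in 𝓝 y, h y' = f (F y')) (v : Cm q) :
    v ∈ NN F h y ↔ ∀ᶠ a in 𝓝 (F y), fderiv ℂ f a v = 0 := by
  constructor
  · rintro ⟨f', hf'a, hf', hv⟩
    filter_upwards [(germ_unique hp hF hy hf hf').eventuallyEq_nhds, hv] with a h1 h2
    rw [h1.fderiv_eq, h2]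
  · exact fun hv => ⟨f, hfa, hf, hv⟩

theorem fderiv_apply_analytic {P : Type*} [NormedAddCommGroup P] [NormedSpace ℂ P]
    {f : P → W} {a v : P} (hf : AnalyticAt ℂ f a) : AnalyticAt ℂ (fun a => fderiv ℂ f a v) a :=
  ((ContinuousLinearMap.apply ℂ W v).analyticAt _).comp hf.fderiv

theorem NN_const [ConnectedSpace E] (hq : 1 ≤ q) (hp : IsCoveringMap p) (hF : HolB p w F B)
    (hloc : ∀ y, Reg (n := n) p F y → ∃ f : Cm q → W, AnalyticAt ℂ f (F y) ∧
      ∀ᶠ y' in 𝓝 y, h y' = f (F y'))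
    {y y' : E} (hy : Reg (n := n) p F y) (hy' : Reg (n := n) p F y') {v : Cm q}
    (hv : v ∈ NN F h y) : v ∈ NN F h y' := by
  have hpre := reg_preconnected hq hp hF ⟨y, hy⟩
  have hFc := hol_continuous hp hF
  by_contra hv'
  have key : ∀ z, Reg (n := n) p F z → ∀ᶠ z' in 𝓝 z,
      Reg (n := n) p F z' ∧ (v ∈ NN F h z' ↔ v ∈ NN F h z) := by
    intro z hz
    obtain ⟨f, hfa, hf⟩ := hloc z hz
    obtain ⟨ρ, hρ, hρb⟩ := Metric.eventually_nhds_iff_ball.1 hfa.eventually_analyticAt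
    filter_upwards [(reg_open hp hF).mem_nhds hz, hf.eventually_nhds,
      hFc.continuousAt.eventually (ball_mem_nhds _ hρ)] with z' h1 h2 h3
    refine ⟨h1, ?_⟩
    rw [NN_iff hp hF h1 (hρb _ h3) h2, NN_iff hp hF hz hfa hf]
    have han : AnalyticOnNhd ℂ (fun a => fderiv ℂ f a v) (ball (F z) ρ) := fun a ha =>
      fderiv_apply_analytic (hρb a ha)
    have hc := (convex_ball (F z) ρ).isPreconnected
    constructor
    · intro h4
      have h5 := han.eqOn_zero_of_preconnected_of_eventuallyEq_zero hc h3 h4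
      filter_upwards [ball_mem_nhds (F z) hρ] with a ha using h5 ha
    · intro h4
      have h5 := han.eqOn_zero_of_preconnected_of_eventuallyEq_zero hc (mem_ball_self hρ) h4
      filter_upwards [isOpen_ball.mem_nhds h3] with a ha using h5 ha
  have hU : IsOpen {z | Reg (n := n) p F z ∧ v ∈ NN F h z} := by
    rw [isOpen_iff_mem_nhds]
    rintro z ⟨hz, hzv⟩
    filter_upwards [key z hz] with z' h1 using ⟨h1.1, h1.2.2 hzv⟩
  have hV : IsOpen {z | Reg (n := n) p F z ∧ v ∉ NN F h z} := by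
    rw [isOpen_iff_mem_nhds]
    rintro z ⟨hz, hzv⟩
    filter_upwards [key z hz] with z' h1 using ⟨h1.1, fun h2 => hzv (h1.2.1 h2)⟩
  obtain ⟨z, -, hz1, hz2⟩ := hpre _ _ hU hV (by
    intro z hz
    by_cases h1 : v ∈ NN F h z
    · exact Or.inl ⟨hz, h1⟩
    · exact Or.inr ⟨hz, h1⟩) ⟨y, hy, hy, hv⟩ ⟨y', hy', hy', hv'⟩
  exact hz2.2 hz1.2

/-- the quotient by the directions along which `h` is constant -/
theorem exists_pi [ConnectedSpace E] (hq : 1 ≤ q) (hp : IsCoveringMap p) (hF : HolB p w F B)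
    (hloc : ∀ y, Reg (n := n) p F y → ∃ f : Cm q → W, AnalyticAt ℂ f (F y) ∧
      ∀ᶠ y' in 𝓝 y, h y' = f (F y'))
    (hne : ∃ y y', Reg (n := n) p F y ∧ Reg (n := n) p F y' ∧ h y ≠ h y') :
    ∃ (r : ℕ) (π : Cm q →L[ℂ] Cm r), 1 ≤ r ∧ Function.Surjective π ∧
      ∀ y, Reg (n := n) p F y → ∃ f : Cm r → W, AnalyticAt ℂ f (π (F y)) ∧
        (∀ᶠ y' in 𝓝 y, h y' = f (π (F y'))) ∧
        ∀ v : Cm r, (∀ᶠ a in 𝓝 (π (F y)), fderiv ℂ f a v = 0) → v = 0 := by
  obtain ⟨y₁, y₂, hy₁, hy₂, hy12⟩ := hne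
  have hFc := hol_continuous hp hF
  obtain ⟨f₁, hf₁a, hf₁⟩ := hloc y₁ hy₁
  let n₀ : Submodule ℂ (Cm q) :=
    { carrier := {v | ∀ᶠ a in 𝓝 (F y₁), fderiv ℂ f₁ a v = 0}
      zero_mem' := by simp
      add_mem' := by
        intro v v' hv hv'
        filter_upwards [hv, hv'] with a h1 h2
        rw [map_add, h1, h2, add_zero]
      smul_mem' := by
        intro c v hv
        filter_upwards [hv] with a h1
        rw [map_smul, h1, smul_zero] }
  have hn₀ : ∀ v, v ∈ n₀ ↔ v ∈ NN F h y₁ := fun v => (NN_iff hp hF hy₁ hf₁a hf₁ v).symm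
  have hn₀' : ∀ v y, Reg (n := n) p F y → (v ∈ n₀ ↔ v ∈ NN F h y) := fun v y hy => by
    rw [hn₀]
    exact ⟨NN_const hq hp hF hloc hy₁ hy, NN_const hq hp hF hloc hy hy₁⟩
  set r := Module.finrank ℂ (Cm q ⧸ n₀) with hr
  let e : (Cm q ⧸ n₀) ≃ₗ[ℂ] Cm r := LinearEquiv.ofFinrankEq _ _ (by simp [hr])
  let π : Cm q →L[ℂ] Cm r := LinearMap.toContinuousLinearMap (e.toLinearMap ∘ₗ n₀.mkQ)
  have hπv : ∀ v, π v = e (n₀.mkQ v) := fun v => rfl
  have hπs : Function.Surjective π := by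
    intro a
    obtain ⟨b, hb⟩ := n₀.mkQ_surjective (e.symm a)
    exact ⟨b, by rw [hπv, hb, LinearEquiv.apply_symm_apply]⟩
  have hπk : ∀ v, π v = 0 ↔ v ∈ n₀ := by
    intro v
    rw [hπv, LinearEquiv.map_eq_zero_iff, Submodule.mkQ_apply, Submodule.Quotient.mk_eq_zero]
  -- derivatives along `n₀`
  have hder : ∀ (y : E) (f : Cm q → W) (ρ : ℝ), 0 < ρ → Reg (n := n) p F y →
      (∀ a ∈ ball (F y) ρ, AnalyticAt ℂ f a) → (∀ᶠ y' in 𝓝 y, h y' = f (F y')) →
      ∀ v ∈ n₀, ∀ a ∈ ball (F y) ρ, fderiv ℂ f a v = 0 := by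
    intro y f ρ hρ hy hfa hf v hv
    have h1 := (NN_iff hp hF hy (hfa _ (mem_ball_self hρ)) hf v).1 ((hn₀' v y hy).1 hv)
    have han : AnalyticOnNhd ℂ (fun a => fderiv ℂ f a v) (ball (F y) ρ) := fun a ha =>
      fderiv_apply_analytic (hfa a ha)
    exact fun a ha => han.eqOn_zero_of_preconnected_of_eventuallyEq_zero
      (convex_ball (F y) ρ).isPreconnected (mem_ball_self hρ) h1 ha
  refine ⟨r, π, ?_, hπs, ?_⟩
  · -- `r ≥ 1`
    by_contra hr0
    have hr0' : r = 0 := by omega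
    have htop : ∀ v, v ∈ n₀ := by
      intro v
      rw [← hπk]
      funext i
      exact absurd i.2 (by omega)
    have hlc : ∀ y, Reg (n := n) p F y → ∀ᶠ y' in 𝓝 y, Reg (n := n) p F y' ∧ h y' = h y := by
      intro y hy
      obtain ⟨f, hfa, hf⟩ := hloc y hy
      obtain ⟨ρ, hρ, hρb⟩ := Metric.eventually_nhds_iff_ball.1 hfa.eventually_analyticAt
      have hd := hder y f ρ hρ hy hρb hf
      have h1 : ∀ᶠ y' in 𝓝 y, F y' ∈ ball (F y) ρ :=
        hFc.continuousAt.eventually (ball_mem_nhds _ hρ)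
      filter_upwards [(reg_open hp hF).mem_nhds hy, hf, h1] with y' h2 h3 h4
      refine ⟨h2, ?_⟩
      rw [h3, hf.self_of_nhds]
      have hseg : ∀ s ∈ Icc (0 : ℝ) 1, F y + (s : ℂ) • (F y' - F y) ∈ ball (F y) ρ := by
        intro s hs
        rw [mem_ball, dist_eq_norm, add_sub_cancel_left, norm_smul, Complex.norm_real,
          Real.norm_eq_abs, abs_of_nonneg hs.1]
        rw [mem_ball, dist_eq_norm] at h4
        have : s * ‖F y' - F y‖ ≤ 1 * ‖F y' - F y‖ := by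
          gcongr
          exact hs.2
        linarith
      have h5 := const_seg (f := f) (a := F y) (v := F y' - F y)
        (fun s hs => (hρb _ (hseg s hs)).differentiableAt)
        (fun s hs => hd _ (htop _) _ (hseg s hs))
      rwa [add_sub_cancel] at h5
    have hpre := reg_preconnected hq hp hF ⟨y₁, hy₁⟩
    have hU : IsOpen {z | Reg (n := n) p F z ∧ h z = h y₁} := by
      rw [isOpen_iff_mem_nhds]
      rintro z ⟨hz, hzv⟩
      filter_upwards [hlc z hz] with z' h1 using ⟨h1.1, h1.2.trans hzv⟩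
    have hV : IsOpen {z | Reg (n := n) p F z ∧ h z ≠ h y₁} := by
      rw [isOpen_iff_mem_nhds]
      rintro z ⟨hz, hzv⟩
      filter_upwards [hlc z hz] with z' h1 using ⟨h1.1, by rw [h1.2]; exact hzv⟩
    obtain ⟨z, -, hz1, hz2⟩ := hpre _ _ hU hV (by
      intro z hz
      by_cases h1 : h z = h y₁
      · exact Or.inl ⟨hz, h1⟩
      · exact Or.inr ⟨hz, h1⟩) ⟨y₁, hy₁, hy₁, rfl⟩ ⟨y₂, hy₂, hy₂, fun h1 => hy12 h1.symm⟩
    exact hz2.2 hz1.2
  · -- local form
    intro y hy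
    obtain ⟨f, hfa, hf⟩ := hloc y hy
    obtain ⟨ρ, hρ, hρb⟩ := Metric.eventually_nhds_iff_ball.1 hfa.eventually_analyticAt
    have hd := hder y f ρ hρ hy hρb hf
    obtain ⟨σ, hσ⟩ := (π : Cm q →ₗ[ℂ] Cm r).exists_rightInverse_of_surjective
      (LinearMap.range_eq_top.2 hπs)
    have hσ' : ∀ a, π (LinearMap.toContinuousLinearMap σ a) = a := fun a =>
      congrArg (fun L : Cm r →ₗ[ℂ] Cm r => L a) hσ
    set j : Cm r → Cm q := fun a => F y + LinearMap.toContinuousLinearMap σ (a - π (F y)) with hj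
    have hj0 : j (π (F y)) = F y := by
      rw [hj]; simp
    have hja : AnalyticAt ℂ j (π (F y)) :=
      analyticAt_const.add (((LinearMap.toContinuousLinearMap σ).analyticAt _).comp
        (analyticAt_id.sub analyticAt_const))
    have hπj : ∀ a, π (j a) = a := by
      intro a
      rw [hj]
      simp only
      rw [map_add, hσ']
      simp
    have hjπc : Tendsto (fun τ => j (π τ)) (𝓝 (F y)) (𝓝 (F y)) := by
      have h1 : ContinuousAt (fun τ => j (π τ)) (F y) :=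
        ContinuousAt.comp (g := j) hja.continuousAt π.continuous.continuousAt
      have h2 := h1.tendsto
      rwa [hj0] at h2
    have hfj : ∀ᶠ τ in 𝓝 (F y), f τ = f (j (π τ)) := by
      filter_upwards [ball_mem_nhds (F y) hρ, hjπc.eventually (ball_mem_nhds (F y) hρ)] with τ h1 h2
      have hv : τ - j (π τ) ∈ n₀ := by
        rw [← hπk, map_sub, hπj, sub_self]
      have hseg : ∀ s ∈ Icc (0 : ℝ) 1, j (π τ) + (s : ℂ) • (τ - j (π τ)) ∈ ball (F y) ρ := by
        intro s hs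
        have h3 := (convex_ball (F y) ρ) h2 h1 (sub_nonneg.2 hs.2) hs.1 (by ring)
        have h4 : (1 - s) • j (π τ) + s • τ = j (π τ) + (s : ℂ) • (τ - j (π τ)) := by
          rw [Complex.coe_smul, smul_sub, sub_smul, one_smul]
          abel
        rw [h4] at h3
        exact h3
      have h5 := const_seg (f := f) (a := j (π τ)) (v := τ - j (π τ))
        (fun s hs => (hρb _ (hseg s hs)).differentiableAt)
        (fun s hs => hd _ hv _ (hseg s hs))
      rwa [add_sub_cancel] at h5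
    refine ⟨fun a => f (j a), hfa.fun_comp_of_eq hja hj0, ?_, ?_⟩
    · filter_upwards [hf, hFc.continuousAt.eventually hfj] with y' h1 h2
      rw [h1, h2]
    · intro v hv
      have h1 : LinearMap.toContinuousLinearMap σ v ∈ n₀ := by
        rw [hn₀' _ y hy, NN_iff hp hF hy hfa hf]
        have hfja : ∀ᶠ τ in 𝓝 (F y), DifferentiableAt ℂ (fun a => f (j a)) (π τ) := by
          have h2 : AnalyticAt ℂ (fun a => f (j a)) (π (F y)) := hfa.fun_comp_of_eq hja hj0
          exact (π.continuous.continuousAt.eventually h2.eventually_analyticAt).mono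
            fun τ h3 => h3.differentiableAt
        filter_upwards [hfj.eventually_nhds, π.continuous.continuousAt.eventually hv, hfja]
          with τ h2 h3 h4
        have h5 : f =ᶠ[𝓝 τ] (fun a => f (j a)) ∘ π := h2
        rw [h5.fderiv_eq, fderiv_comp τ h4 π.differentiableAt, ContinuousLinearMap.comp_apply,
          ContinuousLinearMap.fderiv, hσ', h3]
      rw [← hπk, hσ'] at h1
      exact h1

end

end Vale.Agent.P284.H494
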