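import Vale.Agent.P284.H494.Line

/-!
# P284 (helper494): poles of bounded order, and `L²` quotients
-/

open Set Filter Metric Topology MeasureTheory
open scoped ENNReal

namespace Vale.Agent.P284.H494

/-- A holomorphic function of one variable with nonzero `M`-th derivative is bounded below by
`c |τ - t| ^ M`. -/
theorem lower_bound {k : ℂ → ℂ} {t : ℂ} {M : ℕ} (hk : AnalyticAt ℂ k t)
    (hM : iteratedDeriv M k t ≠ 0) : ∃ c > 0, ∀ᶠ τ in 𝓝 t, c * ‖τ - t‖ ^ M ≤ ‖k τ‖ := by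
  have h1 : ¬ ((M + 1 : ℕ) : ℕ∞) ≤ analyticOrderAt k t := by
    intro h
    exact hM ((natCast_le_analyticOrderAt_iff_iteratedDeriv_eq_zero hk).1 h M (Nat.lt_succ_self M))
  obtain ⟨m, hm⟩ : ∃ m : ℕ, analyticOrderAt k t = m := by
    have : analyticOrderAt k t ≠ ⊤ := by
      intro h
      rw [h] at h1
      exact h1 le_top
    exact ⟨_, (ENat.natCast_toNat this).symm⟩
  have hmM : m ≤ M := by
    rw [hm] at h1
    have : ¬ (M + 1 ≤ m) := fun h => h1 (by exact_mod_cast h)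
    omega
  obtain ⟨g, hg, hg0, hkg⟩ := hk.analyticOrderAt_eq_natCast.1 hm
  have h2 : 0 < ‖g t‖ := norm_pos_iff.2 hg0
  refine ⟨‖g t‖ / 2, by positivity, ?_⟩
  have h3 : ∀ᶠ τ in 𝓝 t, ‖g t‖ / 2 < ‖g τ‖ :=
    hg.continuousAt.norm.eventually (lt_mem_nhds (by linarith))
  have h4 : ∀ᶠ τ in 𝓝 t, ‖τ - t‖ ≤ 1 := by
    filter_upwards [ball_mem_nhds t one_pos] with τ hτ
    rw [mem_ball, dist_eq_norm] at hτ
    exact hτ.le
  filter_upwards [hkg, h3, h4] with τ h5 h6 h7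
  rw [h5, norm_smul, norm_pow]
  have h8 : ‖τ - t‖ ^ M ≤ ‖τ - t‖ ^ m := pow_le_pow_of_le_one (norm_nonneg _) h7 hmM
  have h9 : 0 ≤ ‖τ - t‖ ^ m := by positivity
  have h10 : 0 ≤ ‖τ - t‖ ^ M := by positivity
  nlinarith

section
variable {P : Type*} [NormedAddCommGroup P] [NormedSpace ℂ P]

/-- A nonzero germ has a nonzero iterated derivative along some line. -/
theorem exists_deriv_ne {ω : P → ℂ} {x₀ : P} (hω : AnalyticAt ℂ ω x₀)
    (h0 : ¬ ∀ᶠ x in 𝓝 x₀, ω x = 0) :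
    ∃ (M : ℕ) (u : P), iteratedFDeriv ℂ M ω x₀ (fun _ => u) ≠ 0 := by
  by_contra hcon
  push Not at hcon
  apply h0
  obtain ⟨q, ρ, hq⟩ := hω
  filter_upwards [Metric.eball_mem_nhds x₀ hq.r_pos] with y hy
  have h1 := hq.hasSum_sub hy
  have h2 : ∀ j, (q j fun _ => y - x₀) = 0 := by
    intro j
    have h3 := hq.factorial_smul (y - x₀) j
    rw [hcon j (y - x₀)] at h3
    simpa [Nat.factorial_ne_zero] using h3
  simp only [h2] at h1
  exact h1.unique hasSum_zero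

variable [FiniteDimensional ℂ P]

theorem line_deriv {ω : P → ℂ} {x₀ : P} {r : ℝ} (hω : DifferentiableOn ℂ ω (ball x₀ r)) (M : ℕ)
    {z u : P} {t : ℂ} (ht : z + t • u ∈ ball x₀ r) :
    iteratedDeriv M (fun τ : ℂ => ω (z + τ • u)) t =
      iteratedFDeriv ℂ M ω (z + t • u) (fun _ => u) :=
  Vale.Agent.P268.iteratedDeriv_line isOpen_ball
    (Vale.Agent.P268.contDiffOn_of_differentiableOn isOpen_ball hω M) ht

theorem line_analytic {W : Type*} [NormedAddCommGroup W] [NormedSpace ℂ W] [CompleteSpace W]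
    {ω : P → W} {x₀ : P} {r : ℝ} (hω : DifferentiableOn ℂ ω (ball x₀ r))
    {z u : P} {t : ℂ} (ht : z + t • u ∈ ball x₀ r) :
    AnalyticAt ℂ (fun τ : ℂ => ω (z + τ • u)) t := by
  have h1 := Vale.Agent.P268.analyticAt_of_differentiableOn isOpen_ball hω ht
  have h2 : AnalyticAt ℂ (fun τ : ℂ => z + τ • u) t := by fun_prop
  exact h1.fun_comp_of_eq h2 rfl

/-- **Poles.** `φ / ω` is holomorphic wherever one of the functions `g i` is nonzero; `M` is at least the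
order of vanishing of `ω` along a line through `x₀`. Then `(∏ g i) φ / ω` is holomorphic near `x₀` as soon
as there are at least `M` functions `g i`. -/
theorem pole_ext {W : Type*} [NormedAddCommGroup W] [InnerProductSpace ℂ W] [CompleteSpace W]
    {ω : P → ℂ} {φ : P → W} {x₀ : P} (hω : AnalyticAt ℂ ω x₀) (hφ : AnalyticAt ℂ φ x₀) {u : P}
    {M : ℕ} (hM : iteratedFDeriv ℂ M ω x₀ (fun _ => u) ≠ 0) {ι : Type*} [Fintype ι]
    {g : ι → P → ℂ} (hg : ∀ i, AnalyticAt ℂ (g i) x₀) (hι : M ≤ Fintype.card ι)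
    (hgood : ∀ᶠ x in 𝓝 x₀, (∃ i, g i x ≠ 0) →
      ∃ f : P → W, ContinuousAt f x ∧ ∀ᶠ x' in 𝓝 x, φ x' = ω x' • f x') :
    ∃ ψ : P → W, AnalyticAt ℂ ψ x₀ ∧ ∀ᶠ x in 𝓝 x₀, ω x • ψ x = (∏ i, g i x) • φ x := by
  have h1 : ∀ᶠ x in 𝓝 x₀, iteratedFDeriv ℂ M ω x (fun _ => u) ≠ 0 := by
    have h2 : AnalyticAt ℂ (iteratedFDeriv ℂ M ω) x₀ :=
      AnalyticOnNhd.iteratedFDeriv (s := {x₀}) (fun x hx => by rw [mem_singleton_iff.1 hx]; exact hω) M
        x₀ rfl
    have h3 : ContinuousAt (fun x => iteratedFDeriv ℂ M ω x (fun _ => u)) x₀ :=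
      (ContinuousMultilinearMap.apply ℂ (fun _ : Fin M => P) ℂ (fun _ => u)).continuous.continuousAt.comp
        h2.continuousAt
    exact h3.eventually_ne hM
  have hall : ∀ᶠ x in 𝓝 x₀, DifferentiableAt ℂ ω x ∧ DifferentiableAt ℂ φ x ∧
      (∀ i, AnalyticAt ℂ (g i) x) ∧ iteratedFDeriv ℂ M ω x (fun _ => u) ≠ 0 ∧
      ((∃ i, g i x ≠ 0) → ∃ f : P → W, ContinuousAt f x ∧ ∀ᶠ x' in 𝓝 x, φ x' = ω x' • f x') := by
    filter_upwards [hω.eventually_analyticAt, hφ.eventually_analyticAt,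
      eventually_all.2 fun i => (hg i).eventually_analyticAt, h1, hgood] with x a b c d e
      using ⟨a.differentiableAt, b.differentiableAt, c, d, e⟩
  obtain ⟨r, hr, hball⟩ := Metric.eventually_nhds_iff_ball.1 hall
  have hωd : DifferentiableOn ℂ ω (ball x₀ r) := fun x hx => (hball x hx).1.differentiableWithinAt
  have hφd : DifferentiableOn ℂ φ (ball x₀ r) := fun x hx => (hball x hx).2.1.differentiableWithinAt
  have hgd : ∀ i, DifferentiableOn ℂ (g i) (ball x₀ r) := fun i x hx =>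
    ((hball x hx).2.2.1 i).differentiableAt.differentiableWithinAt
  have hpd : DifferentiableOn ℂ (fun x => ∏ i, g i x) (ball x₀ r) := by
    exact fun x hx => (Finset.analyticAt_fun_prod _ fun i _ =>
      (hball x hx).2.2.1 i).differentiableAt.differentiableWithinAt
  have hx₀ : x₀ ∈ ball x₀ r := mem_ball_self hr
  have hx₀' : x₀ + (0 : ℂ) • u ∈ ball x₀ r := by simpa using hx₀
  -- lower bound along lines
  have hlow : ∀ (z : P) (t : ℂ), z + t • u ∈ ball x₀ r →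
      ∃ c > 0, ∀ᶠ τ in 𝓝 t, c * ‖τ - t‖ ^ M ≤ ‖ω (z + τ • u)‖ := by
    intro z t ht
    refine lower_bound (line_analytic hωd ht) ?_
    rw [line_deriv hωd M ht]
    exact (hball _ ht).2.2.2.1
  have hu : ∀ᶠ τ in 𝓝[≠] (0 : ℂ), ω (x₀ + τ • u) ≠ 0 := by
    obtain ⟨c, hc, h2⟩ := hlow x₀ 0 hx₀'
    filter_upwards [eventually_nhdsWithin_of_eventually_nhds h2, self_mem_nhdsWithin] with τ h3 h4
    have h5 : 0 < ‖τ - 0‖ := norm_pos_iff.2 (sub_ne_zero.2 h4)
    have h6 : 0 < c * ‖τ - 0‖ ^ M := by positivity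
    exact norm_pos_iff.1 (h6.trans_le h3)
  have hbd : ∀ (z : P) (t : ℂ), z + t • u ∈ ball x₀ r → ∃ C : ℝ, ∀ᶠ τ in 𝓝[≠] t,
      ‖(∏ i, g i (z + τ • u)) • φ (z + τ • u)‖ ≤ C * ‖ω (z + τ • u)‖ := by
    intro z t ht
    have hcont : ContinuousAt (fun τ : ℂ => z + τ • u) t := by fun_prop
    by_cases hex : ∃ i, g i (z + t • u) ≠ 0
    · obtain ⟨f, hf, hf2⟩ := (hball _ ht).2.2.2.2 hex
      have h2 : ∀ᶠ x' in 𝓝 (z + t • u), ‖f x'‖ < ‖f (z + t • u)‖ + 1 :=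
        hf.norm.eventually (gt_mem_nhds (by linarith))
      have h3 : ∀ᶠ x' in 𝓝 (z + t • u), ‖∏ i, g i x'‖ < ‖∏ i, g i (z + t • u)‖ + 1 :=
        (hpd.differentiableAt (isOpen_ball.mem_nhds ht)).continuousAt.norm.eventually
          (gt_mem_nhds (by linarith))
      refine ⟨(‖∏ i, g i (z + t • u)‖ + 1) * (‖f (z + t • u)‖ + 1), ?_⟩
      apply eventually_nhdsWithin_of_eventually_nhds
      filter_upwards [hcont.eventually hf2, hcont.eventually h2, hcont.eventually h3] with τ h4 h5 h6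
      rw [norm_smul, h4, norm_smul]
      have h7 : 0 ≤ ‖ω (z + τ • u)‖ := norm_nonneg _
      have h8 : 0 ≤ ‖f (z + τ • u)‖ := norm_nonneg _
      have h9 : 0 ≤ ‖∏ i, g i (z + τ • u)‖ := norm_nonneg _
      calc ‖∏ i, g i (z + τ • u)‖ * (‖ω (z + τ • u)‖ * ‖f (z + τ • u)‖)
          = (‖∏ i, g i (z + τ • u)‖ * ‖f (z + τ • u)‖) * ‖ω (z + τ • u)‖ := by ring
        _ ≤ ((‖∏ i, g i (z + t • u)‖ + 1) * (‖f (z + t • u)‖ + 1)) * ‖ω (z + τ • u)‖ := by
            gcongr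
    · push Not at hex
      obtain ⟨c, hc, h2⟩ := hlow z t ht
      have h3 : ∀ i, ∃ C : ℝ, 0 ≤ C ∧ ∀ᶠ τ in 𝓝 t, ‖g i (z + τ • u)‖ ≤ C * ‖τ - t‖ := by
        intro i
        have h4 : DifferentiableAt ℂ (fun τ : ℂ => g i (z + τ • u)) t :=
          (line_analytic (hgd i) ht).differentiableAt
        have h5 := h4.isBigO_sub
        obtain ⟨C, hC0, hC⟩ := h5.exists_nonneg
        refine ⟨C, hC0, ?_⟩
        filter_upwards [hC.bound] with τ hτ
        simpa [hex i] using hτ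
      choose C hC0 hC using h3
      have h4 : ∀ᶠ τ in 𝓝 t, ‖φ (z + τ • u)‖ < ‖φ (z + t • u)‖ + 1 :=
        (line_analytic hφd ht).continuousAt.norm.eventually (gt_mem_nhds (by linarith))
      have h5 : ∀ᶠ τ in 𝓝 t, ‖τ - t‖ ≤ 1 := by
        filter_upwards [ball_mem_nhds t one_pos] with τ hτ
        rw [mem_ball, dist_eq_norm] at hτ
        exact hτ.le
      refine ⟨c⁻¹ * ((∏ i, C i) * (‖φ (z + t • u)‖ + 1)), ?_⟩
      apply eventually_nhdsWithin_of_eventually_nhds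
      filter_upwards [h2, eventually_all.2 hC, h4, h5] with τ a b d e
      have h6 : ‖∏ i, g i (z + τ • u)‖ ≤ (∏ i, C i) * ‖τ - t‖ ^ M := by
        rw [norm_prod]
        calc ∏ i, ‖g i (z + τ • u)‖ ≤ ∏ i, (C i * ‖τ - t‖) :=
              Finset.prod_le_prod (fun i _ => norm_nonneg _) fun i _ => b i
          _ = (∏ i, C i) * ‖τ - t‖ ^ Fintype.card ι := by
              rw [Finset.prod_mul_distrib, Finset.prod_const, Finset.card_univ]
          _ ≤ (∏ i, C i) * ‖τ - t‖ ^ M := by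
              apply mul_le_mul_of_nonneg_left _ (Finset.prod_nonneg fun i _ => hC0 i)
              exact pow_le_pow_of_le_one (norm_nonneg _) e hι
      have hP : 0 ≤ ∏ i, C i := Finset.prod_nonneg fun i _ => hC0 i
      rw [norm_smul]
      calc ‖∏ i, g i (z + τ • u)‖ * ‖φ (z + τ • u)‖
          ≤ ((∏ i, C i) * ‖τ - t‖ ^ M) * (‖φ (z + t • u)‖ + 1) := by gcongr
        _ = c⁻¹ * ((∏ i, C i) * (‖φ (z + t • u)‖ + 1)) * (c * ‖τ - t‖ ^ M) := by
            field_simp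
        _ ≤ c⁻¹ * ((∏ i, C i) * (‖φ (z + t • u)‖ + 1)) * ‖ω (z + τ • u)‖ := by
            gcongr
  obtain ⟨ρ, hρ, -, ψ, hψ, hψe⟩ := line_ext (Φ := fun x => (∏ i, g i x) • φ x) hr hωd (hpd.smul hφd) hu
    (fun a => by
      refine Dense.mono ?_ dense_univ
      intro z _ _ t ht
      obtain ⟨C, hC⟩ := hbd z t ht
      refine ⟨‖a‖ * C, ?_⟩
      filter_upwards [hC] with τ hτ
      calc ‖inner ℂ a ((∏ i, g i (z + τ • u)) • φ (z + τ • u))‖
          ≤ ‖a‖ * ‖(∏ i, g i (z + τ • u)) • φ (z + τ • u)‖ := norm_inner_le_norm _ _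
        _ ≤ ‖a‖ * (C * ‖ω (z + τ • u)‖) := by gcongr
        _ = ‖a‖ * C * ‖ω (z + τ • u)‖ := by ring)
  refine ⟨ψ, Vale.Agent.P268.analyticAt_of_differentiableOn isOpen_ball hψ (mem_ball_self hρ), ?_⟩
  filter_upwards [ball_mem_nhds x₀ hρ] with x hx using hψe x hx

end

end Vale.Agent.P284.H494
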