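import Vale.Agent.P284.H494.Loc

/-!
# P284 (helper494): the function on the sheets is a quotient of functions of `π ∘ F`
-/

open scoped Manifold ContDiff Topology
open Filter Set Metric

noncomputable section

namespace Vale.Agent.P284.H494

open Vale.Agent.P272.K Vale.Agent.P284.H894.W Vale.Agent.P284.H894.G Vale.Agent.P284.H10

/-- Two continuous functions which agree where `G ≠ 0` agree, if `G` is not locally zero. -/
theorem eq_of_frequently {E W : Type*} [TopologicalSpace E] [TopologicalSpace W] [T2Space W]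
    {u v : E → W} {y : E} (hu : ContinuousAt u y) (hv : ContinuousAt v y)
    (h : ∃ᶠ y' in 𝓝 y, u y' = v y') : u y = v y := by
  by_contra hne
  obtain ⟨A, B, hA, hB, hyA, hyB, hAB⟩ := t2_separation hne
  have h1 : ∀ᶠ y' in 𝓝 y, u y' ≠ v y' := by
    filter_upwards [hu.eventually (hA.mem_nhds hyA), hv.eventually (hB.mem_nhds hyB)] with y' h2 h3 h4
    exact Set.disjoint_left.1 hAB h2 (h4 ▸ h3)
  exact h (h1.mono fun y' h2 => by simpa using h2)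

section
variable {n : ℕ} {X : Type} [TopologicalSpace X] [ChartedSpace (Cm n) X] {E : Type}
  [TopologicalSpace E] {p : E → X}
  {w : Chart n X → Cm n → Matrix (Fin n) (Fin n) ℂ} {q r : ℕ} {F : E → Cm q} {B : ℝ}
  [IsManifold 𝓘(ℂ, Cm n) ω X]
  {W : Type} [NormedAddCommGroup W] [InnerProductSpace ℂ W] [CompleteSpace W] {h : E → W}

/-- near every point some `q`-minor of `F` is not locally zero -/
theorem exists_minor [ConnectedSpace E] (hq : 1 ≤ q) (hp : IsCoveringMap p) (hF : HolB p w F B)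
    (hex : ∃ y, Reg (n := n) p F y) {e : Chart n X} {ε : OpenPartialHomeomorph E (Cm n)}
    (hε : IsCh p e ε) (hc : Convex ℝ ε.target) {y₀ : E} (hy₀ : y₀ ∈ ε.source) :
    ∃ ζ : Fin q → Cm n,
      AnalyticOnNhd ℂ (fun z => (Matrix.of fun i j =>
        fderiv ℂ (F ∘ ε.symm) z (ζ j) i).det) ε.target ∧
      (¬ ∀ᶠ z in 𝓝 (ε y₀), (Matrix.of fun i j => fderiv ℂ (F ∘ ε.symm) z (ζ j) i).det = 0) ∧
      ∀ z ∈ ε.target, (Matrix.of fun i j => fderiv ℂ (F ∘ ε.symm) z (ζ j) i).det ≠ 0 →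
        Reg (n := n) p F (ε.symm z) := by
  have hdense := reg_dense hq hp hF hex
  obtain ⟨y₂, hy₂, hr₂⟩ := hdense.inter_open_nonempty _ ε.open_source ⟨y₀, hy₀⟩
  have h1 := (hε.reg_iff hp hF hy₂).1 hr₂
  obtain ⟨A, hA⟩ := exists_mnr h1
  have hd := mnr_diff ε.open_target (hε.diff hF) A
  have ha : AnalyticOnNhd ℂ (mnr (F ∘ ε.symm) A) ε.target :=
    Vale.Agent.P268.analyticOnNhd_of_differentiableOn ε.open_target hd
  refine ⟨fun j => A (Pi.single j 1), ha, fun h0 => ?_, fun z hz hne => ?_⟩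
  · have h2 := ha.eqOn_zero_of_preconnected_of_eventuallyEq_zero hc.isPreconnected
      (ε.map_source hy₀) h0 (ε.map_source hy₂)
    rw [hA] at h2
    exact one_ne_zero h2
  · refine (hε.reg_iff hp hF (ε.map_target hz)).2 ?_
    rw [ε.right_inv hz]
    exact surj_of_mnr hne

/-- near a regular point of `t = π ∘ F`, `h` is a quotient of functions of `t` -/
theorem quot_form [ConnectedSpace E] (hq : 1 ≤ q) (hp : IsCoveringMap p) (hF : HolB p w F B)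
    (hex : ∃ y, Reg (n := n) p F y)
    (hext : ∀ (y : E) (e : Chart n X) (f : Cm n → Cm q), At e (p y) → AnalyticAt ℂ f (e (p y)) →
      (∀ᶠ y' in 𝓝 y, F y' = f (e (p y'))) → ∀ ξ : Fin q → Cm n, ∃ φ : Cm n → W,
      AnalyticAt ℂ φ (e (p y)) ∧ ∀ᶠ y' in 𝓝 y, Reg (n := n) p F y' →
        (Matrix.of fun i j => fderiv ℂ f (e (p y')) (ξ j) i).det • h y' = φ (e (p y')))
    (π : Cm q →L[ℂ] Cm r)
    (hloc : ∀ y, Reg (n := n) p F y → ∃ f : Cm r → W, AnalyticAt ℂ f (π (F y)) ∧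
      ∀ᶠ y' in 𝓝 y, h y' = f (π (F y')))
    {y₀ : E} (hy₀ : Reg (n := n) p (fun y => π (F y)) y₀) :
    ∃ ρ > 0, ∀ V ∈ 𝓝 y₀, ∃ (α : Cm r → W) (β : Cm r → ℂ),
      AnalyticOnNhd ℂ α (ball (π (F y₀)) ρ) ∧ AnalyticOnNhd ℂ β (ball (π (F y₀)) ρ) ∧
      (∃ y₁ ∈ V, Reg (n := n) p F y₁ ∧ π (F y₁) ∈ ball (π (F y₀)) ρ ∧ β (π (F y₁)) ≠ 0 ∧
        ∀ᶠ y in 𝓝 y₁, β (π (F y)) • h y = α (π (F y))) ∧
      ∀ᶠ y in 𝓝 y₀, Reg (n := n) p F y → β (π (F y)) • h y = α (π (F y)) := by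
  obtain ⟨e, ε, hε, hyε, -, hc⟩ := exists_ch (n := n) hp y₀ univ_mem
  set T : Cm n → Cm r := (fun y => π (F y)) ∘ ε.symm with hT
  have hFa := IsCh.analytic hε hF
  have hTa := IsCh.analytic hε (holB_comp π hF)
  have hz₀ : ε y₀ ∈ ε.target := ε.map_source hyε
  have hTs := (hε.reg_iff hp (holB_comp π hF) hyε).1 hy₀
  have hT0 : T (ε y₀) = π (F y₀) := by
    rw [hT, Function.comp_apply, ε.left_inv hyε]
  obtain ⟨ζ, hωa, hω0, hωr⟩ := exists_minor hq hp hF hex hε hc hyε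
  set Ω : Cm n → ℂ := fun z => (Matrix.of fun i j => fderiv ℂ (F ∘ ε.symm) z (ζ j) i).det with hΩ
  obtain ⟨φ, hφa, hφ⟩ := hext y₀ e (F ∘ ε.symm) (hε.at hyε)
    (by rw [← hε.eq y₀ hyε]; exact hFa _ hz₀) (hε.ev hyε) ζ
  rw [← hε.eq y₀ hyε] at hφa
  have hφ' : ∀ᶠ z in 𝓝 (ε y₀), Reg (n := n) p F (ε.symm z) → Ω z • h (ε.symm z) = φ z := by
    filter_upwards [(IsCh.symm_tendsto hyε).eventually hφ, ε.open_target.mem_nhds hz₀]
      with z h1 h2 h3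
    have h4 := h1 h3
    rwa [← hε.eq _ (ε.map_target h2), ε.right_inv h2] at h4
  obtain ⟨K, κ, Ψ, hκ, hΨ, hΨ1, hΨ2⟩ := straight (hTa _ hz₀) hTs
  change AnalyticAt ℂ Ψ (T (ε y₀), κ (ε y₀)) at hΨ
  change ∀ᶠ z in 𝓝 (ε y₀), Ψ (T z, κ z) = z at hΨ1
  change ∀ᶠ x in 𝓝 (T (ε y₀), κ (ε y₀)), T (Ψ x) = x.1 ∧ κ (Ψ x) = x.2 at hΨ2
  set x₀ : Cm r × K := (T (ε y₀), κ (ε y₀)) with hx₀
  have hΨx₀ : Ψ x₀ = ε y₀ := hΨ1.self_of_nhds
  have hΨc : Tendsto Ψ (𝓝 x₀) (𝓝 (ε y₀)) := by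
    have := hΨ.continuousAt.tendsto
    rwa [hΨx₀] at this
  have hTκc : Tendsto (fun z => (T z, κ z)) (𝓝 (ε y₀)) (𝓝 x₀) :=
    (hTa _ hz₀).continuousAt.prodMk hκ.continuousAt
  have hOa : AnalyticAt ℂ (fun x => Ω (Ψ x)) x₀ := by
    have h1 : AnalyticAt ℂ Ω (Ψ x₀) := by rw [hΨx₀]; exact hωa _ hz₀
    exact h1.comp hΨ
  have hPa : AnalyticAt ℂ (fun x => φ (Ψ x)) x₀ := by
    have h1 : AnalyticAt ℂ φ (Ψ x₀) := by rw [hΨx₀]; exact hφa
    exact h1.comp hΨ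
  have hO0 : ¬ ∀ᶠ x in 𝓝 x₀, Ω (Ψ x) = 0 := by
    intro h1
    apply hω0
    filter_upwards [hTκc.eventually h1, hΨ1] with z h2 h3
    rwa [h3] at h2
  -- the radius
  have hall : ∀ᶠ x in 𝓝 x₀, AnalyticAt ℂ (fun x => Ω (Ψ x)) x ∧ AnalyticAt ℂ (fun x => φ (Ψ x)) x ∧
      T (Ψ x) = x.1 ∧ Ψ x ∈ ε.target ∧ AnalyticAt ℂ Ψ x ∧
      (Reg (n := n) p F (ε.symm (Ψ x)) → Ω (Ψ x) • h (ε.symm (Ψ x)) = φ (Ψ x)) := by
    filter_upwards [hOa.eventually_analyticAt, hPa.eventually_analyticAt, hΨ2,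
      hΨc.eventually (ε.open_target.mem_nhds hz₀), hΨ.eventually_analyticAt,
      hΨc.eventually hφ'] with x a b c d e f using ⟨a, b, c.1, d, e, f⟩
  obtain ⟨ρ, hρ, hball⟩ := Metric.eventually_nhds_iff_ball.1 hall
  refine ⟨ρ, hρ, fun V hV => ?_⟩
  -- the point `x₁`
  have hyT : Tendsto (fun x => ε.symm (Ψ x)) (𝓝 x₀) (𝓝 y₀) := (IsCh.symm_tendsto hyε).comp hΨc
  obtain ⟨x₁, hωx₁, hx₁ρ, hx₁V⟩ : ∃ x₁, Ω (Ψ x₁) ≠ 0 ∧ x₁ ∈ ball x₀ ρ ∧ ε.symm (Ψ x₁) ∈ V := by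
    have h1 : ∃ᶠ x in 𝓝 x₀, Ω (Ψ x) ≠ 0 := Filter.not_eventually.1 hO0
    have hb0 : ∀ᶠ x in 𝓝 x₀, x ∈ ball x₀ ρ := ball_mem_nhds x₀ hρ
    have hb1 : ∀ᶠ x in 𝓝 x₀, ε.symm (Ψ x) ∈ V := hyT.eventually hV
    obtain ⟨x₁, h2, h3, h4⟩ := (h1.and_eventually (hb0.and hb1)).exists
    exact ⟨x₁, h2, h3, h4⟩
  have hmem : ∀ a ∈ ball (π (F y₀)) ρ, ((a, x₁.2) : Cm r × K) ∈ ball x₀ ρ := by
    intro a ha
    rw [mem_ball, Prod.dist_eq, max_lt_iff]
    rw [mem_ball, Prod.dist_eq, max_lt_iff] at hx₁ρ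
    refine ⟨?_, hx₁ρ.2⟩
    rw [hx₀, hT0]
    exact ha
  have hx₁1 : x₁.1 ∈ ball (π (F y₀)) ρ := by
    rw [mem_ball, Prod.dist_eq, max_lt_iff] at hx₁ρ
    rw [← hT0]
    exact hx₁ρ.1
  set α : Cm r → W := fun a => φ (Ψ (a, x₁.2)) with hα
  set β : Cm r → ℂ := fun a => Ω (Ψ (a, x₁.2)) with hβ
  have hins : ∀ a : Cm r, AnalyticAt ℂ (fun a : Cm r => ((a, x₁.2) : Cm r × K)) a := fun a =>
    analyticAt_id.prod analyticAt_const
  have hαa : AnalyticOnNhd ℂ α (ball (π (F y₀)) ρ) := fun a ha =>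
    (hball _ (hmem a ha)).2.1.fun_comp_of_eq (hins a) rfl
  have hβa : AnalyticOnNhd ℂ β (ball (π (F y₀)) ρ) := fun a ha =>
    (hball _ (hmem a ha)).1.fun_comp_of_eq (hins a) rfl
  -- the regular point
  set y₁ : E := ε.symm (Ψ x₁) with hy₁
  have htgt₁ : Ψ x₁ ∈ ε.target := (hball _ hx₁ρ).2.2.2.1
  have hreg₁ : Reg (n := n) p F y₁ := hωr _ htgt₁ hωx₁
  obtain ⟨f, hfa, hf⟩ := hloc y₁ hreg₁
  have hty₁ : π (F y₁) = x₁.1 := by
    have h1 := (hball _ hx₁ρ).2.2.1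
    rw [← h1, hT]
    rfl
  rw [hty₁] at hfa
  -- near `x₁`
  have hΨ₁ : Tendsto (fun x => ε.symm (Ψ x)) (𝓝 x₁) (𝓝 y₁) := by
    have h1 : ContinuousAt ε.symm (Ψ x₁) := ε.continuousAt_symm htgt₁
    exact ContinuousAt.comp (g := ε.symm) (f := Ψ) h1 (hball _ hx₁ρ).2.2.2.2.1.continuousAt
  have hnear : ∀ᶠ x in 𝓝 x₁, Ω (Ψ x) ≠ 0 ∧ φ (Ψ x) = Ω (Ψ x) • f x.1 := by
    filter_upwards [(hball _ hx₁ρ).1.continuousAt.eventually_ne hωx₁, isOpen_ball.mem_nhds hx₁ρ,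
      hΨ₁.eventually hf] with x h1 h2 h3
    refine ⟨h1, ?_⟩
    obtain ⟨-, -, h4, h5, -, h6⟩ := hball x h2
    have h7 := h6 (hωr _ h5 h1)
    rw [← h7, h3]
    congr 2
  have hnearα : ∀ᶠ a in 𝓝 x₁.1, α a = β a • f a := by
    have h1 : Tendsto (fun a : Cm r => ((a, x₁.2) : Cm r × K)) (𝓝 x₁.1) (𝓝 x₁) :=
      (hins x₁.1).continuousAt
    filter_upwards [h1.eventually hnear] with a ha using ha.2
  have hβ₁ : β (π (F y₁)) ≠ 0 := by
    rw [hty₁]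
    exact hωx₁
  -- the identity `β (φ ∘ Ψ) = (Ω ∘ Ψ) α`
  have hD : EqOn (fun x : Cm r × K => β x.1 • φ (Ψ x) - Ω (Ψ x) • α x.1) 0 (ball x₀ ρ) := by
    have han : AnalyticOnNhd ℂ (fun x : Cm r × K => β x.1 • φ (Ψ x) - Ω (Ψ x) • α x.1)
        (ball x₀ ρ) := by
      intro x hx
      have hx1 : x.1 ∈ ball (π (F y₀)) ρ := by
        rw [mem_ball, Prod.dist_eq, max_lt_iff] at hx
        rw [← hT0]
        exact hx.1
      have h1 : AnalyticAt ℂ (fun x : Cm r × K => β x.1) x :=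
        (hβa _ hx1).fun_comp_of_eq analyticAt_fst rfl
      have h2 : AnalyticAt ℂ (fun x : Cm r × K => α x.1) x :=
        (hαa _ hx1).fun_comp_of_eq analyticAt_fst rfl
      exact (h1.fun_smul (hball x hx).2.1).fun_sub ((hball x hx).1.fun_smul h2)
    refine han.eqOn_zero_of_preconnected_of_eventuallyEq_zero
      (convex_ball x₀ ρ).isPreconnected hx₁ρ ?_
    have h1 : Tendsto (fun x : Cm r × K => x.1) (𝓝 x₁) (𝓝 x₁.1) := continuous_fst.continuousAt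
    filter_upwards [hnear, h1.eventually hnearα] with x h2 h3
    rw [Pi.zero_apply, h2.2, h3, smul_smul, smul_smul, mul_comm, sub_self]
  refine ⟨α, β, hαa, hβa, ⟨y₁, hx₁V, hreg₁, by rw [hty₁]; exact hx₁1, hβ₁, ?_⟩, ?_⟩
  · -- near `y₁`
    have hFc : Continuous fun y => π (F y) := π.continuous.comp (hol_continuous hp hF)
    have h1 : Tendsto (fun y => π (F y)) (𝓝 y₁) (𝓝 x₁.1) := by
      rw [← hty₁]; exact hFc.continuousAt
    filter_upwards [hf, h1.eventually hnearα] with y h2 h3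
    rw [h2, h3]
  · -- near `y₀`
    have hεT : Tendsto ε (𝓝 y₀) (𝓝 (ε y₀)) := ε.continuousAt hyε
    have hFc : Continuous fun y => π (F y) := π.continuous.comp (hol_continuous hp hF)
    have hg1 : ∀ᶠ y in 𝓝 y₀, Reg (n := n) p F y → Ω (ε y) ≠ 0 →
        β (π (F y)) • h y = α (π (F y)) := by
      filter_upwards [hεT.eventually (hTκc.eventually (ball_mem_nhds x₀ hρ)), hεT.eventually hΨ1,
        ε.open_source.mem_nhds hyε] with y h1 h2 h3 hr hne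
      have h4 := hD h1
      obtain ⟨-, -, h5, h6, -, h7⟩ := hball _ h1
      simp only [Pi.zero_apply] at h4
      rw [h2] at h4 h7
      rw [ε.left_inv h3] at h7
      have h8 : T (ε y) = π (F y) := by rw [hT, Function.comp_apply, ε.left_inv h3]
      rw [← h7 hr, h8, smul_comm, ← smul_sub] at h4
      exact sub_eq_zero.1 ((smul_eq_zero.1 h4).resolve_left hne)
    have hg2 : ∀ᶠ y in 𝓝 y₀, ∃ᶠ y' in 𝓝 y, Ω (ε y') ≠ 0 := by
      filter_upwards [hεT.eventually (not_ev_zero (hωa _ hz₀) hω0), ε.open_source.mem_nhds hyε]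
        with y h1 h2
      rw [Filter.Frequently]
      intro h3
      apply h1
      have h4 : ∀ᶠ y' in 𝓝 y, Ω (ε y') = 0 := h3.mono fun y' h => not_not.1 h
      rw [← ε.map_nhds_eq h2]
      exact h4
    filter_upwards [hg1.eventually_nhds, hg2, hFc.continuousAt.eventually
      (isOpen_ball.mem_nhds (mem_ball_self hρ))] with y h1 h2 h3 hr
    obtain ⟨f', hf'a, hf'⟩ := hloc y hr
    have hc1 : ContinuousAt (fun y => β (π (F y)) • h y) y := by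
      have h4 : ContinuousAt h y := by
        have h5 : ContinuousAt (fun y' => f' (π (F y'))) y :=
          ContinuousAt.comp (g := f') (f := fun y => π (F y)) hf'a.continuousAt hFc.continuousAt
        exact h5.congr (hf'.mono fun y' h => h.symm)
      exact (ContinuousAt.comp (g := β) (f := fun y => π (F y)) (hβa _ h3).continuousAt
        hFc.continuousAt).smul h4
    have hc2 : ContinuousAt (fun y => α (π (F y))) y :=
      ContinuousAt.comp (g := α) (f := fun y => π (F y)) (hαa _ h3).continuousAt hFc.continuousAt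
    refine eq_of_frequently hc1 hc2 ?_
    have h5 : ∀ᶠ y' in 𝓝 y, Reg (n := n) p F y' := (reg_open hp hF).mem_nhds hr
    exact (h2.and_eventually (h1.and h5)).mono fun y' h6 => h6.2.1 h6.2.2 h6.1

end

end Vale.Agent.P284.H494
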