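import Vale.Agent.P284.H494.Quot

/-!
# P284 (helper494): analytic continuation over the regular values
-/

open scoped Manifold ContDiff Topology
open Filter Set Metric

noncomputable section

namespace Vale.Agent.P284.H494

open Vale.Agent.P272.K Vale.Agent.P284.H894.W Vale.Agent.P284.H894.G Vale.Agent.P284.H10

section
variable {n : ℕ} {X : Type} [TopologicalSpace X] [ChartedSpace (Cm n) X] {E : Type}
  [TopologicalSpace E] {p : E → X} {Γ : Type} [Group Γ] [MulAction Γ E]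
  {w : Chart n X → Cm n → Matrix (Fin n) (Fin n) ℂ} {q r : ℕ} {F : E → Cm q} {c : Γ → Cm q}
  [IsManifold 𝓘(ℂ, Cm n) ω X]
  {W : Type} [NormedAddCommGroup W] [InnerProductSpace ℂ W] [CompleteSpace W] {h : E → W}

/-- Analytic continuation over the regular values: if `h = k ∘ F` near a point, `k` analytic on the
connected open set `O` of regular values, then over every point of `O` there is a point with `h = k ∘ F`. -/
theorem sweep [CompactSpace X] [Nonempty E] (hp : IsGalois Γ p) (hP : Per p w F c)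
    (hloc : ∀ y, Reg (n := n) p F y → ∃ f : Cm q → W, AnalyticAt ℂ f (F y) ∧
      ∀ᶠ y' in 𝓝 y, h y' = f (F y'))
    (heq : ∀ g : Γ, ∃ U : W →ₗᵢ[ℂ] W, ∀ y, Reg (n := n) p F y → h (g • y) = U (h y))
    {k : Cm q → W} {O : Set (Cm q)} (hO : IsOpen O) (hpre : IsPreconnected O)
    (hk : AnalyticOnNhd ℂ k O) (hOR : O ⊆ RV n p F) {y₁ : E} (hy₁ : F y₁ ∈ O)
    (h₁ : ∀ᶠ y in 𝓝 y₁, h y = k (F y)) : ∀ τ ∈ O, ∃ y, F y = τ ∧ h y = k τ := by
  obtain ⟨B, hB⟩ := hP.hol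
  have hFc := hP.continuous hp.cov
  set u : Set (Cm q) := {τ | ∃ z, F z = τ ∧ Reg (n := n) p F z ∧ ∀ᶠ y in 𝓝 z, h y = k (F y)} with hu
  have huo : IsOpen u := by
    rw [isOpen_iff_mem_nhds]
    rintro τ ⟨z, rfl, hz, hPz⟩
    rw [← reg_map_nhds hp.cov hB hz]
    show {z' | F z' ∈ u} ∈ 𝓝 z
    filter_upwards [(reg_open hp.cov hB).mem_nhds hz, hPz.eventually_nhds] with z' h1 h2
      using ⟨z', rfl, h1, h2⟩
  have hcl : closure u ∩ O ⊆ u := by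
    rintro τ₀ ⟨hτ₀u, hτ₀⟩
    obtain ⟨C, hC, hcov⟩ := hP.exists_compact hp (‖τ₀‖ + 1)
    have hne : (𝓝[u] τ₀).NeBot := mem_closure_iff_nhdsWithin_neBot.1 hτ₀u
    -- choose the points
    have hch : ∀ τ : Cm q, ∃ (z : E) (g : Γ), τ ∈ u → ‖τ‖ ≤ ‖τ₀‖ + 1 →
        F z = τ ∧ Reg (n := n) p F z ∧ (∀ᶠ y in 𝓝 z, h y = k (F y)) ∧ c g = 0 ∧ g • z ∈ C := by
      intro τ
      by_cases h1 : τ ∈ u ∧ ‖τ‖ ≤ ‖τ₀‖ + 1
      · obtain ⟨⟨z, hz1, hz2, hz3⟩, h2⟩ := h1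
        obtain ⟨g, hg1, hg2⟩ := hcov z (by rw [hz1]; exact h2)
        exact ⟨z, g, fun _ _ => ⟨hz1, hz2, hz3, hg1, hg2⟩⟩
      · exact ⟨Classical.arbitrary E, 1, fun h2 h3 => absurd ⟨h2, h3⟩ h1⟩
    choose z g hzg using hch
    have hnorm : ∀ᶠ τ in 𝓝[u] τ₀, ‖τ‖ ≤ ‖τ₀‖ + 1 := by
      apply eventually_nhdsWithin_of_eventually_nhds
      have h1 : ∀ᶠ τ in 𝓝 τ₀, ‖τ‖ < ‖τ₀‖ + 1 :=
        continuous_norm.continuousAt.eventually (gt_mem_nhds (by linarith))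
      exact h1.mono fun τ h => h.le
    have hgood : ∀ᶠ τ in 𝓝[u] τ₀, τ ∈ u ∧ ‖τ‖ ≤ ‖τ₀‖ + 1 := by
      filter_upwards [self_mem_nhdsWithin, hnorm] with τ h1 h2 using ⟨h1, h2⟩
    obtain ⟨x, hxC, hx⟩ := hC.exists_mapClusterPt (u := fun τ => g τ • z τ) (f := 𝓝[u] τ₀) (by
      rw [le_principal_iff]
      show ∀ᶠ τ in 𝓝[u] τ₀, g τ • z τ ∈ C
      filter_upwards [hgood] with τ h1 using (hzg τ h1.1 h1.2).2.2.2.2)
    have hFG : ∀ τ, τ ∈ u → ‖τ‖ ≤ ‖τ₀‖ + 1 → F (g τ • z τ) = τ := by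
      intro τ h1 h2
      obtain ⟨h3, -, -, h4, -⟩ := hzg τ h1 h2
      rw [hP.equiv, h4, add_zero, h3]
    have hFx : F x = τ₀ := by
      by_contra hne'
      obtain ⟨A, A', hA, hA', hxA, hτA, hdis⟩ := t2_separation hne'
      have h1 : ∃ᶠ τ in 𝓝[u] τ₀, g τ • z τ ∈ F ⁻¹' A :=
        hx.frequently (hFc.continuousAt.eventually (hA.mem_nhds hxA))
      have h2 : ∀ᶠ τ in 𝓝[u] τ₀, τ ∈ A' :=
        eventually_nhdsWithin_of_eventually_nhds (hA'.mem_nhds hτA)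
      obtain ⟨τ, h3, h4, h5⟩ := (h1.and_eventually (h2.and hgood)).exists
      have h6 : F (g τ • z τ) ∈ A := h3
      rw [hFG τ h5.1 h5.2] at h6
      exact Set.disjoint_left.1 hdis h6 h4
    have hxr : Reg (n := n) p F x := hOR hτ₀ x hFx
    obtain ⟨f, hfa, hf⟩ := hloc x hxr
    rw [hFx] at hfa
    obtain ⟨ρ, hρ, hρb⟩ := Metric.eventually_nhds_iff_ball.1
      (hfa.eventually_analyticAt.and (hO.mem_nhds hτ₀ : ∀ᶠ τ in 𝓝 τ₀, τ ∈ O))
    have hN : ∀ᶠ y in 𝓝 x, (∀ᶠ y' in 𝓝 y, h y' = f (F y')) ∧ F y ∈ ball τ₀ ρ := by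
      refine hf.eventually_nhds.and ?_
      have : ball τ₀ ρ ∈ 𝓝 (F x) := by rw [hFx]; exact ball_mem_nhds _ hρ
      exact hFc.continuousAt.eventually this
    obtain ⟨τ, ⟨h3, h4⟩, h5, h6⟩ := ((hx.frequently hN).and_eventually hgood).exists
    obtain ⟨hz1, hz2, hz3, hg1, -⟩ := hzg τ h5 h6
    rw [hFG τ h5 h6] at h4
    obtain ⟨U, hU⟩ := heq (g τ)
    have hinv : ∀ y, F ((g τ)⁻¹ • y) = F y := by
      intro y
      have h7 := hP.equiv (g τ) ((g τ)⁻¹ • y)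
      rw [smul_inv_smul, hg1, add_zero] at h7
      exact h7.symm
    have hcg : Tendsto (fun y : E => (g τ)⁻¹ • y) (𝓝 (g τ • z τ)) (𝓝 (z τ)) := by
      have := (hp.cont (g τ)⁻¹).tendsto (g τ • z τ)
      simpa using this
    have h7 : ∀ᶠ y in 𝓝 (g τ • z τ), f (F y) = U (k (F y)) := by
      filter_upwards [h3, hcg.eventually hz3,
        hcg.eventually ((reg_open hp.cov hB).mem_nhds hz2)] with y h8 h9 h10
      have h11 := hU _ h10
      rw [smul_inv_smul, h9, hinv] at h11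
      rw [← h8, h11]
    have hzr : Reg (n := n) p F (g τ • z τ) := (hP.reg_smul_iff hp _ _).2 hz2
    have h8 : ∀ᶠ τ' in 𝓝 τ, f τ' = U (k τ') := by
      have h9 := reg_map_nhds hp.cov hB hzr
      rw [hFG τ h5 h6] at h9
      rw [← h9]
      exact h7
    have hUk : AnalyticOnNhd ℂ (fun τ' => U (k τ')) (ball τ₀ ρ) := fun τ' hτ' =>
      (U.toContinuousLinearMap.analyticAt _).comp (hk τ' (hρb τ' hτ').2)
    have hfb : AnalyticOnNhd ℂ f (ball τ₀ ρ) := fun τ' hτ' => (hρb τ' hτ').1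
    have h9 : EqOn f (fun τ' => U (k τ')) (ball τ₀ ρ) :=
      hfb.eqOn_of_preconnected_of_eventuallyEq hUk (convex_ball τ₀ ρ).isPreconnected h4 h8
    have h10 : ∀ᶠ y in 𝓝 x, h y = U (k (F y)) := by
      filter_upwards [hN] with y hy
      rw [hy.1.self_of_nhds]
      exact h9 hy.2
    have hcg' : Tendsto (fun y : E => g τ • y) (𝓝 ((g τ)⁻¹ • x)) (𝓝 x) := by
      have := (hp.cont (g τ)).tendsto ((g τ)⁻¹ • x)
      simpa using this
    have hxr' : Reg (n := n) p F ((g τ)⁻¹ • x) := (hP.reg_smul_iff hp _ _).2 hxr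
    refine ⟨(g τ)⁻¹ • x, by rw [hinv, hFx], hxr', ?_⟩
    filter_upwards [hcg'.eventually h10, (reg_open hp.cov hB).mem_nhds hxr'] with y h11 h12
    rw [hU y h12, hP.equiv, hg1, add_zero] at h11
    exact U.injective h11
  have hyr : Reg (n := n) p F y₁ := hOR hy₁ y₁ rfl
  have hsub := hpre.subset_of_closure_inter_subset huo ⟨F y₁, hy₁, y₁, rfl, hyr, h₁⟩ hcl
  intro τ hτ
  obtain ⟨z, hz1, -, hz3⟩ := hsub hτ
  exact ⟨z, hz1, by rw [← hz1]; exact hz3.self_of_nhds⟩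

end

end Vale.Agent.P284.H494
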