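import Vale.Agent.P284.H494.T5C
import Vale.Agent.P284.H998.Z6

/-!
# P284 (helper494), T5
-/

open scoped Manifold ContDiff Topology ENNReal
open Filter Set Metric MeasureTheory

noncomputable section

namespace Vale.Agent.P284.H494

open Vale.Agent.P272.K Vale.Agent.P284.H894.W Vale.Agent.P284.H894.G Vale.Agent.P284.H10
  Vale.Agent.P284.H672 Vale.Agent.P284.H812 Vale.Agent.P284.H998

section
variable {n : ℕ} {X : Type} [TopologicalSpace X] [ChartedSpace (Cm n) X] {E : Type}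
  [TopologicalSpace E] {p : E → X} {Γ : Type} [Group Γ] [MulAction Γ E]
  {w : Chart n X → Cm n → Matrix (Fin n) (Fin n) ℂ} {q : ℕ} {F : E → Cm q} {c : Γ → Cm q}
  {W : Type} [NormedAddCommGroup W] [InnerProductSpace ℂ W] {h : E → W}
  [IsManifold 𝓘(ℂ, Cm n) ω X]

/-- a compact manifold `Z` with a map to `X` which is transversal to the fibres somewhere -/
theorem exists_Z [T2Space X] [CompactSpace X] [ConnectedSpace X] (hq : 1 ≤ q)
    {κ : Type} [Fintype κ] (hPJ : PJ n X κ) [Nonempty E] (hp : IsGalois Γ p) (hP : Per p w F c)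
    (hex : ∃ y, Reg (n := n) p F y) :
    ∃ (Z : Type) (_ : TopologicalSpace Z) (_ : T2Space Z) (_ : CompactSpace Z)
      (_ : ChartedSpace (Cm q) Z) (_ : IsManifold 𝓘(ℂ, Cm q) ω Z)
      (j : Z → X) (_ : ContMDiff 𝓘(ℂ, Cm q) 𝓘(ℂ, Cm n) ω j)
      (wz : Chart q Z → Cm q → ℝ) (_ : IsCanonicalMetric wz),
      ∃ z, rho (OvE p F j) wz z ≠ 0 := by
  obtain ⟨y₀, hy₀⟩ := hex
  obtain ⟨B, hB⟩ := hP.hol
  set e : Chart n X := chartAt (Cm n) (p y₀) with he0
  have he : At e (p y₀) := ⟨chart_mem_atlas _ _, mem_chart_source _ _⟩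
  obtain ⟨f, hf, hfF⟩ := exists_expr hB y₀ e he
  have hs := hy₀ e f he hfF
  have hqn : q ≤ n := by
    have h1 := LinearMap.finrank_le_finrank_of_surjective
      (f := (fderiv ℂ f (e (p y₀)) : Cm n →ₗ[ℂ] Cm q)) hs
    simpa using h1
  set U : Set E := {y | (∀ᶠ y' in 𝓝 y, F y' = f (e (p y'))) ∧ AnalyticAt ℂ f (e (p y))} with hU
  have hUn : U ∈ 𝓝 y₀ := by
    have h1 : ContinuousAt (fun y => e (p y)) y₀ :=
      ContinuousAt.comp (g := e) (f := p) (e.continuousAt he.2) hp.cov.continuous.continuousAt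
    filter_upwards [hfF.eventually_nhds, h1.eventually hf.eventually_analyticAt] with y h2 h3
      using ⟨h2, h3⟩
  have hWn : p '' U ∈ 𝓝 (p y₀) := hp.cov.isLocalHomeomorph.isOpenMap.image_mem_nhds hUn
  obtain ⟨Z, i1, i2, i3, -, i5, i6, j, hj, wz, hwz, -, z₁, cc, hcc, hz₁, hez₁, hfa, hbij⟩ :=
    zStmt n q hq hqn X κ hPJ e (p y₀) he (p '' U) hWn f hf hs
  obtain ⟨y₁, ⟨hy₁, hy₁a⟩, hpy₁⟩ := hz₁
  refine ⟨Z, i1, i2, i3, i5, i6, j, hj, wz, hwz, z₁, ?_⟩
  have h1 := (isG_of (F := F) hp.cov hj hpy₁ (e := e) (by rw [hpy₁]; exact hez₁) hy₁a hy₁ hcc).1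
  refine (rho_ne (tmap hp hP hj) hwz hcc h1).2 ?_
  intro h2
  exact not_surj_of_det h2 hbij.2

end

set_option maxHeartbeats 400000 in
theorem t5Stmt : T5Stmt := by
  intro n q X _ _ _ _ _ _ κ _ hPJ w E Γ _ _ _ _ p hp F c hP hex W _ _ _ h hH hker
  rcases Nat.eq_zero_or_pos q with hq0 | hq
  · subst hq0
    have hreg : ∀ y, Reg (n := n) p F y := fun y e f _ _ => Function.surjective_to_subsingleton _
    have hlc : IsLocallyConstant h := by
      rw [IsLocallyConstant.iff_eventually_eq]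
      intro y
      obtain ⟨f, -, hf⟩ := hH.loc y (hreg y)
      filter_upwards [hf] with y' hy'
      rw [hy', hf.self_of_nhds, Subsingleton.elim (F y') (F y)]
    obtain ⟨y₀, -⟩ := hex
    refine ⟨fun _ => ENNReal.ofReal (‖h y₀‖ ^ 2), fun R => ?_, fun y _ => ?_⟩
    · rw [setLIntegral_const]
      exact ENNReal.mul_lt_top ENNReal.ofReal_lt_top measure_ball_lt_top
    · rw [hlc.apply_eq_of_preconnectedSpace y y₀]
  have hpγ : ∀ (γ : Γ) (y : E), p (γ • y) = p y := fun γ y => ((hp.orb y (γ • y)).2 ⟨γ, rfl⟩).symm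
  obtain ⟨Z, i1, i2, i3, i5, i6, j, hj, wz, hwz, hne⟩ := exists_Z hq hPJ hp hP hex
  have hT := tmap hp hP hj
  obtain ⟨N₁, hN₁, hcard⟩ := exists_N1 hq hp hP hj hwz hne hex
  choose cc r lt hr hcc hlt using fun z₀ : Z => exists_lt hp hP hj z₀
  -- the pieces
  choose γ hγ using fun lam : range c => lam.2
  choose S hSm hS1 hS2 hS3 using fun (z₀ : Z) (lam : range c) =>
    exists_piece hp hP hH (fun ζ hζ => ⟨(hlt z₀ ζ hζ).2.1, (hlt z₀ ζ hζ).2.2.2⟩) (γ lam)
  have hcount : Countable (range c) := hP.countable.to_subtype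
  obtain ⟨T, hTcov⟩ := isCompact_univ.elim_finite_subcover
    (fun z₀ : Z => (cc z₀).source ∩ cc z₀ ⁻¹' ball (cc z₀ z₀) (r z₀))
    (fun z₀ => (cc z₀).isOpen_inter_preimage isOpen_ball)
    (fun z₀ _ => mem_iUnion.2 ⟨z₀, (hcc z₀).2, mem_ball_self (hr z₀)⟩)
  classical
  set V := V1 n p F j wz with hV
  have hVnull : volume Vᶜ = 0 := vol_cov hq (cov_V1 hq hp hP hj hwz)
  refine ⟨fun t => if t ∈ V then ∑ z₀ ∈ T, ∑' lam : range c, S z₀ lam t else ⊤, fun R => ?_,
    fun y hy => ?_⟩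
  · have h1 : ∫⁻ t in ball (0 : Cm q) R, (if t ∈ V then ∑ z₀ ∈ T, ∑' lam : range c, S z₀ lam t
        else ⊤) = ∫⁻ t in ball (0 : Cm q) R, ∑ z₀ ∈ T, ∑' lam : range c, S z₀ lam t := by
      refine lintegral_congr_ae ?_
      have h2 : ∀ᵐ t ∂(volume.restrict (ball (0 : Cm q) R)), t ∈ V :=
        ae_restrict_of_ae (show ∀ᵐ t, t ∈ V from hVnull)
      filter_upwards [h2] with t ht
      rw [if_pos ht]
    rw [h1, lintegral_finsetSum _ fun z₀ _ => Measurable.tsum fun lam => hSm z₀ lam]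
    refine ENNReal.sum_lt_top.2 fun z₀ _ => ?_
    rw [lintegral_tsum fun lam => (hSm z₀ lam).aemeasurable]
    -- a bound of `F` on the compact ball
    have hFlt : ContinuousOn (fun ζ => F (lt z₀ ζ)) (closedBall (cc z₀ z₀) (r z₀)) := fun ζ hζ =>
      (ContinuousAt.comp (g := F) (hP.continuous hp.cov).continuousAt
        (hlt z₀ ζ hζ).2.1).continuousWithinAt
    obtain ⟨M, hM⟩ := (isCompact_closedBall (cc z₀ z₀) (r z₀)).exists_bound_of_continuousOn hFlt
    have hfin : {lam : range c | ‖(lam : Cm q)‖ ≤ R + M}.Finite := by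
      have h2 := (hP.disc (R + M)).preimage
        (f := (Subtype.val : range c → Cm q)) Subtype.val_injective.injOn
      refine h2.subset fun lam hlam => ?_
      exact ⟨lam.2, hlam⟩
    have h3 : ∀ lam : range c, lam ∉ hfin.toFinset →
        ∫⁻ t in ball (0 : Cm q) R, S z₀ lam t = 0 := by
      intro lam hlam
      rw [Set.Finite.mem_toFinset] at hlam
      rw [setLIntegral_congr_fun (g := fun _ => 0) measurableSet_ball, lintegral_zero]
      intro t ht
      by_contra hcon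
      obtain ⟨ζ, hζ, hFζ⟩ := hS2 z₀ lam t hcon
      apply hlam
      show ‖(lam : Cm q)‖ ≤ R + M
      have h4 : (lam : Cm q) = t - F (lt z₀ ζ) := by
        rw [← hFζ, hP.equiv, hγ]
        abel
      rw [h4]
      refine (norm_sub_le _ _).trans (add_le_add ?_ (hM ζ (ball_subset_closedBall hζ)))
      exact (mem_ball_zero_iff.1 ht).le
    rw [tsum_eq_sum (s := hfin.toFinset) h3]
    refine ENNReal.sum_lt_top.2 fun lam _ => ?_
    exact (setLIntegral_le_lintegral _ _).trans_lt (hS3 z₀ lam)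
  · show ENNReal.ofReal (‖h y‖ ^ 2) ≤ if F y ∈ V then ∑ z₀ ∈ T, ∑' lam : range c, S z₀ lam (F y)
      else ⊤
    by_cases hyV : F y ∈ V
    · rw [if_pos hyV]
      have hA : (AA p F c j y).Nonempty := by
        rw [nonempty_iff_ne_empty]
        intro h0
        have := hcard y hyV
        rw [h0, ncard_empty] at this
        omega
      obtain ⟨z, e, he, hcl⟩ := hA
      obtain ⟨z₀, hz₀, hz⟩ := mem_iUnion₂.1 (hTcov (mem_univ z))
      set ζ := cc z₀ z with hζ
      have hζb : ζ ∈ ball (cc z₀ z₀) (r z₀) := hz.2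
      obtain ⟨hζt, hζc, hζp, hζa⟩ := hlt z₀ ζ (ball_subset_closedBall hζb)
      have hcz : (cc z₀).symm ζ = z := (cc z₀).left_inv hz.1
      have hpl : p (lt z₀ ζ) = j z := by
        rw [hζp.self_of_nhds, hcz]
      obtain ⟨g, hg⟩ := (hp.orb (lt z₀ ζ) e).1 (by rw [hpl, he])
      set lam : range c := ⟨c g, g, rfl⟩ with hlam
      have hcγ : c (γ lam) = c g := hγ lam
      have hFe : F e = F y := (hcl.eq hP).symm
      have hFγ : F (γ lam • lt z₀ ζ) = F y := by
        rw [hP.equiv, hcγ, ← hFe, ← hg, hP.equiv]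
      have hregγ : Reg (n := n) p F (γ lam • lt z₀ ζ) := hy _ hFγ
      -- the norm of `h`
      have hn1 : ‖h e‖ = ‖h (γ lam • lt z₀ ζ)‖ := by
        have h2 : (g * (γ lam)⁻¹) • γ lam • lt z₀ ζ = e := by
          rw [smul_smul, inv_mul_cancel_right, hg]
        have h3 : c (g * (γ lam)⁻¹) = 0 := by
          rw [H224.per_add hP, H224.per_inv hP, hcγ, add_neg_cancel]
        rw [← hker _ h3 _ hregγ, h2]
      have hn2 : ‖h y‖ = ‖h e‖ := by
        obtain ⟨k, hk, hks⟩ := id hcl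
        have hFk : F (k • e) = F y := by rw [hP.equiv, hk, add_zero, hFe]
        rw [h_same hH (by rw [hFk]; exact hy) hks, hker k hk e (hy e hFe)]
      -- the determinant
      have hdet : (fderiv ℂ (fun ζ => F (γ lam • lt z₀ ζ)) ζ).det ≠ 0 := by
        have hov : OvE p F j (F y) z := ⟨e, he, hFe⟩
        have hrho := hyV.1 z hov
        have hAt : At (cc z₀) z := ⟨(hcc z₀).1, hz.1⟩
        have hG : IsG (OvE p F j) (cc z₀) z (fun ζ => F (γ lam • lt z₀ ζ)) := by
          obtain ⟨B, hB⟩ := hP.hol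
          refine ⟨(loc_bound (lt := fun ζ => γ lam • lt z₀ ζ) hp.cov hB hH
            (ContinuousAt.comp (g := fun y => γ lam • y) (hp.cont _).continuousAt hζc)
            ?_).1, ?_⟩
          · intro e' he'
            simp only [hpγ] at he' ⊢
            exact hζa e' he'
          · have h2 : ∀ᶠ z' in 𝓝 z, p (lt z₀ (cc z₀ z')) = j ((cc z₀).symm (cc z₀ z')) :=
              ((cc z₀).continuousAt hz.1).eventually hζp
            filter_upwards [h2, (cc z₀).open_source.mem_nhds hz.1] with z' h3 h4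
            refine ⟨γ lam • lt z₀ (cc z₀ z'), ?_, rfl⟩
            rw [hpγ, h3, (cc z₀).left_inv h4]
        exact (rho_ne hT hwz hAt hG).1 hrho
      have h5 := hS1 z₀ lam ζ hζb hdet
      rw [hn2, hn1]
      refine h5.trans ?_
      rw [hFγ]
      refine (ENNReal.le_tsum (f := fun lam => S z₀ lam (F y)) lam).trans ?_
      exact Finset.single_le_sum (f := fun z₀ => ∑' lam : range c, S z₀ lam (F y))
        (fun _ _ => zero_le) hz₀
    · rw [if_neg hyV]
      exact le_top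

end Vale.Agent.P284.H494
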