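import Vale.Agent.P284.H451.CntA
import Mathlib.Analysis.Calculus.InverseFunctionTheorem.FDeriv

/-!
# P284 (helper494), T5: sums over the fibres of a holomorphic map between domains of `ℂ^q`
-/

open scoped Manifold ContDiff Topology ENNReal
open Filter Set Metric MeasureTheory

noncomputable section

namespace Vale.Agent.P284.H494

open Vale.Agent.P272.K Vale.Agent.P284.H451

section
variable {q : ℕ}

/-- one injective piece -/
theorem area_piece {g : Cm q → Cm q} {ψ : Cm q → ℝ≥0∞} {A : Set (Cm q)} (hA : MeasurableSet A)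
    (hd : ∀ z ∈ A, DifferentiableAt ℂ g z) (hi : InjOn g A) (hψ : ContinuousOn ψ A) :
    ∃ S : Cm q → ℝ≥0∞, Measurable S ∧ (∀ z ∈ A, S (g z) = ψ z) ∧
      (∀ t, S t ≠ 0 → ∃ z ∈ A, g z = t) ∧
      ∫⁻ t, S t = ∫⁻ z in A, ‖(fderiv ℂ g z).det‖ₑ ^ 2 * ψ z := by
  have hc : ContinuousOn g A := fun z hz => (hd z hz).continuousAt.continuousWithinAt
  have hE : MeasurableEmbedding (fun a : A => g a) := hc.measurableEmbedding hA hi
  have hψm : Measurable (fun a : A => ψ a) :=
    (continuousOn_iff_continuous_domRestrict.1 hψ).measurable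
  set S : Cm q → ℝ≥0∞ := Function.extend (fun a : A => g a) (fun a : A => ψ a) 0 with hS
  have hSm : Measurable S := hE.measurable_extend hψm measurable_const
  have h1 : ∀ z ∈ A, S (g z) = ψ z := fun z hz =>
    hE.injective.extend_apply (fun a : A => ψ a) 0 ⟨z, hz⟩
  have h2 : ∀ t, t ∉ g '' A → S t = 0 := by
    intro t ht
    refine Function.extend_apply' _ _ _ ?_
    rintro ⟨⟨z, hz⟩, hzt⟩
    exact ht ⟨z, hz, hzt⟩
  refine ⟨S, hSm, h1, fun t ht => ?_, ?_⟩
  · by_contra hcon
    exact ht (h2 t fun ⟨z, hz, hzt⟩ => hcon ⟨z, hz, hzt⟩)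
  · have hm : MeasurableSet (g '' A) := measurable_image_holo hA hd hi
    have h3 : ∫⁻ t, S t = ∫⁻ t in g '' A, S t := by
      rw [← lintegral_indicator hm]
      refine lintegral_congr fun t => ?_
      by_cases ht : t ∈ g '' A
      · rw [indicator_of_mem ht]
      · rw [indicator_of_notMem ht, h2 t ht]
    rw [h3, lint_image hA hd hi]
    exact setLIntegral_congr_fun hA fun z hz => by rw [h1 z hz]

/-- local injectivity -/
theorem loc_inj {g : Cm q → Cm q} {z : Cm q} (hg : AnalyticAt ℂ g z)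
    (hdet : (fderiv ℂ g z).det ≠ 0) : ∃ U ∈ 𝓝 z, InjOn g U := by
  have hst : HasStrictFDerivAt g ((fderiv ℂ g z).toContinuousLinearEquivOfDetNeZero hdet :
      Cm q →L[ℂ] Cm q) z := by
    rw [ContinuousLinearMap.coe_toContinuousLinearEquivOfDetNeZero]
    exact hg.hasStrictFDerivAt
  refine ⟨(hst.toOpenPartialHomeomorph g).source,
    (hst.toOpenPartialHomeomorph g).open_source.mem_nhds
      hst.mem_toOpenPartialHomeomorph_source, ?_⟩
  have h1 := (hst.toOpenPartialHomeomorph g).injOn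
  rwa [hst.toOpenPartialHomeomorph_coe] at h1

/-- **Area formula with multiplicities**: the function `ψ` on the open set `B` is bounded by a
function of `g` off the critical points. -/
theorem area_sum {B : Set (Cm q)} (hB : IsOpen B) {g : Cm q → Cm q} (hg : AnalyticOnNhd ℂ g B)
    {ψ : Cm q → ℝ≥0∞}
    (hψ : ∀ z ∈ B, (fderiv ℂ g z).det ≠ 0 → ContinuousAt ψ z) :
    ∃ S : Cm q → ℝ≥0∞, Measurable S ∧
      (∀ z ∈ B, (fderiv ℂ g z).det ≠ 0 → ψ z ≤ S (g z)) ∧
      (∀ t, S t ≠ 0 → ∃ z ∈ B, g z = t) ∧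
      ∫⁻ t, S t = ∫⁻ z in B ∩ {z | (fderiv ℂ g z).det ≠ 0}, ‖(fderiv ℂ g z).det‖ₑ ^ 2 * ψ z := by
  set G : Set (Cm q) := B ∩ {z | (fderiv ℂ g z).det ≠ 0} with hG
  have hdc : ContinuousOn (fun z => (fderiv ℂ g z).det) B := fun z hz =>
    (ContinuousLinearMap.continuous_det.continuousAt.comp
      (hg z hz).fderiv.continuousAt).continuousWithinAt
  have hGo : IsOpen G := hdc.isOpen_inter_preimage hB isOpen_compl_singleton
  have hex : ∀ z : Cm q, ∃ U : Set (Cm q), z ∈ G → IsOpen U ∧ z ∈ U ∧ U ⊆ G ∧ InjOn g U := by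
    intro z
    by_cases hz : z ∈ G
    · obtain ⟨U, hU, hi⟩ := loc_inj (hg z hz.1) hz.2
      refine ⟨interior U ∩ G, fun _ => ⟨isOpen_interior.inter hGo,
        ⟨mem_interior_iff_mem_nhds.2 hU, hz⟩, inter_subset_right, hi.mono ?_⟩⟩
      exact inter_subset_left.trans interior_subset
    · exact ⟨∅, fun h => absurd h hz⟩
  choose U hU using hex
  obtain ⟨T, hTc, hTG, hTcov⟩ := (HereditarilyLindelofSpace.isLindelof G).elim_nhds_subcover U
    fun z hz => (hU z hz).1.mem_nhds (hU z hz).2.1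
  rcases T.eq_empty_or_nonempty with hT0 | hT0
  · have hG0 : G = ∅ := by
      rw [eq_empty_iff_forall_notMem]
      intro z hz
      have := hTcov hz
      rw [hT0] at this
      simp at this
    refine ⟨0, measurable_const, fun z hz hd => ?_, fun t ht => absurd rfl ht, ?_⟩
    · exact absurd (show z ∈ G from ⟨hz, hd⟩) (by rw [hG0]; exact notMem_empty z)
    · rw [hG0]; simp
  · obtain ⟨f, hf⟩ := hTc.exists_eq_range hT0
    set V : ℕ → Set (Cm q) := fun k => U (f k) with hV
    have hfG : ∀ k, f k ∈ G := fun k => hTG _ (by rw [hf]; exact mem_range_self k)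
    have hVo : ∀ k, IsOpen (V k) := fun k => (hU _ (hfG k)).1
    have hVG : ∀ k, V k ⊆ G := fun k => (hU _ (hfG k)).2.2.1
    have hVi : ∀ k, InjOn g (V k) := fun k => (hU _ (hfG k)).2.2.2
    have hVc : G ⊆ ⋃ k, V k := by
      intro z hz
      obtain ⟨t, ht, hzt⟩ := mem_iUnion₂.1 (hTcov hz)
      rw [hf] at ht
      obtain ⟨k, rfl⟩ := ht
      exact mem_iUnion.2 ⟨k, hzt⟩
    set A : ℕ → Set (Cm q) := disjointed V with hA
    have hAm : ∀ k, MeasurableSet (A k) := fun k =>
      MeasurableSet.disjointed (fun k => (hVo k).measurableSet) k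
    have hAV : ∀ k, A k ⊆ V k := fun k => disjointed_subset V k
    have hAG : ⋃ k, A k = G := by
      rw [hA, iUnion_disjointed]
      exact Subset.antisymm (iUnion_subset hVG) hVc
    have hpiece := fun k => area_piece (g := g) (ψ := ψ) (hAm k)
      (fun z hz => (hg z (hVG k (hAV k hz)).1).differentiableAt) ((hVi k).mono (hAV k))
      (fun z hz => (hψ z (hVG k (hAV k hz)).1 (hVG k (hAV k hz)).2).continuousWithinAt)
    choose S hSm hS1 hS2 hS3 using hpiece
    refine ⟨fun t => ∑' k, S k t, Measurable.tsum hSm, ?_, ?_, ?_⟩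
    · intro z hz hd
      have h1 : z ∈ ⋃ k, A k := by rw [hAG]; exact ⟨hz, hd⟩
      obtain ⟨k, hk⟩ := mem_iUnion.1 h1
      calc ψ z = S k (g z) := (hS1 k z hk).symm
        _ ≤ ∑' k, S k (g z) := ENNReal.le_tsum k
    · intro t ht
      obtain ⟨k, hk⟩ : ∃ k, S k t ≠ 0 := by
        by_contra hcon
        push Not at hcon
        apply ht
        simp [hcon]
      obtain ⟨z, hz, hzt⟩ := hS2 k t hk
      exact ⟨z, (hVG k (hAV k hz)).1, hzt⟩
    · rw [lintegral_tsum fun k => (hSm k).aemeasurable]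
      simp only [hS3]
      rw [← lintegral_iUnion hAm (disjoint_disjointed V), hAG]

end

end Vale.Agent.P284.H494
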