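import Vale.Agent.P284.H494.T5A
import Vale.Agent.P284.H494.DT
import Vale.Agent.P284.H672.TB
import Vale.Agent.P284.H885.LimB

/-!
# P284 (helper494), T5: the local bound on a slice
-/

open scoped Manifold ContDiff Topology ENNReal
open Filter Set Metric MeasureTheory

noncomputable section

namespace Vale.Agent.P284.H494

open Vale.Agent.P272.K Vale.Agent.P284.H894.W Vale.Agent.P284.H894.G Vale.Agent.P284.H10
  Vale.Agent.P284.H672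

/-- the determinant is the minor on the standard basis -/
theorem det_eq_dt {q : ℕ} (L : Cm q →L[ℂ] Cm q) :
    L.det = (Matrix.of fun i j => L (Pi.single j 1) i).det := by
  rw [ContinuousLinearMap.det, ← LinearMap.det_toMatrix']
  congr 1

section
variable {n : ℕ} {X : Type} [TopologicalSpace X] [ChartedSpace (Cm n) X] {E : Type}
  [TopologicalSpace E] {p : E → X} {Γ : Type} [Group Γ] [MulAction Γ E]
  {w : Chart n X → Cm n → Matrix (Fin n) (Fin n) ℂ} {q : ℕ} {F : E → Cm q} {c : Γ → Cm q}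
  [IsManifold 𝓘(ℂ, Cm n) ω X]
  {W : Type} [NormedAddCommGroup W] [InnerProductSpace ℂ W] {h : E → W}

/-- the function `det (D(F ∘ lt)) • h ∘ lt` is locally bounded on a holomorphic slice `lt` -/
theorem loc_bound (hp : IsCoveringMap p) {B : ℝ} (hB : HolB p w F B) (hH : SheetHol n p F h)
    {lt : Cm q → E} {ζ₀ : Cm q} (hlt : ContinuousAt lt ζ₀)
    (hj : ∀ e : Chart n X, At e (p (lt ζ₀)) → AnalyticAt ℂ (fun ζ => e (p (lt ζ))) ζ₀) :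
    AnalyticAt ℂ (fun ζ => F (lt ζ)) ζ₀ ∧ ∃ C : ℝ, ∀ᶠ ζ in 𝓝 ζ₀,
      (fderiv ℂ (fun ζ => F (lt ζ)) ζ).det ≠ 0 → Reg (n := n) p F (lt ζ) ∧
        ‖(fderiv ℂ (fun ζ => F (lt ζ)) ζ).det‖ * ‖h (lt ζ)‖ ≤ C := by
  set e : Chart n X := chartAt (Cm n) (p (lt ζ₀)) with he0
  have he : At e (p (lt ζ₀)) := ⟨chart_mem_atlas _ _, mem_chart_source _ _⟩
  obtain ⟨f, hf, hfF⟩ := exists_expr hB (lt ζ₀) e he
  have hι := hj e he
  set ι : Cm q → Cm n := fun ζ => e (p (lt ζ)) with hιd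
  have hFf : ∀ᶠ ζ in 𝓝 ζ₀, F (lt ζ) = f (ι ζ) := hlt.eventually hfF
  have hfι : AnalyticAt ℂ (fun ζ => f (ι ζ)) ζ₀ := hf.fun_comp_of_eq hι rfl
  have hFa : AnalyticAt ℂ (fun ζ => F (lt ζ)) ζ₀ := hfι.congr (hFf.mono fun ζ h => h.symm)
  refine ⟨hFa, ?_⟩
  choose φ hφa hφ using hH.ext (lt ζ₀) e f he hf hfF
  -- bounds
  obtain ⟨M, hM⟩ : ∃ M : ℝ, ∀ᶠ ζ in 𝓝 ζ₀, ‖fderiv ℂ ι ζ‖ ≤ M := by
    refine ⟨‖fderiv ℂ ι ζ₀‖ + 1, ?_⟩
    have h1 : ContinuousAt (fun ζ => ‖fderiv ℂ ι ζ‖) ζ₀ := hι.fderiv.continuousAt.norm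
    filter_upwards [h1.eventually (gt_mem_nhds (show ‖fderiv ℂ ι ζ₀‖ < ‖fderiv ℂ ι ζ₀‖ + 1 by
      linarith))] with ζ hζ using hζ.le
  have hM0 : 0 ≤ M := (norm_nonneg _).trans hM.self_of_nhds
  have hφb : ∀ I : Fin q → Fin n, ∃ K : ℝ, ∀ᶠ ζ in 𝓝 ζ₀,
      ‖φ (fun j => Pi.single (I j) 1) (ι ζ)‖ ≤ K := by
    intro I
    refine ⟨‖φ (fun j => Pi.single (I j) 1) (ι ζ₀)‖ + 1, ?_⟩
    have h1 : ContinuousAt (fun ζ => ‖φ (fun j => Pi.single (I j) 1) (ι ζ)‖) ζ₀ :=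
      (ContinuousAt.comp (g := φ (fun j => Pi.single (I j) 1)) (f := ι)
        (hφa _).continuousAt hι.continuousAt).norm
    filter_upwards [h1.eventually (gt_mem_nhds (show ‖φ (fun j => Pi.single (I j) 1) (ι ζ₀)‖ <
      ‖φ (fun j => Pi.single (I j) 1) (ι ζ₀)‖ + 1 by linarith))] with ζ hζ using hζ.le
  choose K hK using hφb
  refine ⟨∑ I : Fin q → Fin n, M ^ q * K I, ?_⟩
  have h1 : ∀ᶠ ζ in 𝓝 ζ₀, ∀ᶠ y' in 𝓝 (lt ζ), F y' = f (e (p y')) :=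
    hlt.eventually hfF.eventually_nhds
  have h2 : ∀ᶠ ζ in 𝓝 ζ₀, AnalyticAt ℂ f (ι ζ) :=
    hι.continuousAt.eventually hf.eventually_analyticAt
  have h3 : ∀ᶠ ζ in 𝓝 ζ₀, AnalyticAt ℂ ι ζ := hι.eventually_analyticAt
  have h4 : ∀ᶠ ζ in 𝓝 ζ₀, At e (p (lt ζ)) := by
    have h5 : ContinuousAt (fun ζ => p (lt ζ)) ζ₀ :=
      ContinuousAt.comp (g := p) (f := lt) hp.continuous.continuousAt hlt
    filter_upwards [h5.eventually (e.open_source.mem_nhds he.2)] with ζ hζ using ⟨he.1, hζ⟩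
  have h6 : ∀ᶠ ζ in 𝓝 ζ₀, ∀ I : Fin q → Fin n, Reg (n := n) p F (lt ζ) →
      (Matrix.of fun i j => fderiv ℂ f (e (p (lt ζ))) (Pi.single (I j) 1) i).det • h (lt ζ) =
        φ (fun j => Pi.single (I j) 1) (e (p (lt ζ))) :=
    eventually_all.2 fun I => hlt.eventually (hφ _)
  filter_upwards [h1, h2, h3, h4, h6, hM, eventually_all.2 hK, hFf.eventually_nhds] with ζ k1 k2 k3
    k4 k6 kM kK kF hdet
  have hder : fderiv ℂ (fun ζ => F (lt ζ)) ζ = (fderiv ℂ f (ι ζ)).comp (fderiv ℂ ι ζ) := by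
    have h7 : (fun ζ => F (lt ζ)) =ᶠ[𝓝 ζ] fun ζ => f (ι ζ) := kF
    rw [h7.fderiv_eq]
    exact fderiv_fun_comp ζ k2.differentiableAt k3.differentiableAt
  have hreg : Reg (n := n) p F (lt ζ) := by
    refine reg_of_dt hp hB k4 (ξ := fun j => fderiv ℂ ι ζ (Pi.single j 1)) ?_
    rw [dt, TD_eq hp k4 k2 k1]
    rw [hder, det_eq_dt] at hdet
    exact hdet
  refine ⟨hreg, ?_⟩
  have h8 : (fderiv ℂ (fun ζ => F (lt ζ)) ζ).det = ∑ I : Fin q → Fin n,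
      (∏ j, fderiv ℂ ι ζ (Pi.single j 1) (I j)) *
        (Matrix.of fun i j => fderiv ℂ f (ι ζ) (Pi.single (I j) 1) i).det := by
    rw [hder, det_eq_dt]
    exact H885.Lim.dt_comp (fderiv ℂ f (ι ζ)) (fderiv ℂ ι ζ) fun j => Pi.single j 1
  have h9 : (fderiv ℂ (fun ζ => F (lt ζ)) ζ).det • h (lt ζ) = ∑ I : Fin q → Fin n,
      (∏ j, fderiv ℂ ι ζ (Pi.single j 1) (I j)) • φ (fun j => Pi.single (I j) 1) (ι ζ) := by
    rw [h8, Finset.sum_smul]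
    refine Finset.sum_congr rfl fun I _ => ?_
    rw [mul_smul, k6 I hreg]
  rw [← norm_smul, h9]
  refine (norm_sum_le _ _).trans (Finset.sum_le_sum fun I _ => ?_)
  rw [norm_smul]
  refine mul_le_mul ?_ (kK I) (norm_nonneg _) (pow_nonneg hM0 _)
  rw [norm_prod]
  calc ∏ j, ‖fderiv ℂ ι ζ (Pi.single j 1) (I j)‖ ≤ ∏ _j : Fin q, M := by
        refine Finset.prod_le_prod (fun _ _ => norm_nonneg _) fun j _ => ?_
        refine (norm_le_pi_norm _ (I j)).trans ?_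
        refine ((fderiv ℂ ι ζ).le_opNorm _).trans ?_
        rw [Pi.norm_single, norm_one, mul_one]
        exact kM
    _ = M ^ q := by simp

end

end Vale.Agent.P284.H494
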