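import Vale.Agent.P284.H494.T5B

/-!
# P284 (helper494), T5: the pieces of the sum
-/

open scoped Manifold ContDiff Topology ENNReal
open Filter Set Metric MeasureTheory

noncomputable section

namespace Vale.Agent.P284.H494

open Vale.Agent.P272.K Vale.Agent.P284.H894.W Vale.Agent.P284.H894.G Vale.Agent.P284.H10
  Vale.Agent.P284.H672 Vale.Agent.P284.H812

/-- locally bounded on a compact set -/
theorem bdd_of_loc {P : Type*} [TopologicalSpace P] {K : Set P} (hK : IsCompact K) {u : P → ℝ}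
    {D : P → Prop} (h : ∀ x ∈ K, ∃ C : ℝ, ∀ᶠ y in 𝓝 x, D y → u y ≤ C) :
    ∃ C : ℝ, ∀ x ∈ K, D x → u x ≤ C := by
  refine hK.induction_on (p := fun s => ∃ C : ℝ, ∀ x ∈ s, D x → u x ≤ C) ?_ ?_ ?_ ?_
  · exact ⟨0, fun x hx => absurd hx (notMem_empty x)⟩
  · rintro s t hst ⟨C, hC⟩
    exact ⟨C, fun x hx => hC x (hst hx)⟩
  · rintro s t ⟨C, hC⟩ ⟨C', hC'⟩
    refine ⟨max C C', fun x hx hd => ?_⟩
    rcases hx with hx | hx
    · exact (hC x hx hd).trans (le_max_left _ _)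
    · exact (hC' x hx hd).trans (le_max_right _ _)
  · intro x hx
    obtain ⟨C, hC⟩ := h x hx
    exact ⟨_, mem_nhdsWithin_of_mem_nhds hC, C, fun y hy => hy⟩

section
variable {n : ℕ} {X : Type} [TopologicalSpace X] [ChartedSpace (Cm n) X] {E : Type}
  [TopologicalSpace E] {p : E → X} {Γ : Type} [Group Γ] [MulAction Γ E]
  {w : Chart n X → Cm n → Matrix (Fin n) (Fin n) ℂ} {q : ℕ} {F : E → Cm q} {c : Γ → Cm q}
  {W : Type} [NormedAddCommGroup W] [InnerProductSpace ℂ W] {h : E → W}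

/-- `h` is constant on the components of the regular fibres -/
theorem h_same (hH : SheetHol n p F h) {y y' : E} (hy : F y ∈ RV n p F) (hs : Same F y y') :
    h y' = h y := by
  classical
  set C : Set E := connectedComponentIn (F ⁻¹' {F y}) y with hC
  have hyC : y ∈ C := mem_connectedComponentIn rfl
  have hCF : C ⊆ F ⁻¹' {F y} := connectedComponentIn_subset _ _
  have h1 : ContinuousOn (fun x => decide (h x = h y)) C := by
    intro x hx
    have hFx : F x = F y := hCF hx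
    obtain ⟨f, -, hf⟩ := hH.loc x (hy x hFx)
    have h2 : ∀ᶠ x' in 𝓝[C] x, decide (h x = h y) = decide (h x' = h y) := by
      filter_upwards [self_mem_nhdsWithin, mem_nhdsWithin_of_mem_nhds hf] with x' h3 h4
      have h5 : F x' = F y := hCF h3
      have h4' : h x' = f (F x') := h4
      rw [h4', hf.self_of_nhds, h5, hFx]
    exact continuousWithinAt_const.congr_of_eventuallyEq (h2.mono fun _ h => h.symm) rfl
  have h2 := isPreconnected_connectedComponentIn.constant h1 (show y' ∈ C from hs) hyC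
  simpa using h2

variable [IsManifold 𝓘(ℂ, Cm n) ω X]

/-- `h` is continuous at the regular points -/
theorem h_cont (hp : IsCoveringMap p) (hP : Per p w F c) (hH : SheetHol n p F h) {y : E}
    (hy : Reg (n := n) p F y) : ContinuousAt h y := by
  obtain ⟨f, hf, hfh⟩ := hH.loc y hy
  have h1 : ContinuousAt (fun y' => f (F y')) y :=
    ContinuousAt.comp (g := f) (f := F) hf.continuousAt (hP.continuous hp).continuousAt
  exact h1.congr (hfh.mono fun _ h => h.symm)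

variable {Z : Type} [TopologicalSpace Z] [ChartedSpace (Cm q) Z] [IsManifold 𝓘(ℂ, Cm q) ω Z]
  {j : Z → X}

/-- a lift of `j` in a chart, on a compact ball -/
theorem exists_lt (hp : IsGalois Γ p) (hP : Per p w F c)
    (hj : ContMDiff 𝓘(ℂ, Cm q) 𝓘(ℂ, Cm n) ω j) (z₀ : Z) :
    ∃ (cc : Chart q Z) (r : ℝ) (lt : Cm q → E), 0 < r ∧ At cc z₀ ∧
      (∀ ζ ∈ closedBall (cc z₀) r, ζ ∈ cc.target ∧ ContinuousAt lt ζ ∧
        (∀ᶠ ζ' in 𝓝 ζ, p (lt ζ') = j (cc.symm ζ')) ∧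
        ∀ e : Chart n X, At e (p (lt ζ)) → AnalyticAt ℂ (fun ζ => e (p (lt ζ))) ζ) := by
  obtain ⟨y₀, hy₀⟩ := hp.surj (j z₀)
  obtain ⟨O, l, hO, hzO, hlc, -, hlp⟩ := exists_lift hp.cov hj.continuous hy₀
  set cc : Chart q Z := chartAt (Cm q) z₀ with hcc
  have hc : At cc z₀ := at_chartAt z₀
  have hN : IsOpen (cc.target ∩ cc.symm ⁻¹' O) := cc.symm.isOpen_inter_preimage hO
  have hzN : cc z₀ ∈ cc.target ∩ cc.symm ⁻¹' O :=
    ⟨cc.map_source hc.2, by rw [mem_preimage, cc.left_inv hc.2]; exact hzO⟩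
  obtain ⟨r, hr, hb⟩ := Metric.nhds_basis_closedBall.mem_iff.1 (hN.mem_nhds hzN)
  refine ⟨cc, r, fun ζ => l (cc.symm ζ), hr, hc, fun ζ hζ => ?_⟩
  have hζN := hb hζ
  have hlt : ContinuousAt (fun ζ => l (cc.symm ζ)) ζ :=
    ContinuousAt.comp (g := l) (hlc.continuousAt (hO.mem_nhds hζN.2))
      (cc.continuousAt_symm hζN.1)
  have hpl : ∀ᶠ ζ' in 𝓝 ζ, p (l (cc.symm ζ')) = j (cc.symm ζ') := by
    filter_upwards [hN.mem_nhds hζN] with ζ' hζ' using hlp _ hζ'.2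
  refine ⟨hζN.1, hlt, hpl, fun e he => ?_⟩
  have h1 : AnalyticAt ℂ (fun ζ => e (j (cc.symm ζ))) ζ := by
    refine Vale.Agent.P284.H573.analyticAt_map (hj _) hc.1 hζN.1 ?_
    rw [← hlp _ hζN.2]
    exact he
  exact h1.congr (hpl.mono fun ζ' h => by simp only [h])

/-- one piece of the sum -/
theorem exists_piece (hp : IsGalois Γ p) (hP : Per p w F c) (hH : SheetHol n p F h)
    {ζ₀ : Cm q} {r : ℝ} {lt : Cm q → E}
    (hlt : ∀ ζ ∈ closedBall ζ₀ r, ContinuousAt lt ζ ∧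
      ∀ e : Chart n X, At e (p (lt ζ)) → AnalyticAt ℂ (fun ζ => e (p (lt ζ))) ζ) (γ : Γ) :
    ∃ S : Cm q → ℝ≥0∞, Measurable S ∧
      (∀ ζ ∈ ball ζ₀ r, (fderiv ℂ (fun ζ => F (γ • lt ζ)) ζ).det ≠ 0 →
        ENNReal.ofReal (‖h (γ • lt ζ)‖ ^ 2) ≤ S (F (γ • lt ζ))) ∧
      (∀ t, S t ≠ 0 → ∃ ζ ∈ ball ζ₀ r, F (γ • lt ζ) = t) ∧ ∫⁻ t, S t < ⊤ := by
  obtain ⟨B, hB⟩ := hP.hol
  have hpγ : ∀ y, p (γ • y) = p y := fun y => ((hp.orb y (γ • y)).2 ⟨γ, rfl⟩).symm
  have hlb : ∀ ζ ∈ closedBall ζ₀ r, AnalyticAt ℂ (fun ζ => F (γ • lt ζ)) ζ ∧ ∃ C : ℝ,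
      ∀ᶠ ζ in 𝓝 ζ, (fderiv ℂ (fun ζ => F (γ • lt ζ)) ζ).det ≠ 0 →
        Reg (n := n) p F (γ • lt ζ) ∧
        ‖(fderiv ℂ (fun ζ => F (γ • lt ζ)) ζ).det‖ * ‖h (γ • lt ζ)‖ ≤ C := by
    intro ζ hζ
    refine loc_bound (lt := fun ζ => γ • lt ζ) hp.cov hB hH
      (ContinuousAt.comp (g := fun y => γ • y) (hp.cont γ).continuousAt (hlt ζ hζ).1) ?_
    intro e he
    simp only [hpγ] at he ⊢
    exact (hlt ζ hζ).2 e he
  obtain ⟨C, hC⟩ := bdd_of_loc (isCompact_closedBall ζ₀ r)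
    (u := fun ζ => ‖(fderiv ℂ (fun ζ => F (γ • lt ζ)) ζ).det‖ * ‖h (γ • lt ζ)‖)
    (D := fun ζ => (fderiv ℂ (fun ζ => F (γ • lt ζ)) ζ).det ≠ 0) (by
      intro ζ hζ
      obtain ⟨-, C, hC⟩ := hlb ζ hζ
      exact ⟨C, hC.mono fun ζ' h1 h2 => (h1 h2).2⟩)
  obtain ⟨S, h1, h2, h3, h4⟩ := area_sum (isOpen_ball (x := ζ₀) (ε := r))
    (g := fun ζ => F (γ • lt ζ)) (fun ζ hζ => (hlb ζ (ball_subset_closedBall hζ)).1)
    (ψ := fun ζ => ENNReal.ofReal (‖h (γ • lt ζ)‖ ^ 2)) (by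
      intro ζ hζ hd
      obtain ⟨-, C, hC⟩ := hlb ζ (ball_subset_closedBall hζ)
      have hreg := (hC.self_of_nhds hd).1
      have h5 : ContinuousAt (fun ζ => γ • lt ζ) ζ :=
        ContinuousAt.comp (g := fun y => γ • y) (hp.cont γ).continuousAt
          (hlt ζ (ball_subset_closedBall hζ)).1
      have h6 : ContinuousAt (fun ζ => h (γ • lt ζ)) ζ :=
        ContinuousAt.comp (g := h) (h_cont hp.cov hP hH hreg) h5
      exact ENNReal.continuous_ofReal.continuousAt.comp (h6.norm.pow 2))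
  refine ⟨S, h1, h2, h3, ?_⟩
  rw [h4]
  calc ∫⁻ z in ball ζ₀ r ∩ {z | (fderiv ℂ (fun ζ => F (γ • lt ζ)) z).det ≠ 0},
        ‖(fderiv ℂ (fun ζ => F (γ • lt ζ)) z).det‖ₑ ^ 2 * ENNReal.ofReal (‖h (γ • lt z)‖ ^ 2)
      ≤ ∫⁻ _z in ball ζ₀ r ∩ {z | (fderiv ℂ (fun ζ => F (γ • lt ζ)) z).det ≠ 0},
        ENNReal.ofReal (C ^ 2) := by
        refine lintegral_mono_ae ?_
        have hm : NullMeasurableSet
            (ball ζ₀ r ∩ {z | (fderiv ℂ (fun ζ => F (γ • lt ζ)) z).det ≠ 0}) := by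
          refine (IsOpen.measurableSet ?_).nullMeasurableSet
          have hdc : ContinuousOn (fun z => (fderiv ℂ (fun ζ => F (γ • lt ζ)) z).det)
              (ball ζ₀ r) := fun z hz =>
            (ContinuousLinearMap.continuous_det.continuousAt.comp
              (hlb z (ball_subset_closedBall hz)).1.fderiv.continuousAt).continuousWithinAt
          exact hdc.isOpen_inter_preimage isOpen_ball isOpen_compl_singleton
        filter_upwards [ae_restrict_mem₀ hm] with z hz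
        have h5 := hC z (ball_subset_closedBall hz.1) hz.2
        rw [← ofReal_norm, ← ENNReal.ofReal_pow (norm_nonneg _), ← ENNReal.ofReal_mul (by positivity)]
        refine ENNReal.ofReal_le_ofReal ?_
        rw [← mul_pow]
        exact pow_le_pow_left₀ (by positivity) h5 2
    _ ≤ ∫⁻ _z in ball ζ₀ r, ENNReal.ofReal (C ^ 2) := lintegral_mono_set inter_subset_left
    _ = ENNReal.ofReal (C ^ 2) * volume (ball ζ₀ r) := setLIntegral_const _ _
    _ < ⊤ := ENNReal.mul_lt_top ENNReal.ofReal_lt_top measure_ball_lt_top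

end

end Vale.Agent.P284.H494
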