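import Vale.Agent.P284.H494.HF

/-!
# P284 (helper494): Taylor expansion of a derivative
-/

open scoped Manifold ContDiff Topology ENNReal
open Filter Set Metric MeasureTheory

noncomputable section

namespace Vale.Agent.P284.H494

open Vale.Agent.P272.K Vale.Agent.P284.H894.W Vale.Agent.P284.H894.G Vale.Agent.P284.H10
  Vale.Agent.P284.H573

/-- A nonzero germ has a nonzero iterated derivative along some line. -/
theorem exists_deriv_ne' {P W : Type*} [NormedAddCommGroup P] [NormedSpace ℂ P]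
    [NormedAddCommGroup W] [NormedSpace ℂ W] [CompleteSpace W] {g : P → W} {x₀ : P}
    (hg : AnalyticAt ℂ g x₀) (h0 : ¬ ∀ᶠ x in 𝓝 x₀, g x = 0) :
    ∃ (M : ℕ) (u : P), iteratedFDeriv ℂ M g x₀ (fun _ => u) ≠ 0 := by
  by_contra hcon
  push Not at hcon
  apply h0
  obtain ⟨q, ρ, hq⟩ := hg
  filter_upwards [Metric.eball_mem_nhds x₀ hq.r_pos] with y hy
  have h1 := hq.hasSum_sub hy
  have h2 : ∀ j, (q j fun _ => y - x₀) = 0 := by
    intro j
    have h3 := hq.factorial_smul (y - x₀) j
    rw [hcon j (y - x₀)] at h3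
    rw [← Nat.cast_smul_eq_nsmul ℂ] at h3
    exact (smul_eq_zero.1 h3).resolve_left (by exact_mod_cast Nat.factorial_ne_zero j)
  simp only [h2] at h1
  exact h1.unique hasSum_zero

/-- If all the derivatives of `f` of order at least one in the direction `η` vanish at `a₀`, then `f` is
constant in the direction `η`. -/
theorem taylor_zero {r : ℕ} {W : Type*} [NormedAddCommGroup W] [NormedSpace ℂ W] [CompleteSpace W]
    {f : Cm r → W} {a₀ η : Cm r} (hf : AnalyticAt ℂ f a₀)
    (h : ∀ (i : ℕ) (s : Fin i → Fin r),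
      fderiv ℂ (fun a => iteratedFDeriv ℂ i f a fun j => Pi.single (s j) 1) a₀ η = 0) :
    ∀ᶠ a in 𝓝 a₀, fderiv ℂ f a η = 0 := by
  have hiter : ∀ i, AnalyticAt ℂ (iteratedFDeriv ℂ i f) a₀ := fun i =>
    AnalyticOnNhd.iteratedFDeriv (s := {a₀})
      (fun x hx => by rw [mem_singleton_iff.1 hx]; exact hf) i _ rfl
  have hap : ∀ (i : ℕ) (m : Fin i → Cm r),
      fderiv ℂ (fun a => iteratedFDeriv ℂ i f a m) a₀ η = fderiv ℂ (iteratedFDeriv ℂ i f) a₀ η m := by
    intro i m
    have h1 := ((ContinuousMultilinearMap.apply ℂ (fun _ : Fin i => Cm r) W m).hasFDerivAt.comp a₀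
      (hiter i).differentiableAt.hasFDerivAt).fderiv
    have h2 : fderiv ℂ (fun a => iteratedFDeriv ℂ i f a m) a₀ =
        (ContinuousMultilinearMap.apply ℂ (fun _ : Fin i => Cm r) W m).comp
          (fderiv ℂ (iteratedFDeriv ℂ i f) a₀) := h1
    rw [h2]
    rfl
  have hz : ∀ (i : ℕ) (m : Fin i → Cm r), fderiv ℂ (iteratedFDeriv ℂ i f) a₀ η m = 0 := by
    intro i m
    have h1 : (fderiv ℂ (iteratedFDeriv ℂ i f) a₀ η).toMultilinearMap = 0 := by
      refine Module.Basis.ext_multilinear (fun _ => Pi.basisFun ℂ (Fin r)) fun s => ?_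
      have h2 := h i s
      rw [hap] at h2
      simp only [Pi.basisFun_apply]
      exact h2
    exact congrArg (fun L : MultilinearMap ℂ (fun _ : Fin i => Cm r) W => L m) h1
  by_contra hcon
  have hga : AnalyticAt ℂ (fun a => fderiv ℂ f a η) a₀ := fderiv_ap hf
  obtain ⟨M, x, hM⟩ := exists_deriv_ne' hga hcon
  apply hM
  have h1 : iteratedFDeriv ℂ M (fun a => fderiv ℂ f a η) a₀ (fun _ => x) =
      iteratedFDeriv ℂ M (fun a => fderiv ℂ f a) a₀ (fun _ => x) η := by
    have h2 := (ContinuousLinearMap.apply ℂ W η).iteratedFDeriv_comp_left (n := ω)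
      (f := fderiv ℂ f) (x := a₀) hf.fderiv.contDiffAt (i := M) le_top
    have h3 : iteratedFDeriv ℂ M (fun a => fderiv ℂ f a η) a₀ =
        (ContinuousLinearMap.apply ℂ W η).compContinuousMultilinearMap
          (iteratedFDeriv ℂ M (fderiv ℂ f) a₀) := h2
    rw [h3]
    rfl
  rw [h1]
  have h2 := iteratedFDeriv_succ_apply_right (𝕜 := ℂ) (f := f) (x := a₀)
    (Fin.snoc (fun _ : Fin M => x) η)
  rw [Fin.init_snoc, Fin.snoc_last] at h2
  rw [← h2]
  have h3 : (Fin.snoc (fun _ : Fin M => x) η : Fin (M + 1) → Cm r) =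
      (Fin.cons η (fun _ : Fin M => x) : Fin (M + 1) → Cm r) ∘ Equiv.swap 0 (Fin.last M) := by
    funext j
    rw [Function.comp_apply]
    refine Fin.lastCases ?_ (fun j => ?_) j
    · rw [Equiv.swap_apply_right]
      simp
    · rw [Fin.snoc_castSucc]
      have h4 : Equiv.swap 0 (Fin.last M) j.castSucc ≠ 0 := by
        intro h5
        have h6 : Equiv.swap 0 (Fin.last M) j.castSucc = Equiv.swap 0 (Fin.last M) (Fin.last M) := by
          rw [h5, Equiv.swap_apply_right]
        exact (Fin.castSucc_lt_last j).ne ((Equiv.swap 0 (Fin.last M)).injective h6)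
      obtain ⟨k, hk⟩ := Fin.exists_succ_eq.2 h4
      rw [← hk, Fin.cons_succ]
  rw [h3, ContDiffAt.iteratedFDeriv_comp_perm hf.contDiffAt, iteratedFDeriv_succ_apply_left,
    Fin.cons_zero, Fin.tail_cons]
  exact hz M _

end Vale.Agent.P284.H494
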